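import Vale.Agent.DoubleDimer.Defs

/-!
A criterion for Temperleyan approximation.
-/

open Set Filter Topology

namespace Vale.Agent.DoubleDimer

theorem subset_of_disjoint_frontier {V Ω : Set ℂ} (hΩ : IsOpen Ω) (hV : IsPreconnected V)
    (hne : (V ∩ Ω).Nonempty) (hd : ∀ z ∈ V, z ∉ frontier Ω) : V ⊆ Ω := by
  refine hV.subset_left_of_subset_union hΩ (isClosed_closure (s := Ω)).isOpen_compl ?_ ?_ hne
  · rw [Set.disjoint_compl_right_iff_subset]
    exact subset_closure
  · intro z hz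
    by_cases h : z ∈ closure Ω
    · left
      by_contra hn
      apply hd z hz
      rw [hΩ.frontier_eq]
      exact ⟨h, hn⟩
    · exact Or.inr h

theorem eventually_forall_of_compact {K : Set ℂ} (hK : IsCompact K) {p : ℝ → ℂ → Prop}
    (h : ∀ z ∈ K, ∀ᶠ q : ℝ × ℂ in (𝓝[>] (0 : ℝ)) ×ˢ 𝓝 z, p q.1 q.2) :
    ∀ᶠ δ in 𝓝[>] (0 : ℝ), ∀ z ∈ K, p δ z := by
  have h1 : {q : ℝ × ℂ | p q.1 q.2} ∈ (𝓝[>] (0 : ℝ)) ×ˢ 𝓝ˢ K :=
    hK.mem_prod_nhdsSet_of_forall h
  have h2 : {q : ℝ × ℂ | p q.1 q.2} ∈ (𝓝[>] (0 : ℝ)) ×ˢ 𝓟 K :=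
    (Filter.prod_mono_right _ principal_le_nhdsSet) h1
  exact Filter.mem_prod_principal.mp h2

theorem isTemperleyanApproximation_of {Ω : Set ℂ} (hΩ : IsOpen Ω) {R : ℝ}
    (hb : Ω ⊆ Metric.closedBall 0 R) {G : ℝ → TemperleyanGraph}
    (hmesh : ∀ᶠ δ in 𝓝[>] (0 : ℝ), (G δ).mesh = δ)
    (hin : ∀ z ∈ Ω, ∀ᶠ q : ℝ × ℂ in (𝓝[>] (0 : ℝ)) ×ˢ 𝓝 z, q.2 ∈ (G q.1).region)
    (hfr : ∀ z ∈ frontier Ω, ∀ᶠ δ in 𝓝[>] (0 : ℝ), z ∉ (G δ).region)
    (hout : ∀ z ∉ closure Ω, ∀ᶠ q : ℝ × ℂ in (𝓝[>] (0 : ℝ)) ×ˢ 𝓝 z,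
      q.2 ∉ frontier (G q.1).region)
    (hbd : ∀ᶠ δ in 𝓝[>] (0 : ℝ), (G δ).region ⊆ Metric.closedBall 0 R) :
    IsTemperleyanApproximation G Ω where
  mesh_eq := hmesh
  compact_subset K hK hKΩ :=
    eventually_forall_of_compact (p := fun δ z => z ∈ (G δ).region) hK fun z hz => hin z (hKΩ hz)
  kernel_subset V _ hVc hne hfreq := by
    refine subset_of_disjoint_frontier hΩ hVc.isPreconnected hne fun z hz hzf => ?_
    obtain ⟨δ, h1, h2⟩ := (hfreq.and_eventually (hfr z hzf)).exists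
    exact h2 (h1 hz)
  hausdorff := by
    rw [ENNReal.tendsto_nhds_zero]
    intro ε hε
    obtain ⟨r, hr0, hrε⟩ : ∃ r : ℝ, 0 < r ∧ ENNReal.ofReal r ≤ ε := by
      by_cases htop : ε = ⊤
      · exact ⟨1, one_pos, by rw [htop]; exact le_top⟩
      · exact ⟨ε.toReal, ENNReal.toReal_pos hε.ne' htop, by rw [ENNReal.ofReal_toReal htop]⟩
    -- compact part away from the frontier
    have hK1 : IsCompact (Metric.closedBall (0 : ℂ) R \ Metric.thickening r (frontier Ω)) :=
      (isCompact_closedBall 0 R).diff Metric.isOpen_thickening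
    have h1 : ∀ᶠ δ in 𝓝[>] (0 : ℝ), ∀ z ∈ Metric.closedBall (0 : ℂ) R \
        Metric.thickening r (frontier Ω), z ∉ frontier (G δ).region := by
      refine eventually_forall_of_compact (p := fun δ z => z ∉ frontier (G δ).region) hK1 ?_
      rintro z ⟨-, hz⟩
      by_cases hzΩ : z ∈ Ω
      · filter_upwards [hin z hzΩ] with q hq hqf
        rw [(G q.1).isOpen_region.frontier_eq] at hqf
        exact hqf.2 hq
      · refine hout z fun hcl => hz ?_
        refine Metric.self_subset_thickening hr0 _ ?_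
        rw [hΩ.frontier_eq]
        exact ⟨hcl, hzΩ⟩
    have hcf : IsCompact (frontier Ω) := by
      refine (isCompact_closedBall (0 : ℂ) R).of_isClosed_subset isClosed_frontier ?_
      exact frontier_subset_closure.trans (closure_minimal hb Metric.isClosed_closedBall)
    have h2 : ∀ᶠ δ in 𝓝[>] (0 : ℝ), ∀ z ∈ frontier Ω,
        ∃ w ∈ frontier (G δ).region, dist z w < r := by
      refine eventually_forall_of_compact
        (p := fun δ z => ∃ w ∈ frontier (G δ).region, dist z w < r) hcf fun z hz => ?_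
      obtain ⟨z', hz', hd⟩ := Metric.mem_closure_iff.mp (frontier_subset_closure hz) (r / 2)
        (half_pos hr0)
      have h3 : ∀ᶠ δ in 𝓝[>] (0 : ℝ), z' ∈ (G δ).region := by
        have := eventually_forall_of_compact (p := fun δ z => z ∈ (G δ).region)
          (isCompact_singleton (x := z')) (fun w hw => by
            rw [mem_singleton_iff] at hw
            subst hw
            exact hin _ hz')
        filter_upwards [this] with δ hδ
        exact hδ z' rfl
      have h4 : ∀ᶠ δ in 𝓝[>] (0 : ℝ), ∃ w ∈ frontier (G δ).region, dist z w < r / 2 := by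
        filter_upwards [h3, hfr z hz] with δ hδ1 hδ2
        by_contra hcon
        push Not at hcon
        refine hδ2 (subset_of_disjoint_frontier (G δ).isOpen_region
          (V := segment ℝ z z') (convex_segment z z').isPreconnected
          ⟨z', right_mem_segment ℝ z z', hδ1⟩ (fun w hw hwf => ?_) (left_mem_segment ℝ z z'))
        have h5 := hcon w hwf
        have h6 : dist z w ≤ dist z z' := by
          have := (convex_closedBall z (dist z z')).segment_subset
            (Metric.mem_closedBall_self dist_nonneg) (Metric.mem_closedBall.mpr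
              (le_of_eq (dist_comm z' z))) hw
          rw [Metric.mem_closedBall, dist_comm] at this
          exact this
        linarith
      have h7 : ∀ᶠ w in 𝓝 z, dist w z < r / 2 := Metric.ball_mem_nhds z (half_pos hr0)
      filter_upwards [h4.prod_mk h7] with q hq
      obtain ⟨⟨w, hw, hwd⟩, hq2⟩ := hq
      exact ⟨w, hw, by linarith [dist_triangle q.2 z w]⟩
    filter_upwards [h1, h2, hbd] with δ hδ1 hδ2 hδ3
    refine le_trans ?_ hrε
    refine Metric.hausdorffEDist_le_of_mem_edist (fun z hz => ?_) (fun z hz => ?_)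
    · have hz1 : z ∈ Metric.closedBall (0 : ℂ) R :=
        (frontier_subset_closure.trans (closure_minimal hδ3 Metric.isClosed_closedBall)) hz
      have hz2 : z ∈ Metric.thickening r (frontier Ω) := by
        by_contra hn
        exact hδ1 z ⟨hz1, hn⟩ hz
      obtain ⟨w, hw, hwd⟩ := Metric.mem_thickening_iff.mp hz2
      exact ⟨w, hw, by rw [edist_dist]; exact ENNReal.ofReal_le_ofReal hwd.le⟩
    · obtain ⟨w, hw, hwd⟩ := hδ2 z hz
      exact ⟨w, hw, by rw [edist_dist]; exact ENNReal.ofReal_le_ofReal hwd.le⟩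

end Vale.Agent.DoubleDimer
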