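import Vale.Agent.DoubleDimer.Families

/-!
The slit annuli with gate approximate the slit annulus.
-/

open Set Filter Topology

namespace Vale.Agent.DoubleDimer

theorem disjoint_slitAnnulus_rectU : Disjoint slitAnnulus rectU := by
  rw [Set.disjoint_left]
  intro z hz hz'
  rw [mem_slitAnnulus] at hz
  rw [rectU, mem_orect] at hz'
  apply hz.2.2
  refine ⟨hz'.1.le, hz'.2.1.le, hz'.2.2.1.le, hz'.2.2.2.le⟩

theorem region_subset_crect {a h : ℝ} (h0 : 0 < h) (ha : h < a) (ha1 : a ≤ 1) :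
    closure (region a h) ⊆ crect (-2) 2 (-2) 2 := by
  intro z hz
  rw [mem_closure_region h0 ha] at hz
  rw [mem_crect]
  rcases hz with ⟨h1, h2, h3, h4⟩ | ⟨h1, h2, h3, h4⟩ | ⟨h1, h2, h3, h4⟩ | ⟨h1, h2, h3, h4⟩ |
    ⟨h1, h2, h3, h4⟩ | ⟨h1, h2, h3, h4⟩ <;>
  refine ⟨?_, ?_, ?_, ?_⟩ <;> linarith

theorem hlt_of_cells {δ : ℝ} (h0 : 0 < δ) (h1 : δ < 1 / 8) :
    2 * δ < 2 * δ * cells δ := by
  obtain ⟨f1, -, -⟩ := cells_facts h0 h1
  have : (2 : ℝ) ≤ cells δ := by exact_mod_cast f1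
  nlinarith

theorem big_hin {z : ℂ} (hz : z ∈ slitAnnulus) :
    ∀ᶠ q : ℝ × ℂ in (𝓝[>] (0 : ℝ)) ×ˢ 𝓝 z, q.2 ∈ (bigFam q.1).region := by
  rw [mem_slitAnnulus] at hz
  obtain ⟨⟨z1, z2, z3, z4⟩, z5, z6⟩ := hz
  have key : 0 < z.im ∨ 1 < z.re ∨ (z.im < 0 ∧ z.re < -1) ∨ z.im < -1 := by
    rcases lt_trichotomy z.im 0 with h | h | h
    · by_cases h' : z.im < -1
      · exact Or.inr (Or.inr (Or.inr h'))
      · by_cases h'' : 1 < z.re
        · exact Or.inr (Or.inl h'')
        · refine Or.inr (Or.inr (Or.inl ⟨h, ?_⟩))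
          by_contra hcon
          exact z6 ⟨by linarith, by linarith, by linarith, h.le⟩
    · refine Or.inr (Or.inl ?_)
      have h1 : 0 < z.re := z5.resolve_right (fun h2 => h2 h)
      by_contra hcon
      exact z6 ⟨by linarith, by linarith, by linarith, h.le⟩
    · exact Or.inl h
  rcases key with k | k | ⟨k, k'⟩ | k
  · filter_upwards [eventually_rect (f₁ := fun δ => -(2 * (1 - 2 * δ)))
      (f₂ := fun δ => 2 * (1 - 2 * δ)) (f₃ := fun δ => 2 * δ) (f₄ := fun δ => 2 * (1 - 2 * δ))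
      (by fun_prop) (by fun_prop) (by fun_prop) (by fun_prop) (z := z)
      ⟨by linarith, by linarith, by linarith, by linarith⟩] with q hq
    obtain ⟨⟨h1, h2, h3, h4⟩, h5, h6⟩ := hq
    obtain ⟨-, f2, f3⟩ := cells_facts h5 h6
    rw [bigFam_region h5 h6, mem_region]
    refine Or.inr (Or.inr (Or.inr (Or.inr (Or.inr ⟨?_, ?_, ?_, ?_⟩)))) <;> linarith
  · filter_upwards [eventually_rect (f₁ := fun δ => 1 + 2 * δ)
      (f₂ := fun δ => 2 * (1 - 2 * δ)) (f₃ := fun δ => -(2 * (1 - 2 * δ)))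
      (f₄ := fun δ => 2 * (1 - 2 * δ))
      (by fun_prop) (by fun_prop) (by fun_prop) (by fun_prop) (z := z)
      ⟨by linarith, by linarith, by linarith, by linarith⟩] with q hq
    obtain ⟨⟨h1, h2, h3, h4⟩, h5, h6⟩ := hq
    obtain ⟨-, f2, f3⟩ := cells_facts h5 h6
    rw [bigFam_region h5 h6, mem_region]
    refine Or.inr (Or.inr (Or.inr (Or.inr (Or.inl ⟨?_, ?_, ?_, ?_⟩)))) <;> linarith
  · filter_upwards [eventually_rect (f₁ := fun δ => -(2 * (1 - 2 * δ)))
      (f₂ := fun δ => -(1 + 2 * δ)) (f₃ := fun δ => -(2 * (1 - 2 * δ)))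
      (f₄ := fun _ => 0)
      (by fun_prop) (by fun_prop) (by fun_prop) (by fun_prop) (z := z)
      ⟨by linarith, by linarith, by linarith, by linarith⟩] with q hq
    obtain ⟨⟨h1, h2, h3, h4⟩, h5, h6⟩ := hq
    obtain ⟨-, f2, f3⟩ := cells_facts h5 h6
    rw [bigFam_region h5 h6, mem_region]
    refine Or.inr (Or.inr (Or.inl ⟨?_, ?_, ?_, ?_⟩)) <;> linarith
  · filter_upwards [eventually_rect (f₁ := fun δ => -(2 * (1 - 2 * δ)))
      (f₂ := fun δ => 2 * (1 - 2 * δ)) (f₃ := fun δ => -(2 * (1 - 2 * δ)))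
      (f₄ := fun δ => -(1 + 2 * δ))
      (by fun_prop) (by fun_prop) (by fun_prop) (by fun_prop) (z := z)
      ⟨by linarith, by linarith, by linarith, by linarith⟩] with q hq
    obtain ⟨⟨h1, h2, h3, h4⟩, h5, h6⟩ := hq
    obtain ⟨-, f2, f3⟩ := cells_facts h5 h6
    rw [bigFam_region h5 h6, mem_region]
    refine Or.inr (Or.inr (Or.inr (Or.inl ⟨?_, ?_, ?_, ?_⟩))) <;> linarith

theorem big_hfr {z : ℂ} (hz : z ∈ frontier slitAnnulus) :
    ∀ᶠ δ in 𝓝[>] (0 : ℝ), z ∉ (bigFam δ).region := by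
  rw [isOpen_slitAnnulus.frontier_eq] at hz
  obtain ⟨hz1, hz2⟩ := hz
  have hz3 : z ∉ rectU := fun h =>
    (Set.disjoint_left.mp (disjoint_slitAnnulus_rectU.closure_left isOpen_rectU)) hz1 h
  have hev : ∀ᶠ δ in 𝓝[>] (0 : ℝ), z.im < 0 → 2 * δ < -z.im := by
    by_cases h : z.im < 0
    · have : ∀ᶠ δ in 𝓝[>] (0 : ℝ), δ < -z.im / 2 := by
        filter_upwards [Ioo_mem_nhdsGT (show (0 : ℝ) < -z.im / 2 by linarith)] with x hx
        exact hx.2
      filter_upwards [this] with δ hδ _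
      linarith
    · exact Filter.Eventually.of_forall fun δ h' => absurd h' h
  filter_upwards [eventually_small, hev] with δ h hδ hzδ
  obtain ⟨-, f2, f3⟩ := cells_facts h.1 h.2
  rw [bigFam_region h.1 h.2, mem_region] at hzδ
  rw [mem_slitAnnulus] at hz2
  rw [rectU, mem_orect] at hz3
  rcases hzδ with ⟨h1, h2, h3, h4⟩ | ⟨h1, h2, h3, h4⟩ | ⟨h1, h2, h3, h4⟩ | ⟨h1, h2, h3, h4⟩ |
    ⟨h1, h2, h3, h4⟩ | ⟨h1, h2, h3, h4⟩
  · exact hz3 ⟨by linarith, by linarith, by linarith, by linarith⟩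
  · have := hδ h4
    linarith
  · refine hz2 ⟨⟨by linarith, by linarith, by linarith, by linarith⟩, Or.inr h4.ne, fun hc => ?_⟩
    linarith
  · refine hz2 ⟨⟨by linarith, by linarith, by linarith, by linarith⟩,
      Or.inr (by linarith : z.im < 0).ne, fun hc => ?_⟩
    linarith
  · refine hz2 ⟨⟨by linarith, by linarith, by linarith, by linarith⟩,
      Or.inl (by linarith), fun hc => ?_⟩
    linarith
  · refine hz2 ⟨⟨by linarith, by linarith, by linarith, by linarith⟩,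
      Or.inr (by linarith : 0 < z.im).ne', fun hc => ?_⟩
    linarith

theorem big_hout {z : ℂ} (hz : z ∉ closure slitAnnulus) :
    ∀ᶠ q : ℝ × ℂ in (𝓝[>] (0 : ℝ)) ×ˢ 𝓝 z, q.2 ∉ frontier (bigFam q.1).region := by
  have key : z ∈ rectU ∨ z ∉ crect (-2) 2 (-2) 2 := by
    by_contra hcon
    push Not at hcon
    exact hz (mem_closure_slitAnnulus (mem_crect.mp hcon.2) hcon.1)
  rcases key with k | k
  · rw [rectU, mem_orect] at k
    filter_upwards [eventually_rect (f₁ := fun δ => -(1 - 2 * δ)) (f₂ := fun δ => 1 - 2 * δ)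
      (f₃ := fun δ => -(1 - 2 * δ)) (f₄ := fun _ => 0) (by fun_prop) (by fun_prop)
      (by fun_prop) (by fun_prop) (z := z) (by simpa using k)] with q hq hqf
    obtain ⟨⟨h1, h2, h3, h4⟩, h5, h6⟩ := hq
    obtain ⟨-, f2, f3⟩ := cells_facts h5 h6
    rw [bigFam_region h5 h6, (isOpen_region _ _).frontier_eq] at hqf
    apply hqf.2
    rw [mem_region]
    refine Or.inl ⟨?_, ?_, ?_, ?_⟩ <;> linarith
  · have hS : IsOpen {q : ℝ × ℂ | q.2 ∉ crect (-2) 2 (-2) 2} :=
      ((isClosed_crect _ _ _ _).isOpen_compl).preimage continuous_snd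
    filter_upwards [eventually_of_open hS (z := z) k] with q hq hqf
    obtain ⟨h1, h5, h6⟩ := hq
    obtain ⟨-, f2, f3⟩ := cells_facts h5 h6
    rw [bigFam_region h5 h6] at hqf
    exact h1 (region_subset_crect (by linarith) (hlt_of_cells h5 h6) f2
      (frontier_subset_closure hqf))

theorem crect_subset_closedBall : crect (-2) 2 (-2) 2 ⊆ Metric.closedBall 0 4 := by
  intro z hz
  rw [mem_crect] at hz
  rw [Metric.mem_closedBall, dist_zero_right]
  have := Complex.norm_le_abs_re_add_abs_im z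
  have h5 : |z.re| ≤ 2 := abs_le.mpr ⟨by linarith, by linarith⟩
  have h6 : |z.im| ≤ 2 := abs_le.mpr ⟨by linarith, by linarith⟩
  linarith

theorem big_approx : IsTemperleyanApproximation bigFam slitAnnulus := by
  refine isTemperleyanApproximation_of isOpen_slitAnnulus (R := 4)
    (inter_subset_left.trans ((orect_subset_ball (by norm_num) (by norm_num) (by norm_num)
      (by norm_num)).trans Metric.ball_subset_closedBall)) ?_ ?_ ?_ ?_ ?_
  · filter_upwards [eventually_small] with δ h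
    rw [bigFam_eq h.1 h.2]; rfl
  · intro z hz
    exact big_hin hz
  · intro z hz
    exact big_hfr hz
  · intro z hz
    exact big_hout hz
  · filter_upwards [eventually_small] with δ h
    obtain ⟨-, f2, f3⟩ := cells_facts h.1 h.2
    rw [bigFam_region h.1 h.2]
    exact subset_closure.trans ((region_subset_crect (by linarith [h.1]) (hlt_of_cells h.1 h.2) f2).trans
      crect_subset_closedBall)

end Vale.Agent.DoubleDimer
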