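import Vale.Agent.DoubleDimer.BigApprox

/-!
The slit annulus is contractible.
-/

open Set Filter Topology

namespace Vale.Agent.DoubleDimer

/-- the maximum norm -/
noncomputable def gmax (z : ℂ) : ℝ := max |z.re| |z.im|

theorem continuous_gmax : Continuous gmax := by
  unfold gmax
  exact (Complex.continuous_re.abs).max (Complex.continuous_im.abs)

theorem gmax_pos {z : ℂ} (h : z ≠ 0) : 0 < gmax z := by
  unfold gmax
  rw [lt_max_iff]
  by_contra hcon
  push Not at hcon
  apply h
  apply Complex.ext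
  · exact abs_nonpos_iff.mp hcon.1
  · exact abs_nonpos_iff.mp hcon.2

theorem gmax_mul {r : ℝ} (h : 0 ≤ r) (z : ℂ) : gmax ((r : ℂ) * z) = r * gmax z := by
  unfold gmax
  rw [Complex.re_ofReal_mul, Complex.im_ofReal_mul, abs_mul, abs_mul, abs_of_nonneg h,
    mul_max_of_nonneg _ _ h]

theorem gmax_le_one_of_mem {z : ℂ} (h : z ∈ crect (-1) 1 (-1) 0) : gmax z ≤ 1 := by
  rw [mem_crect] at h
  exact max_le (abs_le.mpr ⟨by linarith, by linarith⟩) (abs_le.mpr ⟨by linarith, by linarith⟩)

theorem mul_mem_slitAnnulus {z : ℂ} (hz : z ∈ Complex.slitPlane) {r : ℝ} (hr : 0 < r)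
    (h1 : r * gmax z < 2) (h2 : (r : ℂ) * z ∉ crect (-1) 1 (-1) 0) :
    (r : ℂ) * z ∈ slitAnnulus := by
  refine ⟨?_, ?_, h2⟩
  · rw [← gmax_mul hr.le] at h1
    unfold gmax at h1
    rw [max_lt_iff, abs_lt, abs_lt] at h1
    rw [mem_orect]
    exact ⟨h1.1.1, h1.1.2, h1.2.1, h1.2.2⟩
  · rw [Complex.mem_slitPlane_iff] at hz ⊢
    rw [Complex.re_ofReal_mul, Complex.im_ofReal_mul]
    rcases hz with h | h
    · exact Or.inl (mul_pos hr h)
    · exact Or.inr (mul_ne_zero hr.ne' h)

theorem slitAnnulus_slit {z : ℂ} (hz : z ∈ slitAnnulus) : z ∈ Complex.slitPlane := hz.2.1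

theorem slitAnnulus_ne {z : ℂ} (hz : z ∈ slitAnnulus) : z ≠ 0 :=
  Complex.slitPlane_ne_zero hz.2.1

theorem gmax_lt_two {z : ℂ} (hz : z ∈ slitAnnulus) : gmax z < 2 := by
  have := hz.1
  rw [mem_orect] at this
  exact max_lt (abs_lt.mpr ⟨this.1, this.2.1⟩) (abs_lt.mpr ⟨this.2.2.1, this.2.2.2⟩)

theorem scale_mem {z : ℂ} (hz : z ∈ Complex.slitPlane) :
    ((3 / 2 / gmax z : ℝ) : ℂ) * z ∈ slitAnnulus := by
  have h0 := gmax_pos (Complex.slitPlane_ne_zero hz)
  have h1 : 3 / 2 / gmax z * gmax z = 3 / 2 := by field_simp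
  refine mul_mem_slitAnnulus hz (by positivity) (by rw [h1]; norm_num) fun hc => ?_
  have := gmax_le_one_of_mem hc
  rw [gmax_mul (by positivity), h1] at this
  norm_num at this

theorem homotopy_mem {z : ℂ} (hz : z ∈ slitAnnulus) {t : ℝ} (h0 : 0 ≤ t) (h1 : t ≤ 1) :
    (((1 - t) + t * (3 / 2 / gmax z) : ℝ) : ℂ) * z ∈ slitAnnulus := by
  have hg := gmax_pos (slitAnnulus_ne hz)
  have hg2 := gmax_lt_two hz
  set r : ℝ := (1 - t) + t * (3 / 2 / gmax z) with hr
  have hs : 0 < 3 / 2 / gmax z := by positivity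
  have hr0 : 0 < r := by
    rcases h0.eq_or_lt with h | h
    · rw [hr, ← h]; norm_num
    · have := mul_pos h hs
      rw [hr]; linarith
  have hrg : r * gmax z = (1 - t) * gmax z + t * (3 / 2) := by
    rw [hr]; field_simp
  refine mul_mem_slitAnnulus (slitAnnulus_slit hz) hr0 ?_ fun hc => ?_
  · rw [hrg]
    nlinarith
  · by_cases hr1 : 1 ≤ r
    · apply hz.2.2
      rw [mem_crect, Complex.re_ofReal_mul, Complex.im_ofReal_mul] at hc
      rw [mem_crect]
      obtain ⟨c1, c2, c3, c4⟩ := hc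
      refine ⟨?_, ?_, ?_, ?_⟩
      · by_contra h; push Not at h; nlinarith
      · by_contra h; push Not at h; nlinarith
      · by_contra h; push Not at h; nlinarith
      · by_contra h; push Not at h; nlinarith
    · push Not at hr1
      have h2 := gmax_le_one_of_mem hc
      rw [gmax_mul hr0.le] at h2
      have h3 : 3 / 2 / gmax z < 1 := by
        by_contra h
        push Not at h
        rw [hr] at hr1
        nlinarith
      rw [div_lt_one hg] at h3
      rw [hrg] at h2
      nlinarith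

/-- The angular coordinate. -/
noncomputable def angle : C(slitAnnulus, Ioo (-Real.pi) Real.pi) where
  toFun z := ⟨Complex.arg z, Complex.neg_pi_lt_arg _,
    (Complex.arg_le_pi _).lt_of_ne (Complex.mem_slitPlane_iff_arg.mp (slitAnnulus_slit z.2)).1⟩
  continuous_toFun := by
    refine Continuous.subtype_mk ?_ _
    rw [continuous_iff_continuousAt]
    intro z
    exact (Complex.continuousAt_arg (slitAnnulus_slit z.2)).comp continuous_subtype_val.continuousAt

theorem exp_mem_slitPlane {φ : ℝ} (h : φ ∈ Ioo (-Real.pi) Real.pi) :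
    Complex.exp (φ * Complex.I) ∈ Complex.slitPlane := by
  rw [Complex.mem_slitPlane_iff_arg, Complex.arg_exp_mul_I, toIocMod_eq_self _ |>.mpr]
  · exact ⟨h.2.ne, Complex.exp_ne_zero _⟩
  · exact ⟨h.1, by linarith [h.2]⟩

/-- The curve transversal to the rays. -/
noncomputable def curve : C(Ioo (-Real.pi) Real.pi, slitAnnulus) where
  toFun φ := ⟨((3 / 2 / gmax (Complex.exp (((φ : ℝ) : ℂ) * Complex.I)) : ℝ) : ℂ) *
    Complex.exp (((φ : ℝ) : ℂ) * Complex.I), scale_mem (exp_mem_slitPlane φ.2)⟩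
  continuous_toFun := by
    refine Continuous.subtype_mk ?_ _
    have h1 : Continuous fun φ : Ioo (-Real.pi) Real.pi =>
        Complex.exp (((φ : ℝ) : ℂ) * Complex.I) := by fun_prop
    refine (Complex.continuous_ofReal.comp (Continuous.div₀ continuous_const
      (continuous_gmax.comp h1) fun φ => (gmax_pos (Complex.exp_ne_zero _)).ne')).mul h1

theorem angle_curve (φ : Ioo (-Real.pi) Real.pi) : angle (curve φ) = φ := by
  apply Subtype.ext
  change Complex.arg (((3 / 2 / gmax (Complex.exp (((φ : ℝ) : ℂ) * Complex.I)) : ℝ) : ℂ) *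
    Complex.exp (((φ : ℝ) : ℂ) * Complex.I)) = φ
  have hg := gmax_pos (Complex.exp_ne_zero (((φ : ℝ) : ℂ) * Complex.I))
  rw [Complex.arg_real_mul _ (by positivity), Complex.arg_exp_mul_I,
    toIocMod_eq_self _ |>.mpr]
  exact ⟨φ.2.1, by linarith [φ.2.2]⟩

theorem curve_angle (z : slitAnnulus) :
    (curve (angle z) : ℂ) = ((3 / 2 / gmax z : ℝ) : ℂ) * z := by
  change ((3 / 2 / gmax (Complex.exp (((Complex.arg z : ℝ) : ℂ) * Complex.I)) : ℝ) : ℂ) *
    Complex.exp (((Complex.arg z : ℝ) : ℂ) * Complex.I) = ((3 / 2 / gmax z : ℝ) : ℂ) * z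
  have h1 : ((‖(z : ℂ)‖ : ℝ) : ℂ) * Complex.exp (((Complex.arg z : ℝ) : ℂ) * Complex.I) = z :=
    Complex.norm_mul_exp_arg_mul_I z
  have hn : 0 < ‖(z : ℂ)‖ := norm_pos_iff.mpr (slitAnnulus_ne z.2)
  have hg := gmax_pos (Complex.exp_ne_zero (((Complex.arg z : ℝ) : ℂ) * Complex.I))
  set w := Complex.exp (((Complex.arg z : ℝ) : ℂ) * Complex.I) with hw
  rw [← h1, gmax_mul hn.le, ← mul_assoc, ← Complex.ofReal_mul]
  congr 2
  field_simp

/-- The homotopy along the rays. -/
noncomputable def rayHomotopy :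
    (ContinuousMap.id slitAnnulus).Homotopy (curve.comp angle) where
  toFun p := ⟨(((1 - (p.1 : ℝ)) + (p.1 : ℝ) * (3 / 2 / gmax p.2) : ℝ) : ℂ) * p.2,
    homotopy_mem p.2.2 p.1.2.1 p.1.2.2⟩
  continuous_toFun := by
    refine Continuous.subtype_mk ?_ _
    have h2 : Continuous fun p : unitInterval × slitAnnulus => (p.2 : ℂ) := by fun_prop
    have h3 : Continuous fun p : unitInterval × slitAnnulus => (p.1 : ℝ) := by fun_prop
    refine (Complex.continuous_ofReal.comp ((continuous_const.sub h3).add (h3.mul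
      (Continuous.div₀ continuous_const (continuous_gmax.comp h2)
        fun p => (gmax_pos (slitAnnulus_ne p.2.2)).ne')))).mul h2
  map_zero_left z := by
    apply Subtype.ext
    simp
  map_one_left z := by
    apply Subtype.ext
    rw [ContinuousMap.comp_apply, curve_angle]
    simp

/-- The slit annulus is homotopy equivalent to an interval. -/
noncomputable def equivIoo :
    ContinuousMap.HomotopyEquiv slitAnnulus (Ioo (-Real.pi) Real.pi) where
  toFun := angle
  invFun := curve
  left_inv := ⟨rayHomotopy.symm⟩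
  right_inv := by
    have : angle.comp curve = ContinuousMap.id _ := by
      ext φ
      rw [ContinuousMap.comp_apply, angle_curve]
      rfl
    rw [this]

theorem slitAnnulus_domain : IsBddSimplyConnectedDomain slitAnnulus := by
  refine ⟨isOpen_slitAnnulus, (isBounded_orect _ _ _ _).subset inter_subset_left, ?_⟩
  have h1 : ContractibleSpace (Ioo (-Real.pi) Real.pi) :=
    (convex_Ioo _ _).contractibleSpace ⟨0, by simp [Real.pi_pos]⟩
  have h2 : ContractibleSpace slitAnnulus := equivIoo.contractibleSpace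
  infer_instance

end Vale.Agent.DoubleDimer
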