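import Mathlib

/-!
Definitions for problem P155 (double-dimer loops and nested CLE_4), first part.
-/

open Set Filter Topology

namespace Vale.Agent.DoubleDimer

/-- Parametrized continuous loops `S¹ → ℂ`. -/
def PLoop : Type := C(Circle, ℂ)

/-- The infimum over all homeomorphisms `φ` of the circle (of either orientation) of the
uniform distance between `γ` and `γ' ∘ φ` (`dist` on `C(Circle, ℂ)` is the sup distance). -/
noncomputable def loopDist (γ γ' : C(Circle, ℂ)) : ℝ :=
  ⨅ φ : Circle ≃ₜ Circle, dist γ (γ'.comp (φ : C(Circle, Circle)))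

/-- The parametrized loop as a function on the circle. -/
noncomputable def PLoop.param (γ : PLoop) : Circle → ℂ := (show C(Circle, ℂ) from γ)

/-- The set of points visited by a parametrized loop. -/
noncomputable def PLoop.trace (γ : PLoop) : Set ℂ := Set.range γ.param

/-! ### Temperleyan graphs -/

/-- The point with integer coordinates `z` in the square grid of mesh `δ`. -/
def gridPt (δ : ℝ) (z : ℤ × ℤ) : ℂ := ⟨δ * z.1, δ * z.2⟩

/-- The two end points of the side from corner `i` to corner `i + 1` of a polygon with corners in
the grid of mesh `δ`. -/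
def ends (δ : ℝ) {n : ℕ} (corner : ZMod n → ℤ × ℤ) (i : ZMod n) : Set ℂ :=
  {gridPt δ (corner i), gridPt δ (corner (i + 1))}

/-- The side from corner `i` to corner `i + 1`. -/
def polySide (δ : ℝ) {n : ℕ} (corner : ZMod n → ℤ × ℤ) (i : ZMod n) : Set ℂ :=
  segment ℝ (gridPt δ (corner i)) (gridPt δ (corner (i + 1)))

/-- A Temperleyan graph of mesh `δ = mesh` (with coarse grid `2δℤ²`). -/
structure TemperleyanGraph where
  /-- the mesh `δ` -/
  mesh : ℝ
  mesh_pos : 0 < mesh
  /-- number of corners of the simple lattice polygon -/
  n : ℕ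
  four_le : 4 ≤ n
  /-- coarse coordinates of the corners, in cyclic order -/
  corner : ZMod n → ℤ × ℤ
  corner_injective : Function.Injective corner
  /-- the sides run along lines of the coarse grid -/
  axis_parallel : ∀ i, (corner i).1 = (corner (i + 1)).1 ∨ (corner i).2 = (corner (i + 1)).2
  /-- two different sides meet at most in a common corner -/
  simple : ∀ i j, i ≠ j → polySide (2 * mesh) corner i ∩ polySide (2 * mesh) corner j ⊆
    ends (2 * mesh) corner i ∩ ends (2 * mesh) corner j
  /-- the (open) region `P_δ` enclosed by the polygon -/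
  region : Set ℂ
  isOpen_region : IsOpen region
  isConnected_region : IsConnected region
  isBounded_region : Bornology.IsBounded region
  frontier_region : frontier region = ⋃ i, polySide (2 * mesh) corner i
  /-- coarse coordinates of the deleted boundary vertex -/
  deleted : ℤ × ℤ
  deleted_mem : gridPt (2 * mesh) deleted ∈ frontier region
  /-- the vertices of the graph, in coordinates of the fine grid `δℤ²` -/
  vert : Finset (ℤ × ℤ)
  mem_vert : ∀ z, z ∈ vert ↔
    gridPt mesh z ∈ closure region ∧ gridPt mesh z ≠ gridPt (2 * mesh) deleted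

namespace TemperleyanGraph

variable (G : TemperleyanGraph)

/-- The vertices of `G`, as a type. -/
abbrev Vertex : Type := {z : ℤ × ℤ // z ∈ G.vert}

/-- The integer coordinates of a vertex. -/
abbrev coord (v : G.Vertex) : ℤ × ℤ := v.1

/-- Nearest neighbours of the fine grid joined by an edge contained in the closed polygon. -/
def Adj (z w : ℤ × ℤ) : Prop :=
  |z.1 - w.1| + |z.2 - w.2| = 1 ∧
    segment ℝ (gridPt G.mesh z) (gridPt G.mesh w) ⊆ closure G.region

/-- Perfect matchings: involutions sending each vertex to one of its neighbours. -/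
structure PerfectMatching where
  partner : G.Vertex → G.Vertex
  prop : ∀ v, G.Adj (G.coord v) (G.coord (partner v)) ∧ partner (partner v) = v

variable {G}

/-- The vertices of the component of `v` in the superposition of two matchings. -/
def component (m₁ m₂ : G.PerfectMatching) (v : G.Vertex) : Set G.Vertex :=
  {u | Relation.ReflTransGen (fun x y => y = m₁.partner x ∨ y = m₂.partner x) v u}

/-- The straight edge of the plane between the vertices `u` and `w`. -/
def edge (u w : G.Vertex) : Set ℂ :=
  segment ℝ (gridPt G.mesh (G.coord u)) (gridPt G.mesh (G.coord w))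

/-- The points of the plane on edges of the component of `v` in the superposition. -/
def cycleTrace (m₁ m₂ : G.PerfectMatching) (v : G.Vertex) : Set ℂ :=
  ⋃ u ∈ component m₁ m₂ v, edge u (m₁.partner u) ∪ edge u (m₂.partner u)

end TemperleyanGraph

/-- Bounded simply connected domains of the plane. -/
def IsBddSimplyConnectedDomain (Ω : Set ℂ) : Prop :=
  IsOpen Ω ∧ Bornology.IsBounded Ω ∧ SimplyConnectedSpace Ω

/-- `G δ` are Temperleyan approximations of `Ω`: `G δ` has mesh `δ` for small `δ > 0`, its
polygons converge to `Ω` in the sense of Caratheodory (kernel convergence) and their boundaries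
converge to the boundary of `Ω` in the Hausdorff distance. -/
structure IsTemperleyanApproximation (G : ℝ → TemperleyanGraph) (Ω : Set ℂ) : Prop where
  mesh_eq : ∀ᶠ δ in 𝓝[>] (0 : ℝ), (G δ).mesh = δ
  compact_subset : ∀ K : Set ℂ, IsCompact K → K ⊆ Ω → ∀ᶠ δ in 𝓝[>] (0 : ℝ), K ⊆ (G δ).region
  kernel_subset : ∀ V : Set ℂ, IsOpen V → IsConnected V → (V ∩ Ω).Nonempty →
    (∃ᶠ δ in 𝓝[>] (0 : ℝ), V ⊆ (G δ).region) → V ⊆ Ω
  hausdorff : Tendsto (fun δ => Metric.hausdorffEDist (frontier (G δ).region) (frontier Ω))
    (𝓝[>] 0) (𝓝 0)

end Vale.Agent.DoubleDimer
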