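import Vale.Agent.DoubleDimer.LemA

/-!
Definitions for problem P155 (double-dimer loops and nested CLE_4), second part.
-/

open Set Filter Topology

namespace Vale.Agent.DoubleDimer

/-! ### Loops up to reparametrization -/

/-- Parametrized loops with the pseudo-distance `loopDist`. -/
noncomputable instance : PseudoMetricSpace PLoop where
  dist := loopDist
  dist_self γ := (loopDist_self γ).trans rfl
  dist_comm γ γ' := (loopDist_comm γ γ').trans rfl
  dist_triangle γ₁ γ₂ γ₃ := (loopDist_triangle γ₁ γ₂ γ₃).trans le_rfl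

/-- Loops: parametrized loops, identified when at distance `0`. -/
abbrev Loop : Type := SeparationQuotient PLoop

/-- The diameter of a loop. -/
noncomputable def Loop.diameter : Loop → ℝ :=
  SeparationQuotient.lift (fun γ : PLoop => Metric.diam γ.trace)
    (by exact fun γ γ' h => PLoop.diam_eq (Metric.inseparable_iff.mp h))

/-- The parametrized loop `γ` is a parametrization of the loop `ℓ`. -/
def PLoop.Represents (γ : PLoop) (ℓ : Loop) : Prop := SeparationQuotient.mk γ = ℓ

/-- `ℓ` is contained in `Ω`. -/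
def Loop.IsIn (ℓ : Loop) (Ω : Set ℂ) : Prop := ∃ γ : PLoop, γ.Represents ℓ ∧ γ.trace ⊆ Ω

/-! ### Loop collections and their topology -/

/-- A multiset (`mult` gives the multiplicities) of nonconstant loops, with finitely many
members of diameter `> ε` for each `ε > 0`. -/
structure LoopCollection where
  mult : Loop → ℕ
  nonconstant : ∀ ℓ, mult ℓ ≠ 0 → 0 < ℓ.diameter
  finite_large : ∀ ε : ℝ, 0 < ε → {ℓ | mult ℓ ≠ 0 ∧ ε < ℓ.diameter}.Finite

/-- The members of a loop collection, listed with multiplicity. -/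
def LoopCollection.Member (Γ : LoopCollection) : Type := Σ ℓ : Loop, Fin (Γ.mult ℓ)

/-- The loop of a member. -/
def LoopCollection.Member.loop {Γ : LoopCollection} (i : Γ.Member) : Loop := i.1

/-- Some partially defined bijection between `Γ` and `Γ'` covers every loop of diameter `> ε`
on either side and matches loops at distance `≤ ε`. -/
def LoopCollection.Close (ε : ℝ) (Γ Γ' : LoopCollection) : Prop :=
  ∃ f : Γ.Member ≃. Γ'.Member,
    (∀ i, ε < i.loop.diameter → (f i).isSome) ∧
    (∀ j, ε < j.loop.diameter → (f.symm j).isSome) ∧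
    (∀ i j, j ∈ f i → dist i.loop j.loop ≤ ε)

/-- `U` is open: each `Γ ∈ U` has some `ε > 0` such that all `Γ'` that are `ε`-close to `Γ` lie
in `U`. -/
def LoopCollection.IsOpenSet (U : Set LoopCollection) : Prop :=
  ∀ Γ ∈ U, ∃ ε > 0, ∀ Γ', Γ.Close ε Γ' → Γ' ∈ U

/-- The topology of the convergence `Γₙ → Γ` iff for each `ε > 0`, `Γ` and `Γₙ` are
`ε`-close for all large `n`. -/
instance : TopologicalSpace LoopCollection where
  IsOpen := LoopCollection.IsOpenSet
  isOpen_univ := fun _ _ => ⟨1, one_pos, fun _ _ => trivial⟩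
  isOpen_inter := by
    rintro U V hU hV Γ ⟨h1, h2⟩
    obtain ⟨ε, hε, h⟩ := hU Γ h1
    obtain ⟨ε', hε', h'⟩ := hV Γ h2
    refine ⟨min ε ε', lt_min hε hε', fun Γ' ⟨f, k1, k2, k3⟩ => ⟨h Γ' ⟨f, ?_, ?_, ?_⟩,
      h' Γ' ⟨f, ?_, ?_, ?_⟩⟩⟩ <;> grind
  isOpen_sUnion := by
    rintro S hS Γ ⟨U, hU, hΓ⟩
    obtain ⟨ε, hε, h⟩ := hS U hU Γ hΓ
    exact ⟨ε, hε, fun Γ' hc => ⟨U, hU, h Γ' hc⟩⟩

/-- The Borel sets. -/
instance : MeasurableSpace LoopCollection := borel _

/-- `ℓ` is the loop that traces, once and injectively, a cycle (not a doubled edge) of the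
superposition of `m₁` and `m₂`. -/
def TemperleyanGraph.IsCycleLoop {G : TemperleyanGraph} (m₁ m₂ : G.PerfectMatching)
    (ℓ : Loop) : Prop :=
  ∃ v, m₁.partner v ≠ m₂.partner v ∧ ∃ γ : PLoop, γ.Represents ℓ ∧
    Function.Injective γ.param ∧ γ.trace = cycleTrace m₁ m₂ v

end Vale.Agent.DoubleDimer
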