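import Vale.Agent.DoubleDimer.LemB

/-!
Definitions for problem P155 (double-dimer loops and nested CLE_4), third part.
-/

open Set Filter Topology MeasureTheory

namespace Vale.Agent.DoubleDimer

namespace TemperleyanGraph

variable {G : TemperleyanGraph}

open scoped Classical in
/-- The collection of the loops (each with multiplicity one) of the superposition. -/
noncomputable def loops (m₁ m₂ : G.PerfectMatching) : LoopCollection where
  mult ℓ := if IsCycleLoop m₁ m₂ ℓ then 1 else 0
  nonconstant := fun ℓ h => (by_contra fun hn => h (if_neg hn) : IsCycleLoop m₁ m₂ ℓ).diam_pos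
  finite_large := fun _ _ => (finite_isCycleLoop m₁ m₂).subset fun _ h =>
    by_contra fun hn => h.1 (if_neg hn)

noncomputable instance : Fintype G.PerfectMatching :=
  @Fintype.ofFinite _ (by have := finite_perfectMatching G; infer_instance)

/-- The expectation of `F (𝓛_δ)`, `𝓛_δ` being the loop collection of the superposition of two
independent uniform perfect matchings of `G`. -/
noncomputable def expect (G : TemperleyanGraph) (F : LoopCollection → ℝ) : ℝ :=
  (∑ m₁ : G.PerfectMatching, ∑ m₂ : G.PerfectMatching, F (loops m₁ m₂)) /
    (Fintype.card G.PerfectMatching : ℝ) ^ 2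

end TemperleyanGraph

/-- Convergence in law of the double-dimer loops of `G δ` to `ν` as `δ ↓ 0`. -/
def ConvergesInLaw (G : ℝ → TemperleyanGraph) (ν : ProbabilityMeasure LoopCollection) : Prop :=
  ∀ F : BoundedContinuousFunction LoopCollection ℝ,
    Tendsto (fun δ => (G δ).expect F) (𝓝[>] 0)
      (𝓝 (∫ Γ, F Γ ∂(ν : Measure LoopCollection)))

end Vale.Agent.DoubleDimer
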