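import Vale.Agent.DoubleDimer.Gate

/-!
The two families of Temperleyan graphs and their limit domains.
-/

open Set Filter Topology

namespace Vale.Agent.DoubleDimer

/-- The number of coarse cells per unit of length. -/
noncomputable def cells (δ : ℝ) : ℕ := ⌊1 / (2 * δ)⌋₊

theorem cells_facts {δ : ℝ} (h0 : 0 < δ) (h1 : δ < 1 / 8) :
    2 ≤ cells δ ∧ 2 * δ * cells δ ≤ 1 ∧ 1 - 2 * δ < 2 * δ * cells δ := by
  have hpos : 0 < 2 * δ := by positivity
  have h4 : (4 : ℝ) ≤ 1 / (2 * δ) := by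
    rw [le_div_iff₀ hpos]; linarith
  have h5 : (cells δ : ℝ) ≤ 1 / (2 * δ) := Nat.floor_le (by positivity)
  have h6 : 1 / (2 * δ) < (cells δ : ℝ) + 1 := Nat.lt_floor_add_one _
  refine ⟨?_, ?_, ?_⟩
  · refine Nat.le_floor ?_
    push_cast
    linarith
  · rw [le_div_iff₀ hpos] at h5
    linarith
  · rw [div_lt_iff₀ hpos] at h6
    linarith

open scoped Classical in
noncomputable def bigFam (δ : ℝ) : TemperleyanGraph :=
  if h : 0 < δ ∧ δ < 1 / 8 then bigGraph δ h.1 (cells δ) (cells_facts h.1 h.2).1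
  else bigGraph 1 one_pos 2 le_rfl

open scoped Classical in
noncomputable def smallFam (δ : ℝ) : TemperleyanGraph :=
  if h : 0 < δ ∧ δ < 1 / 8 then smallGraph δ h.1 (cells δ) (cells_facts h.1 h.2).1
  else smallGraph 1 one_pos 2 le_rfl

theorem bigFam_eq {δ : ℝ} (h0 : 0 < δ) (h1 : δ < 1 / 8) :
    bigFam δ = bigGraph δ h0 (cells δ) (cells_facts h0 h1).1 := by
  unfold bigFam
  rw [dif_pos ⟨h0, h1⟩]

theorem smallFam_eq {δ : ℝ} (h0 : 0 < δ) (h1 : δ < 1 / 8) :
    smallFam δ = smallGraph δ h0 (cells δ) (cells_facts h0 h1).1 := by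
  unfold smallFam
  rw [dif_pos ⟨h0, h1⟩]

theorem bigFam_region {δ : ℝ} (h0 : 0 < δ) (h1 : δ < 1 / 8) :
    (bigFam δ).region = region (2 * δ * cells δ) (2 * δ) := by
  rw [bigFam_eq h0 h1]; rfl

theorem smallFam_region {δ : ℝ} (h0 : 0 < δ) (h1 : δ < 1 / 8) :
    (smallFam δ).region =
      orect (-(2 * δ * cells δ)) (2 * δ * cells δ) (-(2 * δ * cells δ)) 0 := by
  rw [smallFam_eq h0 h1]; rfl

theorem eventually_small : ∀ᶠ δ in 𝓝[>] (0 : ℝ), 0 < δ ∧ δ < 1 / 8 :=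
  Ioo_mem_nhdsGT (by norm_num)

theorem eventually_of_open {z : ℂ} {S : Set (ℝ × ℂ)} (hS : IsOpen S) (h : (0, z) ∈ S) :
    ∀ᶠ q : ℝ × ℂ in (𝓝[>] (0 : ℝ)) ×ˢ 𝓝 z, q ∈ S ∧ 0 < q.1 ∧ q.1 < 1 / 8 := by
  have h1 : ∀ᶠ q : ℝ × ℂ in (𝓝[>] (0 : ℝ)) ×ˢ 𝓝 z, q ∈ S := by
    have h2 : ∀ᶠ q : ℝ × ℂ in (𝓝 (0 : ℝ)) ×ˢ 𝓝 z, q ∈ S := by
      rw [← nhds_prod_eq]
      exact hS.mem_nhds h
    exact h2.filter_mono (Filter.prod_mono_left _ nhdsWithin_le_nhds)
  have h3 : ∀ᶠ q : ℝ × ℂ in (𝓝[>] (0 : ℝ)) ×ˢ 𝓝 z, 0 < q.1 ∧ q.1 < 1 / 8 :=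
    eventually_small.prod_inl _
  exact h1.and h3

theorem isOpen_aux {f₁ f₂ f₃ f₄ : ℝ → ℝ} (h1 : Continuous f₁) (h2 : Continuous f₂)
    (h3 : Continuous f₃) (h4 : Continuous f₄) :
    IsOpen {q : ℝ × ℂ | f₁ q.1 < q.2.re ∧ q.2.re < f₂ q.1 ∧
      f₃ q.1 < q.2.im ∧ q.2.im < f₄ q.1} := by
  have hre : Continuous fun q : ℝ × ℂ => q.2.re := Complex.continuous_re.comp continuous_snd
  have him : Continuous fun q : ℝ × ℂ => q.2.im := Complex.continuous_im.comp continuous_snd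
  exact (isOpen_lt (h1.comp continuous_fst) hre).inter
    ((isOpen_lt hre (h2.comp continuous_fst)).inter
      ((isOpen_lt (h3.comp continuous_fst) him).inter
        (isOpen_lt him (h4.comp continuous_fst))))

theorem eventually_rect {f₁ f₂ f₃ f₄ : ℝ → ℝ} (h1 : Continuous f₁) (h2 : Continuous f₂)
    (h3 : Continuous f₃) (h4 : Continuous f₄) {z : ℂ}
    (h : f₁ 0 < z.re ∧ z.re < f₂ 0 ∧ f₃ 0 < z.im ∧ z.im < f₄ 0) :
    ∀ᶠ q : ℝ × ℂ in (𝓝[>] (0 : ℝ)) ×ˢ 𝓝 z, (f₁ q.1 < q.2.re ∧ q.2.re < f₂ q.1 ∧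
      f₃ q.1 < q.2.im ∧ q.2.im < f₄ q.1) ∧ 0 < q.1 ∧ q.1 < 1 / 8 :=
  eventually_of_open (isOpen_aux h1 h2 h3 h4) h

/-! ### The rectangle -/

def rectU : Set ℂ := orect (-1) 1 (-1) 0

theorem isOpen_rectU : IsOpen rectU := isOpen_orect _ _ _ _

theorem rectU_domain : IsBddSimplyConnectedDomain rectU := by
  refine ⟨isOpen_rectU, isBounded_orect _ _ _ _, ?_⟩
  have h1 : rectU.Nonempty := ⟨⟨0, -1/2⟩, by
    rw [rectU, mem_orect]
    norm_num⟩
  have : ContractibleSpace rectU := (convex_orect _ _ _ _).contractibleSpace h1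
  infer_instance

theorem orect_subset_ball {x₁ x₂ y₁ y₂ : ℝ} (h1 : -2 ≤ x₁) (h2 : x₂ ≤ 2) (h3 : -2 ≤ y₁)
    (h4 : y₂ ≤ 2) : orect x₁ x₂ y₁ y₂ ⊆ Metric.ball 0 4 := by
  intro z hz
  rw [mem_orect] at hz
  rw [Metric.mem_ball, dist_zero_right]
  have := Complex.norm_le_abs_re_add_abs_im z
  have h5 : |z.re| < 2 := abs_lt.mpr ⟨by linarith, by linarith⟩
  have h6 : |z.im| < 2 := abs_lt.mpr ⟨by linarith, by linarith⟩
  linarith

theorem small_approx : IsTemperleyanApproximation smallFam rectU := by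
  refine isTemperleyanApproximation_of isOpen_rectU (R := 4)
    ((orect_subset_ball (by norm_num) (by norm_num) (by norm_num) (by norm_num)).trans
      Metric.ball_subset_closedBall) ?_ ?_ ?_ ?_ ?_
  · filter_upwards [eventually_small] with δ h
    rw [smallFam_eq h.1 h.2]; rfl
  · intro z hz
    rw [rectU, mem_orect] at hz
    filter_upwards [eventually_rect (f₁ := fun δ => -(1 - 2 * δ)) (f₂ := fun δ => 1 - 2 * δ)
      (f₃ := fun δ => -(1 - 2 * δ)) (f₄ := fun _ => 0) (by fun_prop) (by fun_prop)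
      (by fun_prop) (by fun_prop) (z := z) (by simpa using hz)] with q hq
    obtain ⟨⟨h1, h2, h3, h4⟩, h5, h6⟩ := hq
    obtain ⟨-, f2, f3⟩ := cells_facts h5 h6
    rw [smallFam_region h5 h6, mem_orect]
    refine ⟨by linarith, by linarith, by linarith, h4⟩
  · intro z hz
    filter_upwards [eventually_small] with δ h hzδ
    obtain ⟨-, f2, f3⟩ := cells_facts h.1 h.2
    rw [smallFam_region h.1 h.2, mem_orect] at hzδ
    rw [isOpen_rectU.frontier_eq] at hz
    apply hz.2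
    rw [rectU, mem_orect]
    refine ⟨by linarith, by linarith, by linarith, by linarith⟩
  · intro z hz
    have hS : IsOpen {q : ℝ × ℂ | q.2 ∉ closure rectU} :=
      (isClosed_closure.isOpen_compl).preimage continuous_snd
    filter_upwards [eventually_of_open hS (z := z) hz] with q hq hqf
    obtain ⟨h1, h5, h6⟩ := hq
    obtain ⟨-, f2, f3⟩ := cells_facts h5 h6
    rw [smallFam_region h5 h6] at hqf
    apply h1
    refine closure_mono ?_ (frontier_subset_closure hqf)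
    intro w hw
    rw [mem_orect] at hw
    rw [rectU, mem_orect]
    refine ⟨by linarith, by linarith, by linarith, by linarith⟩
  · filter_upwards [eventually_small] with δ h
    obtain ⟨-, f2, f3⟩ := cells_facts h.1 h.2
    rw [smallFam_region h.1 h.2]
    exact (orect_subset_ball (by linarith) (by linarith) (by linarith) (by linarith)).trans
      Metric.ball_subset_closedBall

/-! ### The slit annulus -/

/-- The open square `(-2,2)²` minus the closed rectangle `[-1,1]×[-1,0]` and the slit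
`[-2,-1]×{0}`. -/
def slitAnnulus : Set ℂ :=
  orect (-2) 2 (-2) 2 ∩ (Complex.slitPlane ∩ (crect (-1) 1 (-1) 0)ᶜ)

theorem isClosed_crect (x₁ x₂ y₁ y₂ : ℝ) : IsClosed (crect x₁ x₂ y₁ y₂) :=
  isClosed_Icc.reProdIm isClosed_Icc

theorem isOpen_slitAnnulus : IsOpen slitAnnulus :=
  (isOpen_orect _ _ _ _).inter (Complex.isOpen_slitPlane.inter (isClosed_crect _ _ _ _).isOpen_compl)

theorem mem_slitAnnulus {z : ℂ} : z ∈ slitAnnulus ↔
    (-2 < z.re ∧ z.re < 2 ∧ -2 < z.im ∧ z.im < 2) ∧ (0 < z.re ∨ z.im ≠ 0) ∧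
      ¬ (-1 ≤ z.re ∧ z.re ≤ 1 ∧ -1 ≤ z.im ∧ z.im ≤ 0) := by
  unfold slitAnnulus
  rw [mem_inter_iff, mem_inter_iff, mem_orect, Complex.mem_slitPlane_iff, mem_compl_iff, mem_crect]

theorem mem_closure_slitAnnulus {z : ℂ} (h : -2 ≤ z.re ∧ z.re ≤ 2 ∧ -2 ≤ z.im ∧ z.im ≤ 2)
    (h' : z ∉ rectU) : z ∈ closure slitAnnulus := by
  have key : z ∈ crect (-2) 2 0 2 ∨ z ∈ crect 1 2 (-2) 2 ∨ z ∈ crect (-2) 2 (-2) (-1) ∨
      z ∈ crect (-2) (-1) (-2) 0 := by
    rw [rectU, mem_orect] at h'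
    simp only [mem_crect]
    grind -ring (splits := 20)
  rcases key with k | k | k | k
  · rw [← closure_orect (by norm_num) (by norm_num)] at k
    refine closure_mono (fun w hw => ?_) k
    rw [mem_orect] at hw
    rw [mem_slitAnnulus]
    refine ⟨⟨by linarith, by linarith, by linarith, by linarith⟩, Or.inr (by linarith [hw.2.2.1]), fun h => ?_⟩
    linarith
  · rw [← closure_orect (by norm_num) (by norm_num)] at k
    refine closure_mono (fun w hw => ?_) k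
    rw [mem_orect] at hw
    rw [mem_slitAnnulus]
    refine ⟨⟨by linarith, by linarith, by linarith, by linarith⟩, Or.inl (by linarith), fun h => ?_⟩
    linarith
  · rw [← closure_orect (by norm_num) (by norm_num)] at k
    refine closure_mono (fun w hw => ?_) k
    rw [mem_orect] at hw
    rw [mem_slitAnnulus]
    refine ⟨⟨by linarith, by linarith, by linarith, by linarith⟩, Or.inr (by linarith [hw.2.2.1]), fun h => ?_⟩
    linarith
  · rw [← closure_orect (by norm_num) (by norm_num)] at k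
    refine closure_mono (fun w hw => ?_) k
    rw [mem_orect] at hw
    rw [mem_slitAnnulus]
    refine ⟨⟨by linarith, by linarith, by linarith, by linarith⟩, Or.inr (by linarith [hw.2.2.1]), fun h => ?_⟩
    linarith

end Vale.Agent.DoubleDimer
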