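import Vale.Agent.DoubleDimer.Contract

/-!
The double-dimer loops of some Temperleyan approximations do not converge to the loops of the
limit domain.
-/

open Set Filter Topology MeasureTheory

namespace Vale.Agent.DoubleDimer

theorem rectU_subset_ball : rectU ⊆ Metric.ball 0 4 :=
  orect_subset_ball (by norm_num) (by norm_num) (by norm_num) (by norm_num)

theorem expect_small_le_big {δ : ℝ} (h0 : 0 < δ) (h1 : δ < 1 / 8) :
    (smallFam δ).expect (LoopCollection.sup rectU) ≤
      4 * (bigFam δ).expect (LoopCollection.sup rectU) := by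
  rw [smallFam_eq h0 h1, bigFam_eq h0 h1]
  exact TemperleyanGraph.Island.expect_le (I := island δ h0 (cells δ) (cells_facts h0 h1).1) _
    (fun Γ => Γ.sup_nonneg) (fun Γ Γ' h => LoopCollection.sup_mono rectU_subset_ball
      (by norm_num) h)

theorem not_forall_convergesInLaw (ν : Set ℂ → ProbabilityMeasure LoopCollection)
    (hin : ∀ Ω, IsBddSimplyConnectedDomain Ω →
      ∀ᵐ Γ ∂(ν Ω : Measure LoopCollection), ∀ ℓ, Γ.mult ℓ ≠ 0 → ℓ.IsIn Ω)
    (hne : ∀ Ω, IsBddSimplyConnectedDomain Ω →
      ∀ᵐ Γ ∂(ν Ω : Measure LoopCollection), ∃ ℓ, Γ.mult ℓ ≠ 0) :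
    ¬ ∀ Ω, IsBddSimplyConnectedDomain Ω → ∀ G : ℝ → TemperleyanGraph,
      IsTemperleyanApproximation G Ω → ConvergesInLaw G (ν Ω) := by
  intro hcon
  have hR0 : (0 : ℝ) ≤ 4 := by norm_num
  have hU := hcon rectU rectU_domain smallFam small_approx (supBCF rectU_subset_ball hR0)
  have hΩ := hcon slitAnnulus slitAnnulus_domain bigFam big_approx
    (supBCF rectU_subset_ball hR0)
  have h1 : ∫ Γ, supBCF rectU_subset_ball hR0 Γ ∂(ν slitAnnulus : Measure LoopCollection) = 0 := by
    refine integral_eq_zero_of_ae ?_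
    filter_upwards [hin _ slitAnnulus_domain] with Γ hΓ
    exact LoopCollection.sup_eq_zero disjoint_slitAnnulus_rectU hΓ
  have h2 : 0 < ∫ Γ, supBCF rectU_subset_ball hR0 Γ ∂(ν rectU : Measure LoopCollection) := by
    have hnn : 0 ≤ fun Γ => supBCF rectU_subset_ball hR0 Γ := fun Γ => Γ.sup_nonneg
    have hi : Integrable (fun Γ => supBCF rectU_subset_ball hR0 Γ)
        (ν rectU : Measure LoopCollection) := BoundedContinuousFunction.integrable _ _
    refine (integral_nonneg hnn).lt_of_ne' fun h => ?_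
    rw [integral_eq_zero_iff_of_nonneg hnn hi] at h
    have h3 : ∀ᵐ Γ ∂(ν rectU : Measure LoopCollection), False := by
      filter_upwards [h, hin _ rectU_domain, hne _ rectU_domain] with Γ hΓ1 hΓ2 hΓ3
      obtain ⟨ℓ, hℓ⟩ := hΓ3
      exact (LoopCollection.sup_pos rectU_subset_ball hR0 isOpen_rectU hℓ (hΓ2 ℓ hℓ)).ne' hΓ1
    rw [Filter.eventually_false_iff_eq_bot, ae_eq_bot] at h3
    exact (IsProbabilityMeasure.ne_zero (ν rectU : Measure LoopCollection)) h3
  rw [h1] at hΩ
  have h4 := le_of_tendsto_of_tendsto hU (hΩ.const_mul 4) (by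
    filter_upwards [eventually_small] with δ h
    exact expect_small_le_big h.1 h.2)
  linarith

end Vale.Agent.DoubleDimer
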