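import Vale.Agent.DoubleDimer.Defs

/-!
A bounded continuous functional on loop collections that detects loops reaching inside `U`.
-/

open Set Filter Topology MeasureTheory

namespace Vale.Agent.DoubleDimer

variable (U : Set ℂ)

noncomputable def PLoop.depth (γ : PLoop) : ℝ := ⨆ t, Metric.infDist (γ.param t) Uᶜ

theorem PLoop.bddAbove_depth (γ : PLoop) :
    BddAbove (Set.range fun t => Metric.infDist (γ.param t) Uᶜ) := by
  have hc : Continuous γ.param := (show C(Circle, ℂ) from γ).continuous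
  exact (isCompact_range ((Metric.continuous_infDist_pt _).comp hc)).bddAbove

theorem PLoop.infDist_le_depth (γ : PLoop) (t : Circle) :
    Metric.infDist (γ.param t) Uᶜ ≤ γ.depth U :=
  le_ciSup (γ.bddAbove_depth U) t

theorem PLoop.depth_le (γ γ' : PLoop) : γ.depth U ≤ γ'.depth U + dist γ γ' := by
  refine le_of_forall_pos_le_add fun ε hε => ?_
  obtain ⟨φ, hφ⟩ := γ.exists_close γ' hε
  refine ciSup_le fun t => ?_
  have h1 : Metric.infDist (γ.param t) Uᶜ ≤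
      Metric.infDist (γ'.param (φ t)) Uᶜ + dist (γ.param t) (γ'.param (φ t)) :=
    Metric.infDist_le_infDist_add_dist
  linarith [γ'.infDist_le_depth U (φ t), hφ t]

theorem PLoop.depth_nonneg (γ : PLoop) : 0 ≤ γ.depth U :=
  Real.iSup_nonneg fun _ => Metric.infDist_nonneg

noncomputable def Loop.depth : Loop → ℝ :=
  SeparationQuotient.lift (fun γ : PLoop => γ.depth U) fun γ γ' h => by
    have h0 : dist γ γ' = 0 := Metric.inseparable_iff.mp h
    have h1 := γ.depth_le U γ'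
    have h2 := γ'.depth_le U γ
    rw [dist_comm] at h2
    exact le_antisymm (by linarith) (by linarith)

theorem Loop.diam_nonneg (ℓ : Loop) : 0 ≤ ℓ.diameter := by
  obtain ⟨γ, rfl⟩ := SeparationQuotient.surjective_mk ℓ
  exact Metric.diam_nonneg

theorem Loop.diam_le (ℓ ℓ' : Loop) : ℓ.diameter ≤ ℓ'.diameter + 2 * dist ℓ ℓ' := by
  obtain ⟨γ, rfl⟩ := SeparationQuotient.surjective_mk ℓ
  obtain ⟨γ', rfl⟩ := SeparationQuotient.surjective_mk ℓ'
  exact γ.diam_le γ'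

/-- The value of the functional on one loop. -/
noncomputable def Loop.height (ℓ : Loop) : ℝ := min ℓ.diameter (ℓ.depth U)

theorem Loop.height_nonneg (ℓ : Loop) : 0 ≤ ℓ.height U := by
  obtain ⟨γ, rfl⟩ := SeparationQuotient.surjective_mk ℓ
  exact le_min Metric.diam_nonneg (γ.depth_nonneg U)

theorem Loop.height_le (ℓ ℓ' : Loop) : ℓ.height U ≤ ℓ'.height U + 2 * dist ℓ ℓ' := by
  have h1 := ℓ.diam_le ℓ'
  have h2 : ℓ.depth U ≤ ℓ'.depth U + dist ℓ ℓ' := by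
    obtain ⟨γ, rfl⟩ := SeparationQuotient.surjective_mk ℓ
    obtain ⟨γ', rfl⟩ := SeparationQuotient.surjective_mk ℓ'
    exact γ.depth_le U γ'
  have h3 := dist_nonneg (x := ℓ) (y := ℓ')
  unfold Loop.height
  rcases min_choice ℓ'.diameter (ℓ'.depth U) with h | h <;> rw [h]
  · exact (min_le_left _ _).trans h1
  · exact (min_le_right _ _).trans (by linarith)

variable {U}

theorem infDist_compl_le {R : ℝ} (hR : U ⊆ Metric.ball 0 R) (hR0 : 0 ≤ R) (z : ℂ) :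
    Metric.infDist z Uᶜ ≤ 2 * R := by
  by_cases hz : z ∈ U
  · have h1 : (R : ℂ) ∈ Uᶜ := fun h => by
      have := hR h
      simp [abs_of_nonneg hR0] at this
    have h2 := hR hz
    rw [Metric.mem_ball, dist_zero_right] at h2
    refine (Metric.infDist_le_dist_of_mem h1).trans ?_
    rw [dist_eq_norm]
    refine (norm_sub_le _ _).trans ?_
    rw [Complex.norm_real, Real.norm_of_nonneg hR0]
    linarith
  · rw [Metric.infDist_zero_of_mem (show z ∈ Uᶜ from hz)]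
    positivity

theorem Loop.height_le_of_subset_ball {R : ℝ} (hR : U ⊆ Metric.ball 0 R) (hR0 : 0 ≤ R)
    (ℓ : Loop) : ℓ.height U ≤ 2 * R := by
  refine (min_le_right _ _).trans ?_
  obtain ⟨γ, rfl⟩ := SeparationQuotient.surjective_mk ℓ
  exact ciSup_le fun t => infDist_compl_le hR hR0 _

variable (U)

/-- The functional. -/
noncomputable def LoopCollection.sup (Γ : LoopCollection) : ℝ :=
  ⨆ ℓ : {ℓ : Loop // Γ.mult ℓ ≠ 0}, (ℓ : Loop).height U

variable {U}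

theorem LoopCollection.bddAbove_sup {R : ℝ} (hR : U ⊆ Metric.ball 0 R) (hR0 : 0 ≤ R)
    (Γ : LoopCollection) :
    BddAbove (Set.range fun ℓ : {ℓ : Loop // Γ.mult ℓ ≠ 0} => (ℓ : Loop).height U) :=
  ⟨2 * R, by rintro _ ⟨ℓ, rfl⟩; exact Loop.height_le_of_subset_ball hR hR0 _⟩

theorem LoopCollection.sup_nonneg (Γ : LoopCollection) : 0 ≤ Γ.sup U :=
  Real.iSup_nonneg fun _ => Loop.height_nonneg U _

theorem LoopCollection.le_sup {R : ℝ} (hR : U ⊆ Metric.ball 0 R) (hR0 : 0 ≤ R)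
    (Γ : LoopCollection) {ℓ : Loop} (h : Γ.mult ℓ ≠ 0) : ℓ.height U ≤ Γ.sup U :=
  le_ciSup (Γ.bddAbove_sup hR hR0) ⟨ℓ, h⟩

theorem LoopCollection.sup_le_two_mul {R : ℝ} (hR : U ⊆ Metric.ball 0 R) (hR0 : 0 ≤ R)
    (Γ : LoopCollection) : Γ.sup U ≤ 2 * R :=
  Real.iSup_le (fun ℓ => Loop.height_le_of_subset_ball hR hR0 _) (by positivity)

theorem LoopCollection.Close.symm {ε : ℝ} {Γ Γ' : LoopCollection} (h : Γ.Close ε Γ') :
    Γ'.Close ε Γ := by
  obtain ⟨f, h1, h2, h3⟩ := h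
  refine ⟨f.symm, h2, fun i hi => by simpa using h1 i hi, fun j i hij => ?_⟩
  rw [dist_comm]
  exact h3 i j ((PEquiv.mem_iff_mem f).mp hij)

theorem LoopCollection.Close.sup_le {R : ℝ} (hR : U ⊆ Metric.ball 0 R) (hR0 : 0 ≤ R)
    {ε : ℝ} (hε : 0 ≤ ε) {Γ Γ' : LoopCollection} (h : Γ.Close ε Γ') :
    Γ.sup U ≤ Γ'.sup U + 2 * ε := by
  obtain ⟨f, h1, h2, h3⟩ := h
  have h0 := Γ'.sup_nonneg (U := U)
  refine Real.iSup_le ?_ (by positivity)
  rintro ⟨ℓ, hℓ⟩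
  by_cases hd : ε < ℓ.diameter
  · obtain ⟨j, hj⟩ := Option.isSome_iff_exists.mp (h1 ⟨ℓ, ⟨0, Nat.pos_of_ne_zero hℓ⟩⟩ hd)
    have h4 := h3 _ j hj
    have h5 : Γ'.mult j.1 ≠ 0 := Nat.pos_iff_ne_zero.mp (Fin.pos j.2)
    have h6 := Γ'.le_sup hR hR0 h5
    have h7 := ℓ.height_le U j.1
    have h4' : dist ℓ j.1 ≤ ε := h4
    simp only
    linarith
  · have h4 : ℓ.height U ≤ ℓ.diameter := min_le_left _ _
    simp only
    linarith [not_lt.mp hd]

theorem LoopCollection.continuous_sup {R : ℝ} (hR : U ⊆ Metric.ball 0 R) (hR0 : 0 ≤ R) :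
    Continuous (LoopCollection.sup U) := by
  rw [continuous_def]
  intro V hV Γ hΓ
  obtain ⟨ε, hε, hball⟩ := Metric.isOpen_iff.mp hV _ hΓ
  refine ⟨ε / 3, by positivity, fun Γ' hc => hball ?_⟩
  have h1 := hc.sup_le hR hR0 (by positivity)
  have h2 := hc.symm.sup_le hR hR0 (by positivity)
  rw [Metric.mem_ball, Real.dist_eq, abs_lt]
  constructor <;> linarith

/-- The bounded continuous functional. -/
noncomputable def supBCF {R : ℝ} (hR : U ⊆ Metric.ball 0 R) (hR0 : 0 ≤ R) :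
    BoundedContinuousFunction LoopCollection ℝ :=
  BoundedContinuousFunction.ofNormedAddCommGroup (LoopCollection.sup U)
    (LoopCollection.continuous_sup hR hR0) (2 * R) fun Γ => by
      rw [Real.norm_of_nonneg Γ.sup_nonneg]
      exact Γ.sup_le_two_mul hR hR0

theorem LoopCollection.sup_mono {R : ℝ} (hR : U ⊆ Metric.ball 0 R) (hR0 : 0 ≤ R)
    {Γ Γ' : LoopCollection} (h : ∀ ℓ, Γ.mult ℓ ≠ 0 → Γ'.mult ℓ ≠ 0) : Γ.sup U ≤ Γ'.sup U :=
  Real.iSup_le (fun ℓ => Γ'.le_sup hR hR0 (h _ ℓ.2)) Γ'.sup_nonneg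

theorem LoopCollection.sup_eq_zero {Γ : LoopCollection} {Ω : Set ℂ} (hd : Disjoint Ω U)
    (h : ∀ ℓ, Γ.mult ℓ ≠ 0 → ℓ.IsIn Ω) : Γ.sup U = 0 := by
  refine le_antisymm (Real.iSup_le ?_ le_rfl) Γ.sup_nonneg
  rintro ⟨ℓ, hℓ⟩
  obtain ⟨γ, rfl, hγ⟩ := h ℓ hℓ
  refine (min_le_right _ _).trans (ciSup_le fun t => le_of_eq ?_)
  exact Metric.infDist_zero_of_mem (Set.disjoint_left.mp hd (hγ (Set.mem_range_self t)))

theorem LoopCollection.sup_pos {R : ℝ} (hR : U ⊆ Metric.ball 0 R) (hR0 : 0 ≤ R)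
    (hU : IsOpen U) {Γ : LoopCollection} {ℓ : Loop} (hℓ : Γ.mult ℓ ≠ 0) (h : ℓ.IsIn U) :
    0 < Γ.sup U := by
  refine lt_of_lt_of_le ?_ (Γ.le_sup hR hR0 hℓ)
  have hd := Γ.nonconstant ℓ hℓ
  obtain ⟨γ, rfl, hγ⟩ := h
  refine lt_min hd (lt_of_lt_of_le ?_ (γ.infDist_le_depth U 1))
  have h1 : (Uᶜ).Nonempty := ⟨(R : ℂ), fun h => by
    have := hR h
    simp [abs_of_nonneg hR0] at this⟩
  rw [← (isClosed_compl_iff.mpr hU).notMem_iff_infDist_pos h1]
  exact fun h => h (hγ (Set.mem_range_self 1))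

end Vale.Agent.DoubleDimer
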