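import Vale.Agent.DoubleDimer.Functional

/-!
Decoupling of the matchings of a Temperleyan graph through a gate of one coarse cell.
-/

open Set Filter Topology MeasureTheory

namespace Vale.Agent.DoubleDimer

namespace TemperleyanGraph

variable {G GU : TemperleyanGraph}

theorem Adj.symm {z w : ℤ × ℤ} (h : G.Adj z w) : G.Adj w z := by
  obtain ⟨h1, h2⟩ := h
  refine ⟨?_, by rw [segment_symm]; exact h2⟩
  rw [abs_sub_comm w.1, abs_sub_comm w.2]
  exact h1

theorem Adj.ne {z w : ℤ × ℤ} (h : G.Adj z w) : z ≠ w := by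
  rintro rfl
  have := h.1
  simp at this

/-- `GU` sits in `G`, behind a gate crossed by the two edges `ab`, `cd` only. -/
structure Island (G GU : TemperleyanGraph) where
  mesh_eq : G.mesh = GU.mesh
  sub : GU.vert ⊆ G.vert
  adj_iff : ∀ z ∈ GU.vert, ∀ w ∈ GU.vert, (G.Adj z w ↔ GU.Adj z w)
  a : ℤ × ℤ
  b : ℤ × ℤ
  c : ℤ × ℤ
  d : ℤ × ℤ
  ha : a ∈ GU.vert
  hc : c ∈ GU.vert
  hb : b ∈ G.vert
  hd : d ∈ G.vert
  hb' : b ∉ GU.vert
  hd' : d ∉ GU.vert
  cross : ∀ z ∈ GU.vert, ∀ w ∈ G.vert, w ∉ GU.vert → G.Adj z w →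
    (z = a ∧ w = b) ∨ (z = c ∧ w = d)
  adj_ac : G.Adj a c
  adj_bd : G.Adj b d
  even : Even GU.vert.card
  rest : ∃ r : ℤ × ℤ → ℤ × ℤ, ∀ z ∈ G.vert, z ∉ GU.vert →
    r z ∈ G.vert ∧ r z ∉ GU.vert ∧ G.Adj z (r z) ∧ r (r z) = z

namespace Island

variable (I : Island G GU)

/-- Inclusion of the island. -/
def ι (v : GU.vert) : G.vert := ⟨v, I.sub v.2⟩

theorem ι_injective : Function.Injective I.ι := fun v w h => by
  have := congrArg (fun x : G.vert => (x : ℤ × ℤ)) h
  exact Subtype.ext this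

/-- Matchings of the complement of the island. -/
def RestMatching (_I : Island G GU) : Type :=
  {r : {v : G.vert // (v : ℤ × ℤ) ∉ GU.vert} → {v : G.vert // (v : ℤ × ℤ) ∉ GU.vert} //
    ∀ v : {v : G.vert // (v : ℤ × ℤ) ∉ GU.vert},
      G.Adj (v : G.vert) (r v : G.vert) ∧ r (r v) = v}

noncomputable instance : Fintype I.RestMatching :=
  @Fintype.ofFinite _ (Subtype.finite)

theorem nonempty_rest : Nonempty I.RestMatching := by
  obtain ⟨r, hr⟩ := I.rest
  refine ⟨⟨fun v => ⟨⟨r v.1, (hr v.1 v.1.2 v.2).1⟩, (hr v.1 v.1.2 v.2).2.1⟩, fun v =>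
    ⟨(hr v.1 v.1.2 v.2).2.2.1, ?_⟩⟩⟩
  exact Subtype.ext (Subtype.ext (hr v.1 v.1.2 v.2).2.2.2)

open scoped Classical in
/-- Gluing a matching of the island and a matching of the complement. -/
noncomputable def glueFun (u : GU.PerfectMatching) (r : I.RestMatching) (v : G.vert) : G.vert :=
  if h : (v : ℤ × ℤ) ∈ GU.vert then I.ι (u.1 ⟨v, h⟩) else (r.1 ⟨v, h⟩).1

theorem glueFun_ι (u : GU.PerfectMatching) (r : I.RestMatching) (v : GU.vert) :
    I.glueFun u r (I.ι v) = I.ι (u.1 v) := by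
  unfold glueFun
  rw [dif_pos (show ((I.ι v : G.vert) : ℤ × ℤ) ∈ GU.vert from v.2)]
  rfl

theorem glueFun_rest (u : GU.PerfectMatching) (r : I.RestMatching)
    (v : {v : G.vert // (v : ℤ × ℤ) ∉ GU.vert}) :
    I.glueFun u r v = (r.1 v).1 := by
  unfold glueFun
  rw [dif_neg v.2]

noncomputable def glue (u : GU.PerfectMatching) (r : I.RestMatching) : G.PerfectMatching :=
  ⟨I.glueFun u r, fun v => by
    by_cases h : (v : ℤ × ℤ) ∈ GU.vert
    · have hv : v = I.ι ⟨v, h⟩ := rfl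
      rw [hv, glueFun_ι, glueFun_ι, (u.2 ⟨v, h⟩).2]
      exact ⟨(I.adj_iff _ h _ (u.1 ⟨v, h⟩).2).mpr (u.2 ⟨v, h⟩).1, rfl⟩
    · have hv : v = ((⟨v, h⟩ : {v : G.vert // (v : ℤ × ℤ) ∉ GU.vert}) : G.vert) := rfl
      rw [hv, glueFun_rest, glueFun_rest, (r.2 ⟨v, h⟩).2]
      exact ⟨(r.2 ⟨v, h⟩).1, rfl⟩⟩

theorem glue_injective :
    Function.Injective (fun p : GU.PerfectMatching × I.RestMatching => I.glue p.1 p.2) := by
  rintro ⟨u, r⟩ ⟨u', r'⟩ h
  have h1 : I.glueFun u r = I.glueFun u' r' := congrArg PerfectMatching.partner h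
  refine Prod.ext (PerfectMatching.ext' (funext fun v => ?_)) (Subtype.ext (funext fun v => ?_))
  · have := congrFun h1 (I.ι v)
    rw [glueFun_ι, glueFun_ι] at this
    exact I.ι_injective this
  · have := congrFun h1 v
    rw [glueFun_rest, glueFun_rest] at this
    exact Subtype.ext this

/-- Matchings without edges through the gate. -/
def Decoupled (_I : Island G GU) (m : G.PerfectMatching) : Prop :=
  ∀ v : G.vert, (v : ℤ × ℤ) ∈ GU.vert → (m.1 v : ℤ × ℤ) ∈ GU.vert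

theorem exists_glue {m : G.PerfectMatching} (hm : I.Decoupled m) :
    ∃ p : GU.PerfectMatching × I.RestMatching, I.glue p.1 p.2 = m := by
  have hm' : ∀ v : G.vert, (v : ℤ × ℤ) ∉ GU.vert → (m.1 v : ℤ × ℤ) ∉ GU.vert := by
    intro v hv h
    have := hm _ h
    rw [(m.2 v).2] at this
    exact hv this
  refine ⟨⟨⟨fun v => ⟨m.1 (I.ι v), hm _ v.2⟩, fun v => ⟨?_, ?_⟩⟩,
    ⟨fun v => ⟨m.1 v, hm' _ v.2⟩, fun v => ⟨(m.2 v).1, Subtype.ext (m.2 v).2⟩⟩⟩, ?_⟩
  · exact (I.adj_iff _ v.2 _ (hm _ v.2)).mp (m.2 (I.ι v)).1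
  · have h1 : I.ι ⟨m.1 (I.ι v), hm _ v.2⟩ = m.1 (I.ι v) := rfl
    apply Subtype.ext
    show ((m.1 (I.ι ⟨m.1 (I.ι v), hm _ v.2⟩) : G.vert) : ℤ × ℤ) = v
    rw [h1, (m.2 _).2]
    rfl
  · refine PerfectMatching.ext' (funext fun v => ?_)
    show I.glueFun _ _ v = m.1 v
    by_cases h : (v : ℤ × ℤ) ∈ GU.vert
    · have hv : v = I.ι ⟨v, h⟩ := rfl
      conv_lhs => rw [hv]
      rw [glueFun_ι]
      rfl
    · have hv : v = ((⟨v, h⟩ : {v : G.vert // (v : ℤ × ℤ) ∉ GU.vert}) : G.vert) := rfl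
      conv_lhs => rw [hv]
      rw [glueFun_rest]

/-! ### The two gate edges are used together -/

theorem even_of_stable (m : G.PerfectMatching) (S : Finset G.vert)
    (hS : ∀ v ∈ S, m.1 v ∈ S) : Even S.card := by
  have h : ∑ _x ∈ S, (1 : ZMod 2) = 0 := by
    refine Finset.sum_involution (fun v _ => m.1 v) (fun _ _ => by decide)
      (fun v _ _ h => ?_) (fun v hv => hS v hv) (fun v _ => (m.2 v).2)
    exact (m.2 v).1.ne (congrArg Subtype.val h).symm
  rw [Finset.sum_const, nsmul_eq_mul, mul_one] at h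
  exact (ZMod.natCast_eq_zero_iff_even).mp h

/-- vertices of the island, in `G.vert`. -/
noncomputable def image : Finset G.vert := Finset.univ.map ⟨I.ι, I.ι_injective⟩

theorem card_image : I.image.card = GU.vert.card := by
  simp [image]

theorem mem_image {v : G.vert} : v ∈ I.image ↔ (v : ℤ × ℤ) ∈ GU.vert := by
  simp only [image, Finset.mem_map, Finset.mem_univ, true_and, Function.Embedding.coeFn_mk]
  constructor
  · rintro ⟨w, rfl⟩
    exact w.2
  · intro h
    exact ⟨⟨v, h⟩, rfl⟩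

include I in
/-- If exactly the vertex `x` of the island is matched outside, contradiction. -/
theorem false_of_unique (m : G.PerfectMatching) (x : G.vert) (hx : (x : ℤ × ℤ) ∈ GU.vert)
    (hmx : (m.1 x : ℤ × ℤ) ∉ GU.vert)
    (h : ∀ v : G.vert, (v : ℤ × ℤ) ∈ GU.vert → v ≠ x → (m.1 v : ℤ × ℤ) ∈ GU.vert) : False := by
  classical
  have h1 : Even (I.image.erase x).card := by
    refine even_of_stable m _ fun v hv => ?_
    rw [Finset.mem_erase, I.mem_image] at hv ⊢
    refine ⟨fun he => ?_, h v hv.2 hv.1⟩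
    apply hmx
    rw [← he, (m.2 v).2]
    exact hv.2
  rw [Finset.card_erase_of_mem (I.mem_image.mpr hx), card_image] at h1
  have h2 := I.even
  have h3 : 0 < GU.vert.card := Finset.card_pos.mpr ⟨_, hx⟩
  obtain ⟨k, hk⟩ := h1
  obtain ⟨l, hl⟩ := h2
  omega

/-- the four gate vertices, in `G.vert`. -/
def A : G.vert := ⟨I.a, I.sub I.ha⟩
def B : G.vert := ⟨I.b, I.hb⟩
def C : G.vert := ⟨I.c, I.sub I.hc⟩
def D : G.vert := ⟨I.d, I.hd⟩

theorem cross' {m : G.PerfectMatching} {v : G.vert} (hv : (v : ℤ × ℤ) ∈ GU.vert)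
    (hmv : (m.1 v : ℤ × ℤ) ∉ GU.vert) :
    (v = I.A ∧ m.1 v = I.B) ∨ (v = I.C ∧ m.1 v = I.D) := by
  rcases I.cross v hv (m.1 v) (m.1 v).2 hmv (m.2 v).1 with ⟨h1, h2⟩ | ⟨h1, h2⟩
  · exact Or.inl ⟨Subtype.ext h1, Subtype.ext h2⟩
  · exact Or.inr ⟨Subtype.ext h1, Subtype.ext h2⟩

theorem A_ne_C : I.A ≠ I.C := fun h => I.adj_ac.ne (congrArg Subtype.val h)
theorem B_ne_D : I.B ≠ I.D := fun h => I.adj_bd.ne (congrArg Subtype.val h)
theorem A_ne_B : I.A ≠ I.B := fun h => I.hb' (by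
  have := congrArg Subtype.val h
  rw [← show I.a = I.b from this]; exact I.ha)
theorem A_ne_D : I.A ≠ I.D := fun h => I.hd' (by
  have := congrArg Subtype.val h
  rw [← show I.a = I.d from this]; exact I.ha)
theorem C_ne_B : I.C ≠ I.B := fun h => I.hb' (by
  have := congrArg Subtype.val h
  rw [← show I.c = I.b from this]; exact I.hc)
theorem C_ne_D : I.C ≠ I.D := fun h => I.hd' (by
  have := congrArg Subtype.val h
  rw [← show I.c = I.d from this]; exact I.hc)

theorem gate {m : G.PerfectMatching} (hm : ¬ I.Decoupled m) :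
    m.1 I.A = I.B ∧ m.1 I.C = I.D := by
  unfold Decoupled at hm
  push Not at hm
  obtain ⟨v, hv, hmv⟩ := hm
  by_contra hne
  rw [not_and_or] at hne
  refine I.false_of_unique m v hv hmv fun w hw hwv => ?_
  by_contra hmw
  rcases I.cross' hv hmv with ⟨h1, h2⟩ | ⟨h1, h2⟩ <;>
  rcases I.cross' hw hmw with ⟨h3, h4⟩ | ⟨h3, h4⟩
  · exact hwv (h3.trans h1.symm)
  · rcases hne with h | h
    · exact h (h1 ▸ h2)
    · exact h (h3 ▸ h4)
  · rcases hne with h | h
    · exact h (h3 ▸ h4)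
    · exact h (h1 ▸ h2)
  · exact hwv (h3.trans h1.symm)

open scoped Classical in
/-- Flip of the gate square. -/
noncomputable def flipFun (m : G.PerfectMatching) (v : G.vert) : G.vert :=
  Equiv.swap I.B I.C (m.1 (Equiv.swap I.B I.C v))

theorem flip_invol (m : G.PerfectMatching) (v : G.vert) :
    I.flipFun m (I.flipFun m v) = v := by
  simp [flipFun, (m.2 _).2]

theorem flip_A {m : G.PerfectMatching} (hm : ¬ I.Decoupled m) : I.flipFun m I.A = I.C := by
  simp [flipFun, Equiv.swap_apply_of_ne_of_ne I.A_ne_B I.A_ne_C, (I.gate hm).1]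

theorem flip_C {m : G.PerfectMatching} (hm : ¬ I.Decoupled m) : I.flipFun m I.C = I.A := by
  have h := I.flip_invol m I.A
  rwa [I.flip_A hm] at h

theorem flip_B {m : G.PerfectMatching} (hm : ¬ I.Decoupled m) : I.flipFun m I.B = I.D := by
  simp [flipFun, (I.gate hm).2, Equiv.swap_apply_of_ne_of_ne I.B_ne_D.symm I.C_ne_D.symm]

theorem flip_D {m : G.PerfectMatching} (hm : ¬ I.Decoupled m) : I.flipFun m I.D = I.B := by
  have h := I.flip_invol m I.B
  rwa [I.flip_B hm] at h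

theorem flip_other {m : G.PerfectMatching} (hm : ¬ I.Decoupled m) {v : G.vert}
    (hA : v ≠ I.A) (hB : v ≠ I.B) (hC : v ≠ I.C) (hD : v ≠ I.D) :
    I.flipFun m v = m.1 v := by
  have h1 : m.1 v ≠ I.B := fun h => hA (by
    rw [← (m.2 v).2, h, ← (I.gate hm).1, (m.2 _).2])
  have h2 : m.1 v ≠ I.C := fun h => hD (by
    rw [← (m.2 v).2, h, (I.gate hm).2])
  simp [flipFun, Equiv.swap_apply_of_ne_of_ne hB hC, Equiv.swap_apply_of_ne_of_ne h1 h2]

noncomputable def flip (m : {m : G.PerfectMatching // ¬ I.Decoupled m}) : G.PerfectMatching :=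
  ⟨I.flipFun m.1, fun v => by
    refine ⟨?_, I.flip_invol _ _⟩
    by_cases hA : v = I.A
    · rw [hA, I.flip_A m.2]; exact I.adj_ac
    by_cases hB : v = I.B
    · rw [hB, I.flip_B m.2]; exact I.adj_bd
    by_cases hC : v = I.C
    · rw [hC, I.flip_C m.2]; exact I.adj_ac.symm
    by_cases hD : v = I.D
    · rw [hD, I.flip_D m.2]; exact I.adj_bd.symm
    rw [I.flip_other m.2 hA hB hC hD]
    exact (m.1.2 v).1⟩

theorem flip_decoupled (m : {m : G.PerfectMatching // ¬ I.Decoupled m}) :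
    I.Decoupled (I.flip m) := by
  intro v hv
  show ((I.flipFun m.1 v : G.vert) : ℤ × ℤ) ∈ GU.vert
  by_cases hA : v = I.A
  · rw [hA, I.flip_A m.2]; exact I.hc
  by_cases hB : v = I.B
  · rw [hB] at hv; exact absurd hv I.hb'
  by_cases hC : v = I.C
  · rw [hC, I.flip_C m.2]; exact I.ha
  by_cases hD : v = I.D
  · rw [hD] at hv; exact absurd hv I.hd'
  rw [I.flip_other m.2 hA hB hC hD]
  by_contra h
  rcases I.cross' hv h with ⟨h1, -⟩ | ⟨h1, -⟩
  · exact hA h1
  · exact hC h1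

theorem flip_injective : Function.Injective I.flip := by
  intro m m' h
  refine Subtype.ext (PerfectMatching.ext' (funext fun v => ?_))
  have h1 : I.flipFun m.1 = I.flipFun m'.1 := congrArg PerfectMatching.partner h
  have h2 := congrFun h1 (Equiv.swap I.B I.C v)
  simpa [flipFun] using h2

theorem card_le : Fintype.card G.PerfectMatching ≤
    2 * (Fintype.card GU.PerfectMatching * Fintype.card I.RestMatching) := by
  classical
  have h1 : Fintype.card {m : G.PerfectMatching // I.Decoupled m} ≤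
      Fintype.card (GU.PerfectMatching × I.RestMatching) := by
    refine Fintype.card_le_of_injective
      (fun m : {m : G.PerfectMatching // I.Decoupled m} => (I.exists_glue m.2).choose) ?_
    intro m m' h
    have e1 := (I.exists_glue m.2).choose_spec
    have e2 := (I.exists_glue m'.2).choose_spec
    simp only at h
    rw [h] at e1
    exact Subtype.ext (e1.symm.trans e2)
  have h2 : Fintype.card {m : G.PerfectMatching // ¬ I.Decoupled m} ≤
      Fintype.card {m : G.PerfectMatching // I.Decoupled m} :=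
    Fintype.card_le_of_injective (fun m => ⟨I.flip m, I.flip_decoupled m⟩) fun m m' h =>
      I.flip_injective (congrArg Subtype.val h)
  have h3 := Fintype.card_subtype_compl (fun m : G.PerfectMatching => I.Decoupled m)
  have h4 : Fintype.card {m : G.PerfectMatching // I.Decoupled m} ≤
      Fintype.card G.PerfectMatching := Fintype.card_subtype_le _
  rw [Fintype.card_prod] at h1
  omega

/-! ### Loops of the island -/

theorem component_eq (u₁ u₂ : GU.PerfectMatching) (r₁ r₂ : I.RestMatching) (v : GU.vert) :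
    component (I.glue u₁ r₁) (I.glue u₂ r₂) (I.ι v) = I.ι '' component u₁ u₂ v := by
  ext w
  constructor
  · intro h
    induction h with
    | refl => exact ⟨v, Relation.ReflTransGen.refl, rfl⟩
    | tail _ hstep ih =>
      obtain ⟨x, hx, rfl⟩ := ih
      rcases hstep with h | h
      · exact ⟨u₁.1 x, Relation.ReflTransGen.tail hx (Or.inl rfl),
          by rw [h]; exact (I.glueFun_ι u₁ r₁ x).symm⟩
      · exact ⟨u₂.1 x, Relation.ReflTransGen.tail hx (Or.inr rfl),
          by rw [h]; exact (I.glueFun_ι u₂ r₂ x).symm⟩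
  · rintro ⟨x, hx, rfl⟩
    have hx' : Relation.ReflTransGen (fun x y => y = u₁.1 x ∨ y = u₂.1 x) v x := hx
    show Relation.ReflTransGen _ _ _
    induction hx' with
    | refl => exact Relation.ReflTransGen.refl
    | tail h1 hstep ih =>
      rcases hstep with h | h
      · refine Relation.ReflTransGen.tail (ih h1) (Or.inl ?_)
        rw [h]; exact (I.glueFun_ι u₁ r₁ _).symm
      · refine Relation.ReflTransGen.tail (ih h1) (Or.inr ?_)
        rw [h]; exact (I.glueFun_ι u₂ r₂ _).symm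

theorem cycleTrace_eq (u₁ u₂ : GU.PerfectMatching) (r₁ r₂ : I.RestMatching) (v : GU.vert) :
    cycleTrace (I.glue u₁ r₁) (I.glue u₂ r₂) (I.ι v) = cycleTrace u₁ u₂ v := by
  unfold cycleTrace
  rw [component_eq, Set.biUnion_image]
  have h1 : ∀ x, (I.glue u₁ r₁).1 (I.ι x) = I.ι (u₁.1 x) := I.glueFun_ι u₁ r₁
  have h2 : ∀ x, (I.glue u₂ r₂).1 (I.ι x) = I.ι (u₂.1 x) := I.glueFun_ι u₂ r₂
  simp only [h1, h2, edge, I.mesh_eq]
  rfl

theorem isCycleLoop_glue {u₁ u₂ : GU.PerfectMatching} (r₁ r₂ : I.RestMatching) {ℓ : Loop}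
    (h : IsCycleLoop u₁ u₂ ℓ) : IsCycleLoop (I.glue u₁ r₁) (I.glue u₂ r₂) ℓ := by
  obtain ⟨v, hv, γ, h1, h2, h3⟩ := h
  refine ⟨I.ι v, ?_, γ, h1, h2, by rw [h3, cycleTrace_eq]⟩
  show I.glueFun _ _ _ ≠ I.glueFun _ _ _
  rw [glueFun_ι, glueFun_ι]
  exact fun h => hv (I.ι_injective h)

theorem mult_glue {u₁ u₂ : GU.PerfectMatching} (r₁ r₂ : I.RestMatching) {ℓ : Loop}
    (h : (loops u₁ u₂).mult ℓ ≠ 0) : (loops (I.glue u₁ r₁) (I.glue u₂ r₂)).mult ℓ ≠ 0 := by
  classical
  have h1 : IsCycleLoop u₁ u₂ ℓ := by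
    by_contra hn
    exact h (if_neg hn)
  show (if IsCycleLoop (I.glue u₁ r₁) (I.glue u₂ r₂) ℓ then 1 else 0) ≠ 0
  rw [if_pos (I.isCycleLoop_glue r₁ r₂ h1)]
  exact one_ne_zero

include I in
theorem expect_le (F : LoopCollection → ℝ) (hF0 : ∀ Γ, 0 ≤ F Γ)
    (hF : ∀ Γ Γ' : LoopCollection, (∀ ℓ, Γ.mult ℓ ≠ 0 → Γ'.mult ℓ ≠ 0) → F Γ ≤ F Γ') :
    GU.expect F ≤ 4 * G.expect F := by
  classical
  set NU : ℝ := ((Fintype.card GU.PerfectMatching : ℕ) : ℝ) with hNU
  set NR : ℝ := ((Fintype.card I.RestMatching : ℕ) : ℝ) with hNR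
  set NG : ℝ := ((Fintype.card G.PerfectMatching : ℕ) : ℝ) with hNG
  set SU : ℝ := ∑ m : GU.PerfectMatching × GU.PerfectMatching, F (loops m.1 m.2) with hSU
  set SG : ℝ := ∑ m : G.PerfectMatching × G.PerfectMatching, F (loops m.1 m.2) with hSG
  have hSU0 : 0 ≤ SU := Finset.sum_nonneg fun _ _ => hF0 _
  have hSG0 : 0 ≤ SG := Finset.sum_nonneg fun _ _ => hF0 _
  have hR : 0 < NR := by
    rw [hNR]
    exact_mod_cast Fintype.card_pos_iff.mpr I.nonempty_rest
  have hU0 : 0 ≤ NU := Nat.cast_nonneg _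
  have hG0 : 0 ≤ NG := Nat.cast_nonneg _
  have hcard : NG ≤ 2 * (NU * NR) := by
    rw [hNG, hNU, hNR]
    exact_mod_cast I.card_le
  have hsum : NR ^ 2 * SU ≤ SG := by
    let e : (GU.PerfectMatching × I.RestMatching) × (GU.PerfectMatching × I.RestMatching) →
        G.PerfectMatching × G.PerfectMatching :=
      Prod.map (fun p => I.glue p.1 p.2) (fun p => I.glue p.1 p.2)
    have he : Function.Injective e := Function.Injective.prodMap I.glue_injective I.glue_injective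
    have h1 : ∑ x ∈ Finset.univ.map ⟨e, he⟩, F (loops x.1 x.2) ≤ SG :=
      Finset.sum_le_sum_of_subset_of_nonneg (Finset.subset_univ _) fun _ _ _ => hF0 _
    rw [Finset.sum_map] at h1
    refine le_trans ?_ h1
    have h2 : NR ^ 2 * SU = ∑ x : (GU.PerfectMatching × I.RestMatching) ×
        (GU.PerfectMatching × I.RestMatching), F (loops x.1.1 x.2.1) := by
      rw [Fintype.sum_prod_type]
      simp_rw [Fintype.sum_prod_type, Finset.sum_const, Finset.card_univ, nsmul_eq_mul]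
      rw [hSU, Fintype.sum_prod_type]
      simp_rw [← Finset.mul_sum]
      rw [← hNR]
      ring
    rw [h2]
    refine Finset.sum_le_sum fun x _ => hF _ _ fun ℓ hℓ => ?_
    exact I.mult_glue x.1.2 x.2.2 hℓ
  have eU : GU.expect F = SU / NU ^ 2 := by
    unfold expect
    rw [hSU, Fintype.sum_prod_type]
  have eG : G.expect F = SG / NG ^ 2 := by
    unfold expect
    rw [hSG, Fintype.sum_prod_type]
  rw [eU, eG]
  rcases hU0.eq_or_lt with h0 | hUpos
  · rw [← h0]
    simp only [ne_eq, OfNat.ofNat_ne_zero, not_false_eq_true, zero_pow, div_zero]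
    positivity
  · have hGpos : 0 < NG := by
      rw [hNG]
      have h5 : 0 < Fintype.card GU.PerfectMatching := by
        rw [hNU] at hUpos; exact_mod_cast hUpos
      obtain ⟨u⟩ := Fintype.card_pos_iff.mp h5
      obtain ⟨r⟩ := I.nonempty_rest
      exact_mod_cast Fintype.card_pos_iff.mpr ⟨I.glue u r⟩
    rw [div_le_iff₀ (by positivity), mul_comm, ← mul_assoc, mul_div_assoc', le_div_iff₀ (by positivity)]
    have h6 : NG ^ 2 ≤ 4 * NU ^ 2 * NR ^ 2 := by
      have := pow_le_pow_left₀ hG0 hcard 2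
      calc NG ^ 2 ≤ (2 * (NU * NR)) ^ 2 := this
        _ = 4 * NU ^ 2 * NR ^ 2 := by ring
    calc SU * NG ^ 2 ≤ SU * (4 * NU ^ 2 * NR ^ 2) := mul_le_mul_of_nonneg_left h6 hSU0
      _ = 4 * NU ^ 2 * (NR ^ 2 * SU) := by ring
      _ ≤ 4 * NU ^ 2 * SG := mul_le_mul_of_nonneg_left hsum (by positivity)
      _ = NU ^ 2 * 4 * SG := by ring

end Island

end TemperleyanGraph

end Vale.Agent.DoubleDimer
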