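import Vale.Agent.DoubleDimer.Graphs
import Vale.Agent.DoubleDimer.Island

/-!
The small graph is an island of the large one.
-/

open Set Filter Topology

namespace Vale.Agent.DoubleDimer

section

section

variable {δ : ℝ} {hδ : 0 < δ} {K : ℕ} {hK : 2 ≤ K}

theorem mem_vert_big (z : ℤ × ℤ) :
    z ∈ (bigGraph δ hδ K hK).vert ↔ InBig K z ∧ z ≠ (-(2 * K : ℤ), 0) := by
  rw [(bigGraph δ hδ K hK).mem_vert]
  show gridPt δ z ∈ closure (region (2 * δ * K) (2 * δ)) ∧ gridPt δ z ≠ gridPt (2 * δ) (-K, 0) ↔ _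
  rw [gridPt_mem_closure hδ hK, Ne, gridPt_eq_iff hδ]
  simp

theorem mem_vert_small (z : ℤ × ℤ) :
    z ∈ (smallGraph δ hδ K hK).vert ↔
      (-(2*K : ℤ) ≤ z.1 ∧ z.1 ≤ 2*K ∧ -(2*K : ℤ) ≤ z.2 ∧ z.2 ≤ 0) ∧
        z ≠ (-(2 * K : ℤ), 0) := by
  show z ∈ ((Finset.Icc (-(2*K : ℤ)) (2*K)) ×ˢ (Finset.Icc (-(2*K : ℤ)) 0)).erase
      (2 * (-K : ℤ), 2 * 0) ↔ _
  rw [Finset.mem_erase, Finset.mem_product, Finset.mem_Icc, Finset.mem_Icc]
  have : (2 * (-K : ℤ), 2 * (0 : ℤ)) = (-(2 * K : ℤ), 0) := by ext <;> simp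
  rw [this]
  tauto

theorem segment_subset_of_mem {S : Set ℂ} {x₁ x₂ y₁ y₂ : ℝ} {z w : ℂ}
    (hz : z ∈ crect x₁ x₂ y₁ y₂) (hw : w ∈ crect x₁ x₂ y₁ y₂) (h : crect x₁ x₂ y₁ y₂ ⊆ S) :
    segment ℝ z w ⊆ S :=
  ((convex_crect _ _ _ _).segment_subset hz hw).trans h

/-- Two grid points in a common closed box of the closed region. -/
def SameBox (K : ℕ) (z w : ℤ × ℤ) : Prop :=
  ((-(2*K : ℤ) ≤ z.1 ∧ z.1 ≤ 2*K ∧ -(2*K : ℤ) ≤ z.2 ∧ z.2 ≤ 0) ∧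
    (-(2*K : ℤ) ≤ w.1 ∧ w.1 ≤ 2*K ∧ -(2*K : ℤ) ≤ w.2 ∧ w.2 ≤ 0)) ∨
  ((-(4*K : ℤ) ≤ z.1 ∧ z.1 ≤ 2*K ∧ -2 ≤ z.2 ∧ z.2 ≤ 0) ∧
    (-(4*K : ℤ) ≤ w.1 ∧ w.1 ≤ 2*K ∧ -2 ≤ w.2 ∧ w.2 ≤ 0)) ∨
  ((-(4*K : ℤ) ≤ z.1 ∧ z.1 ≤ -(2*K+2 : ℤ) ∧ -(4*K : ℤ) ≤ z.2 ∧ z.2 ≤ 0) ∧
    (-(4*K : ℤ) ≤ w.1 ∧ w.1 ≤ -(2*K+2 : ℤ) ∧ -(4*K : ℤ) ≤ w.2 ∧ w.2 ≤ 0)) ∨
  ((-(4*K : ℤ) ≤ z.1 ∧ z.1 ≤ 4*K ∧ -(4*K : ℤ) ≤ z.2 ∧ z.2 ≤ -(2*K+2 : ℤ)) ∧
    (-(4*K : ℤ) ≤ w.1 ∧ w.1 ≤ 4*K ∧ -(4*K : ℤ) ≤ w.2 ∧ w.2 ≤ -(2*K+2 : ℤ))) ∨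
  ((2*K+2 ≤ z.1 ∧ z.1 ≤ 4*K ∧ -(4*K : ℤ) ≤ z.2 ∧ z.2 ≤ 4*K) ∧
    (2*K+2 ≤ w.1 ∧ w.1 ≤ 4*K ∧ -(4*K : ℤ) ≤ w.2 ∧ w.2 ≤ 4*K)) ∨
  ((-(4*K : ℤ) ≤ z.1 ∧ z.1 ≤ 4*K ∧ 2 ≤ z.2 ∧ z.2 ≤ 4*K) ∧
    (-(4*K : ℤ) ≤ w.1 ∧ w.1 ≤ 4*K ∧ 2 ≤ w.2 ∧ w.2 ≤ 4*K))

theorem segment_subset_big (hδ : 0 < δ) (hK : 2 ≤ K) {z w : ℤ × ℤ} (h : SameBox K z w) :
    segment ℝ (gridPt δ z) (gridPt δ w) ⊆ closure (region (2 * δ * K) (2 * δ)) := by
  have h0 : 0 < 2 * δ := by positivity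
  have hK' : (2 : ℝ) ≤ K := by exact_mod_cast hK
  have ha : 2 * δ < 2 * δ * K := by nlinarith
  rw [closure_region_eq h0 ha]
  have e1 : -(2 * δ * (K : ℝ)) = δ * ((-(2*K : ℤ) : ℤ) : ℝ) := by push_cast; ring
  have e2 : 2 * δ * (K : ℝ) = δ * ((2*K : ℤ) : ℝ) := by push_cast; ring
  have e3 : (0 : ℝ) = δ * ((0 : ℤ) : ℝ) := by push_cast; ring
  have e4 : -(2 * (2 * δ * (K : ℝ))) = δ * ((-(4*K : ℤ) : ℤ) : ℝ) := by push_cast; ring
  have e5 : 2 * (2 * δ * (K : ℝ)) = δ * ((4*K : ℤ) : ℝ) := by push_cast; ring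
  have e6 : -(2 * δ * (K : ℝ) + 2 * δ) = δ * ((-(2*K+2 : ℤ) : ℤ) : ℝ) := by push_cast; ring
  have e7 : 2 * δ * (K : ℝ) + 2 * δ = δ * ((2*K+2 : ℤ) : ℝ) := by push_cast; ring
  have e8 : -(2 * δ) = δ * ((-2 : ℤ) : ℝ) := by push_cast; ring
  have e9 : 2 * δ = δ * ((2 : ℤ) : ℝ) := by push_cast; ring
  rcases h with h | h | h | h | h | h
  · refine segment_subset_of_mem (x₁ := -(2 * δ * (K : ℝ))) (x₂ := 2 * δ * (K : ℝ))
      (y₁ := -(2 * δ * (K : ℝ))) (y₂ := 0) ?_ ?_ (fun x hx => Or.inl hx)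
    · rw [e1, e2, e3]; exact (gridPt_mem_crect hδ _ _ _ _).mpr h.1
    · rw [e1, e2, e3]; exact (gridPt_mem_crect hδ _ _ _ _).mpr h.2
  · refine segment_subset_of_mem (x₁ := -(2 * (2 * δ * (K : ℝ)))) (x₂ := 2 * δ * (K : ℝ))
      (y₁ := -(2 * δ)) (y₂ := 0) ?_ ?_ (fun x hx => Or.inr (Or.inl hx))
    · rw [e4, e2, e3, e8]; exact (gridPt_mem_crect hδ _ _ _ _).mpr h.1
    · rw [e4, e2, e3, e8]; exact (gridPt_mem_crect hδ _ _ _ _).mpr h.2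
  · refine segment_subset_of_mem (x₁ := -(2 * (2 * δ * (K : ℝ))))
      (x₂ := -(2 * δ * (K : ℝ) + 2 * δ))
      (y₁ := -(2 * (2 * δ * (K : ℝ)))) (y₂ := 0) ?_ ?_ (fun x hx => Or.inr (Or.inr (Or.inl hx)))
    · rw [e4, e6, e3]; exact (gridPt_mem_crect hδ _ _ _ _).mpr h.1
    · rw [e4, e6, e3]; exact (gridPt_mem_crect hδ _ _ _ _).mpr h.2
  · refine segment_subset_of_mem (x₁ := -(2 * (2 * δ * (K : ℝ)))) (x₂ := 2 * (2 * δ * (K : ℝ)))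
      (y₁ := -(2 * (2 * δ * (K : ℝ)))) (y₂ := -(2 * δ * (K : ℝ) + 2 * δ)) ?_ ?_
      (fun x hx => Or.inr (Or.inr (Or.inr (Or.inl hx))))
    · rw [e4, e5, e6]; exact (gridPt_mem_crect hδ _ _ _ _).mpr h.1
    · rw [e4, e5, e6]; exact (gridPt_mem_crect hδ _ _ _ _).mpr h.2
  · refine segment_subset_of_mem (x₁ := 2 * δ * (K : ℝ) + 2 * δ) (x₂ := 2 * (2 * δ * (K : ℝ)))
      (y₁ := -(2 * (2 * δ * (K : ℝ)))) (y₂ := 2 * (2 * δ * (K : ℝ))) ?_ ?_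
      (fun x hx => Or.inr (Or.inr (Or.inr (Or.inr (Or.inl hx)))))
    · rw [e4, e5, e7]; exact (gridPt_mem_crect hδ _ _ _ _).mpr h.1
    · rw [e4, e5, e7]; exact (gridPt_mem_crect hδ _ _ _ _).mpr h.2
  · refine segment_subset_of_mem (x₁ := -(2 * (2 * δ * (K : ℝ)))) (x₂ := 2 * (2 * δ * (K : ℝ)))
      (y₁ := 2 * δ) (y₂ := 2 * (2 * δ * (K : ℝ))) ?_ ?_
      (fun x hx => Or.inr (Or.inr (Or.inr (Or.inr (Or.inr hx)))))
    · have : gridPt δ z ∈ crect (δ * ((-(4*K : ℤ) : ℤ) : ℝ)) (δ * ((4*K : ℤ) : ℝ))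
        (δ * ((2 : ℤ) : ℝ)) (δ * ((4*K : ℤ) : ℝ)) := (gridPt_mem_crect hδ _ _ _ _).mpr h.1
      rw [← e4, ← e5, ← e9] at this
      exact this
    · have : gridPt δ w ∈ crect (δ * ((-(4*K : ℤ) : ℤ) : ℝ)) (δ * ((4*K : ℤ) : ℝ))
        (δ * ((2 : ℤ) : ℝ)) (δ * ((4*K : ℤ) : ℝ)) := (gridPt_mem_crect hδ _ _ _ _).mpr h.2
      rw [← e4, ← e5, ← e9] at this
      exact this

theorem adj_big {z w : ℤ × ℤ} (h1 : |z.1 - w.1| + |z.2 - w.2| = 1) (h2 : SameBox K z w) :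
    (bigGraph δ hδ K hK).Adj z w :=
  ⟨h1, segment_subset_big hδ hK h2⟩

theorem adj_small {z w : ℤ × ℤ} (h1 : |z.1 - w.1| + |z.2 - w.2| = 1)
    (hz : -(2*K : ℤ) ≤ z.1 ∧ z.1 ≤ 2*K ∧ -(2*K : ℤ) ≤ z.2 ∧ z.2 ≤ 0)
    (hw : -(2*K : ℤ) ≤ w.1 ∧ w.1 ≤ 2*K ∧ -(2*K : ℤ) ≤ w.2 ∧ w.2 ≤ 0) :
    (smallGraph δ hδ K hK).Adj z w := by
  refine ⟨h1, ?_⟩
  have hK' : (2 : ℝ) ≤ K := by exact_mod_cast hK
  have ha : 0 < 2 * δ * K := by positivity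
  show segment ℝ (gridPt δ z) (gridPt δ w) ⊆
    closure (orect (-(2 * δ * K)) (2 * δ * K) (-(2 * δ * K)) 0)
  rw [smallClosure ha]
  have e1 : -(2 * δ * (K : ℝ)) = δ * ((-(2*K : ℤ) : ℤ) : ℝ) := by push_cast; ring
  have e2 : 2 * δ * (K : ℝ) = δ * ((2*K : ℤ) : ℝ) := by push_cast; ring
  have e3 : (0 : ℝ) = δ * ((0 : ℤ) : ℝ) := by push_cast; ring
  refine segment_subset_of_mem ?_ ?_ Subset.rfl
  · rw [e1, e2, e3]; exact (gridPt_mem_crect hδ _ _ _ _).mpr hz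
  · rw [e1, e2, e3]; exact (gridPt_mem_crect hδ _ _ _ _).mpr hw

/-- Matching of the complement of the island, first coordinate. -/
def restFst (K : ℕ) (x y : ℤ) : ℤ :=
  if 1 ≤ y then
    if x ≤ 2*K+1 then (if x % 2 = 0 then x + 1 else x - 1) else x
  else if 2*K+2 ≤ x ∧ -(2*K+1 : ℤ) ≤ y then x
  else if -2 ≤ y then (if x % 2 = 0 then x + 1 else x - 1)
  else if x ≤ -(2*K+2 : ℤ) then x
  else (if x % 2 = 0 then x - 1 else x + 1)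

/-- Matching of the complement of the island, second coordinate. -/
def restSnd (K : ℕ) (x y : ℤ) : ℤ :=
  if 1 ≤ y then
    if x ≤ 2*K+1 then y else (if y % 2 = 0 then y - 1 else y + 1)
  else if 2*K+2 ≤ x ∧ -(2*K+1 : ℤ) ≤ y then (if y % 2 = 0 then y - 1 else y + 1)
  else if -2 ≤ y then y
  else if x ≤ -(2*K+2 : ℤ) then (if y % 2 = 0 then y + 1 else y - 1)
  else y

def restFun (K : ℕ) (z : ℤ × ℤ) : ℤ × ℤ := (restFst K z.1 z.2, restSnd K z.1 z.2)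

/-- The five pieces of the complement of the island. -/
def Piece (K : ℕ) : Fin 5 → ℤ → ℤ → Prop
  | 0, x, y => -(4*K : ℤ) ≤ x ∧ x ≤ -(2*K+1 : ℤ) ∧ -2 ≤ y ∧ y ≤ 0
  | 1, x, y => -(4*K : ℤ) ≤ x ∧ x ≤ -(2*K+2 : ℤ) ∧ -(4*K : ℤ) ≤ y ∧ y ≤ -3
  | 2, x, y => -(2*K+1 : ℤ) ≤ x ∧ x ≤ 4*K ∧ -(4*K : ℤ) ≤ y ∧ y ≤ -(2*K+2 : ℤ)
  | 3, x, y => 2*K+2 ≤ x ∧ x ≤ 4*K ∧ -(2*K+1 : ℤ) ≤ y ∧ y ≤ 4*K
  | 4, x, y => -(4*K : ℤ) ≤ x ∧ x ≤ 2*K+1 ∧ 2 ≤ y ∧ y ≤ 4*K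

theorem piece_of_inBig (K : ℕ) (hK : 2 ≤ K) (x y : ℤ) (h : InBig K (x, y))
    (h' : ¬ (-(2*K : ℤ) ≤ x ∧ x ≤ 2*K ∧ -(2*K : ℤ) ≤ y ∧ y ≤ 0)) : ∃ i, Piece K i x y := by
  have key : Piece K 0 x y ∨ Piece K 1 x y ∨ Piece K 2 x y ∨ Piece K 3 x y ∨ Piece K 4 x y := by
    unfold InBig at h
    simp only [Piece]
    simp only at h
    rcases h with h | h | h | h | h | h
    · exact absurd h h'
    · left; omega
    · by_cases hy : -2 ≤ y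
      · left; omega
      · right; left; omega
    · by_cases hx : x ≤ -(2*K+2 : ℤ)
      · right; left; omega
      · right; right; left; omega
    · by_cases hy : -(2*K+1 : ℤ) ≤ y
      · right; right; right; left; omega
      · right; right; left; omega
    · by_cases hx : x ≤ 2*K+1
      · right; right; right; right; omega
      · right; right; right; left; omega
  rcases key with h | h | h | h | h
  · exact ⟨0, h⟩
  · exact ⟨1, h⟩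
  · exact ⟨2, h⟩
  · exact ⟨3, h⟩
  · exact ⟨4, h⟩

theorem inBig_of_piece (K : ℕ) (hK : 2 ≤ K) (i : Fin 5) (x y : ℤ) (h : Piece K i x y) :
    InBig K (x, y) := by
  unfold InBig
  fin_cases i <;> simp only [Piece] at h ⊢
  · right; left; omega
  · right; right; left; omega
  · right; right; right; left; omega
  · right; right; right; right; left; omega
  · right; right; right; right; right; omega

theorem sameBox_of_piece (K : ℕ) (i : Fin 5) (x y x' y' : ℤ)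
    (h : Piece K i x y) (h' : Piece K i x' y') : SameBox K (x, y) (x', y') := by
  unfold SameBox
  fin_cases i <;> simp only [Piece] at h h' ⊢
  · right; left; omega
  · right; right; left; omega
  · right; right; right; left; omega
  · right; right; right; right; left; omega
  · right; right; right; right; right; omega

theorem not_small_of_piece (K : ℕ) (i : Fin 5) (x y : ℤ) (h : Piece K i x y) :
    ¬ (-(2*K : ℤ) ≤ x ∧ x ≤ 2*K ∧ -(2*K : ℤ) ≤ y ∧ y ≤ 0) := by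
  fin_cases i <;> simp only [Piece] at h <;> omega

theorem rest0 (K : ℕ) (x y : ℤ) (h : Piece K 0 x y) :
    restFst K x y = (if x % 2 = 0 then x + 1 else x - 1) ∧ restSnd K x y = y := by
  simp only [Piece] at h
  have c1 : ¬ 1 ≤ y := by omega
  have c2 : ¬ (2*K+2 ≤ x ∧ -(2*K+1 : ℤ) ≤ y) := by omega
  have c3 : -2 ≤ y := by omega
  unfold restFst restSnd
  rw [if_neg c1, if_neg c2, if_pos c3, if_neg c1, if_neg c2, if_pos c3]
  exact ⟨rfl, rfl⟩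

theorem rest1 (K : ℕ) (x y : ℤ) (h : Piece K 1 x y) :
    restFst K x y = x ∧ restSnd K x y = (if y % 2 = 0 then y + 1 else y - 1) := by
  simp only [Piece] at h
  have c1 : ¬ 1 ≤ y := by omega
  have c2 : ¬ (2*K+2 ≤ x ∧ -(2*K+1 : ℤ) ≤ y) := by omega
  have c3 : ¬ -2 ≤ y := by omega
  have c4 : x ≤ -(2*K+2 : ℤ) := by omega
  unfold restFst restSnd
  rw [if_neg c1, if_neg c2, if_neg c3, if_pos c4, if_neg c1, if_neg c2, if_neg c3, if_pos c4]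
  exact ⟨rfl, rfl⟩

theorem rest2 (K : ℕ) (hK : 2 ≤ K) (x y : ℤ) (h : Piece K 2 x y) :
    restFst K x y = (if x % 2 = 0 then x - 1 else x + 1) ∧ restSnd K x y = y := by
  simp only [Piece] at h
  have c1 : ¬ 1 ≤ y := by omega
  have c2 : ¬ (2*K+2 ≤ x ∧ -(2*K+1 : ℤ) ≤ y) := by omega
  have c3 : ¬ -2 ≤ y := by omega
  have c4 : ¬ x ≤ -(2*K+2 : ℤ) := by omega
  unfold restFst restSnd
  rw [if_neg c1, if_neg c2, if_neg c3, if_neg c4, if_neg c1, if_neg c2, if_neg c3, if_neg c4]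
  exact ⟨rfl, rfl⟩

theorem rest3 (K : ℕ) (x y : ℤ) (h : Piece K 3 x y) :
    restFst K x y = x ∧ restSnd K x y = (if y % 2 = 0 then y - 1 else y + 1) := by
  simp only [Piece] at h
  unfold restFst restSnd
  by_cases c1 : 1 ≤ y
  · have c2 : ¬ x ≤ 2*K+1 := by omega
    rw [if_pos c1, if_neg c2, if_pos c1, if_neg c2]
    exact ⟨rfl, rfl⟩
  · have c2 : (2*K+2 ≤ x ∧ -(2*K+1 : ℤ) ≤ y) := by omega
    rw [if_neg c1, if_pos c2, if_neg c1, if_pos c2]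
    exact ⟨rfl, rfl⟩

theorem rest4 (K : ℕ) (x y : ℤ) (h : Piece K 4 x y) :
    restFst K x y = (if x % 2 = 0 then x + 1 else x - 1) ∧ restSnd K x y = y := by
  simp only [Piece] at h
  have c1 : 1 ≤ y := by omega
  have c2 : x ≤ 2*K+1 := by omega
  unfold restFst restSnd
  rw [if_pos c1, if_pos c2, if_pos c1, if_pos c2]
  exact ⟨rfl, rfl⟩

theorem rest_piece (K : ℕ) (hK : 2 ≤ K) (i : Fin 5) (x y : ℤ) (h : Piece K i x y) :
    Piece K i (restFst K x y) (restSnd K x y) := by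
  fin_cases i
  · obtain ⟨e1, e2⟩ := rest0 K x y h
    rw [e1, e2]
    simp only [Piece] at h ⊢
    split_ifs <;> omega
  · obtain ⟨e1, e2⟩ := rest1 K x y h
    rw [e1, e2]
    simp only [Piece] at h ⊢
    split_ifs <;> omega
  · obtain ⟨e1, e2⟩ := rest2 K hK x y h
    rw [e1, e2]
    simp only [Piece] at h ⊢
    split_ifs <;> omega
  · obtain ⟨e1, e2⟩ := rest3 K x y h
    rw [e1, e2]
    simp only [Piece] at h ⊢
    split_ifs <;> omega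
  · obtain ⟨e1, e2⟩ := rest4 K x y h
    rw [e1, e2]
    simp only [Piece] at h ⊢
    split_ifs <;> omega

theorem ite_invol_add (x : ℤ) :
    (if (if x % 2 = 0 then x + 1 else x - 1) % 2 = 0 then (if x % 2 = 0 then x + 1 else x - 1) + 1
      else (if x % 2 = 0 then x + 1 else x - 1) - 1) = x := by
  split_ifs <;> omega

theorem ite_invol_sub (x : ℤ) :
    (if (if x % 2 = 0 then x - 1 else x + 1) % 2 = 0 then (if x % 2 = 0 then x - 1 else x + 1) - 1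
      else (if x % 2 = 0 then x - 1 else x + 1) + 1) = x := by
  split_ifs <;> omega

theorem rest_invol (K : ℕ) (hK : 2 ≤ K) (i : Fin 5) (x y : ℤ) (h : Piece K i x y) :
    restFun K (restFun K (x, y)) = (x, y) := by
  have h' := rest_piece K hK i x y h
  show (restFst K (restFst K x y) (restSnd K x y), restSnd K (restFst K x y) (restSnd K x y)) = _
  fin_cases i
  · obtain ⟨e1, e2⟩ := rest0 K x y h
    obtain ⟨f1, f2⟩ := rest0 K _ _ h'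
    rw [f1, f2, e1, e2, ite_invol_add]
  · obtain ⟨e1, e2⟩ := rest1 K x y h
    obtain ⟨f1, f2⟩ := rest1 K _ _ h'
    rw [f1, f2, e1, e2, ite_invol_add]
  · obtain ⟨e1, e2⟩ := rest2 K hK x y h
    obtain ⟨f1, f2⟩ := rest2 K hK _ _ h'
    rw [f1, f2, e1, e2, ite_invol_sub]
  · obtain ⟨e1, e2⟩ := rest3 K x y h
    obtain ⟨f1, f2⟩ := rest3 K _ _ h'
    rw [f1, f2, e1, e2, ite_invol_sub]
  · obtain ⟨e1, e2⟩ := rest4 K x y h
    obtain ⟨f1, f2⟩ := rest4 K _ _ h'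
    rw [f1, f2, e1, e2, ite_invol_add]

theorem rest_dist (K : ℕ) (x y : ℤ) :
    |x - restFst K x y| + |y - restSnd K x y| = 1 := by
  unfold restFst restSnd
  split_ifs <;> simp

theorem even_card_small (K : ℕ) :
    Even (((Finset.Icc (-(2*K : ℤ)) (2*K)) ×ˢ (Finset.Icc (-(2*K : ℤ)) 0)).erase
      (2 * (-K : ℤ), 2 * 0)).card := by
  rw [Finset.card_erase_of_mem, Finset.card_product, Int.card_Icc, Int.card_Icc]
  · have e1 : (2 * (K : ℤ) + 1 - -(2 * K)).toNat = 4 * K + 1 := by omega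
    have e2 : ((0 : ℤ) + 1 - -(2 * K)).toNat = 2 * K + 1 := by omega
    rw [e1, e2]
    refine ⟨4 * K * K + 3 * K, ?_⟩
    have : (4 * K + 1) * (2 * K + 1) = (4 * K * K + 3 * K) + (4 * K * K + 3 * K) + 1 := by ring
    omega
  · rw [Finset.mem_product, Finset.mem_Icc, Finset.mem_Icc]
    simp only
    omega

end

/-- The small graph is an island of the large one. -/
noncomputable def island (δ : ℝ) (hδ : 0 < δ) (K : ℕ) (hK : 2 ≤ K) :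
    TemperleyanGraph.Island (bigGraph δ hδ K hK) (smallGraph δ hδ K hK) where
  mesh_eq := rfl
  sub z hz := by
    rw [mem_vert_small] at hz
    rw [mem_vert_big]
    exact ⟨Or.inl hz.1, hz.2⟩
  adj_iff z hz w hw := by
    rw [mem_vert_small] at hz hw
    constructor
    · intro h
      exact adj_small h.1 hz.1 hw.1
    · intro h
      exact adj_big h.1 (Or.inl ⟨hz.1, hw.1⟩)
  a := (-(2*K : ℤ), -1)
  b := (-(2*K+1 : ℤ), -1)
  c := (-(2*K : ℤ), -2)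
  d := (-(2*K+1 : ℤ), -2)
  ha := by
    rw [mem_vert_small]
    simp only [ne_eq, Prod.mk.injEq]
    omega
  hc := by
    rw [mem_vert_small]
    simp only [ne_eq, Prod.mk.injEq]
    omega
  hb := by
    rw [mem_vert_big]
    refine ⟨Or.inr (Or.inl ?_), ?_⟩
    · simp only
      omega
    · simp only [ne_eq, Prod.mk.injEq]
      omega
  hd := by
    rw [mem_vert_big]
    refine ⟨Or.inr (Or.inl ?_), ?_⟩
    · simp only
      omega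
    · simp only [ne_eq, Prod.mk.injEq]
      omega
  hb' := by
    rw [mem_vert_small]
    simp only
    omega
  hd' := by
    rw [mem_vert_small]
    simp only
    omega
  cross := by
    rintro ⟨x, y⟩ hz ⟨x', y'⟩ hw hw' ⟨h, -⟩
    rw [mem_vert_small] at hz hw'
    rw [mem_vert_big] at hw
    have hw2 : ¬ (-(2*K : ℤ) ≤ x' ∧ x' ≤ 2*K ∧ -(2*K : ℤ) ≤ y' ∧ y' ≤ 0) :=
      fun h => hw' ⟨h, hw.2⟩
    obtain ⟨i, hi⟩ := piece_of_inBig K hK x' y' hw.1 hw2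
    simp only [ne_eq, Prod.mk.injEq] at hz h ⊢
    have h1 : |x - x'| = 0 ∧ |y - y'| = 1 ∨ |x - x'| = 1 ∧ |y - y'| = 0 := by
      have := abs_nonneg (x - x')
      have := abs_nonneg (y - y')
      omega
    have h2 : (x = x' ∧ (y = y' + 1 ∨ y = y' - 1)) ∨ ((x = x' + 1 ∨ x = x' - 1) ∧ y = y') := by
      rcases h1 with ⟨h1, h2⟩ | ⟨h1, h2⟩
      · left
        rw [abs_eq_zero] at h1
        rw [abs_eq (by norm_num)] at h2
        omega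
      · right
        rw [abs_eq_zero] at h2
        rw [abs_eq (by norm_num)] at h1
        omega
    clear h1 h hw hw' hw2
    fin_cases i <;> simp only [Piece] at hi <;> omega
  adj_ac := adj_big (by simp) (by
    refine Or.inr (Or.inl ?_)
    simp only
    omega)
  adj_bd := adj_big (by simp) (by
    refine Or.inr (Or.inl ?_)
    simp only
    omega)
  even := even_card_small K
  rest := by
    refine ⟨restFun K, ?_⟩
    rintro ⟨x, y⟩ hz hz'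
    rw [mem_vert_big] at hz
    rw [mem_vert_small] at hz'
    have hz2 : ¬ (-(2*K : ℤ) ≤ x ∧ x ≤ 2*K ∧ -(2*K : ℤ) ≤ y ∧ y ≤ 0) :=
      fun h => hz' ⟨h, hz.2⟩
    obtain ⟨i, hi⟩ := piece_of_inBig K hK x y hz.1 hz2
    have hi' := rest_piece K hK i x y hi
    have hns := not_small_of_piece K i _ _ hi'
    refine ⟨?_, ?_, ?_, rest_invol K hK i x y hi⟩
    · rw [mem_vert_big]
      refine ⟨inBig_of_piece K hK i _ _ hi', fun he => hns ?_⟩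
      have h1 : restFst K x y = -(2 * K : ℤ) := congrArg Prod.fst he
      have h2 : restSnd K x y = 0 := congrArg Prod.snd he
      omega
    · rw [mem_vert_small]
      exact fun h => hns h.1
    · exact adj_big (rest_dist K x y) (sameBox_of_piece K i _ _ _ _ hi hi')

end

end Vale.Agent.DoubleDimer
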