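import Vale.Agent.DoubleDimer.Simple
import Vale.Agent.DoubleDimer.Approx

/-!
The explicit Temperleyan graphs.
-/

open Set Filter Topology

namespace Vale.Agent.DoubleDimer

/-! ### Grid points -/

theorem gridPt_re (δ : ℝ) (z : ℤ × ℤ) : (gridPt δ z).re = δ * z.1 := rfl
theorem gridPt_im (δ : ℝ) (z : ℤ × ℤ) : (gridPt δ z).im = δ * z.2 := rfl

theorem mul_le_iff {δ : ℝ} (hδ : 0 < δ) (m i : ℤ) : δ * (m : ℝ) ≤ δ * (i : ℝ) ↔ m ≤ i := by
  rw [mul_le_mul_iff_right₀ hδ, Int.cast_le]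

theorem gridPt_eq_iff {δ : ℝ} (hδ : 0 < δ) (z w : ℤ × ℤ) :
    gridPt δ z = gridPt (2 * δ) w ↔ z = (2 * w.1, 2 * w.2) := by
  constructor
  · intro h
    have h1 := congrArg Complex.re h
    have h2 := congrArg Complex.im h
    rw [gridPt_re, gridPt_re] at h1
    rw [gridPt_im, gridPt_im] at h2
    have h3 : (z.1 : ℝ) = ((2 * w.1 : ℤ) : ℝ) := by
      push_cast
      apply mul_left_cancel₀ hδ.ne'
      linarith
    have h4 : (z.2 : ℝ) = ((2 * w.2 : ℤ) : ℝ) := by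
      push_cast
      apply mul_left_cancel₀ hδ.ne'
      linarith
    exact Prod.ext (by exact_mod_cast h3) (by exact_mod_cast h4)
  · rintro rfl
    apply Complex.ext
    · rw [gridPt_re, gridPt_re]; push_cast; ring
    · rw [gridPt_im, gridPt_im]; push_cast; ring

theorem gridPt_mem_crect {δ : ℝ} (hδ : 0 < δ) {z : ℤ × ℤ} (x₁ x₂ y₁ y₂ : ℤ) :
    gridPt δ z ∈ crect (δ * x₁) (δ * x₂) (δ * y₁) (δ * y₂) ↔
      x₁ ≤ z.1 ∧ z.1 ≤ x₂ ∧ y₁ ≤ z.2 ∧ z.2 ≤ y₂ := by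
  rw [mem_crect, gridPt_re, gridPt_im, mul_le_iff hδ, mul_le_iff hδ, mul_le_iff hδ,
    mul_le_iff hδ]

/-! ### The large graph -/

section Big

variable (K : ℕ)

def bigCorner : Fin 14 → ℤ × ℤ :=
  ![(-(2*K), -(2*K)), (2*K, -(2*K)), (2*K, 2*K), (-(2*K), 2*K), (-(2*K), 1), (K+1, 1),
    (K+1, -(K+1)), (-(K+1), -(K+1)), (-(K+1), -1), (-K, -1), (-K, -K), (K, -K), (K, 0),
    (-(2*K), 0)]

def bigCornerNext : Fin 14 → ℤ × ℤ :=
  ![(2*K, -(2*K)), (2*K, 2*K), (-(2*K), 2*K), (-(2*K), 1), (K+1, 1),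
    (K+1, -(K+1)), (-(K+1), -(K+1)), (-(K+1), -1), (-K, -1), (-K, -K), (K, -K), (K, 0),
    (-(2*K), 0), (-(2*K), -(2*K))]

theorem bigCorner_succ (i : ZMod 14) : bigCorner K (i + 1 : ZMod 14) = bigCornerNext K i := by
  change Fin 14 at i
  fin_cases i <;> rfl

theorem bigCorner_eq (δ : ℝ) (i : Fin 14) :
    gridPt (2 * δ) (bigCorner K i) = cor (2 * δ * K) (2 * δ) i := by
  fin_cases i <;>
  · apply Complex.ext <;> simp [gridPt, bigCorner, cor] <;> ring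

theorem bigCornerNext_eq (δ : ℝ) (i : Fin 14) :
    gridPt (2 * δ) (bigCornerNext K i) = nxt (2 * δ * K) (2 * δ) i := by
  fin_cases i <;>
  · apply Complex.ext <;> simp [gridPt, bigCornerNext, nxt] <;> ring

/-- integer form of membership in the closed region -/
def InBig (z : ℤ × ℤ) : Prop :=
  (-(2*K : ℤ) ≤ z.1 ∧ z.1 ≤ 2*K ∧ -(2*K : ℤ) ≤ z.2 ∧ z.2 ≤ 0) ∨
  (-(4*K : ℤ) ≤ z.1 ∧ z.1 ≤ 2*K ∧ -2 ≤ z.2 ∧ z.2 ≤ 0) ∨
  (-(4*K : ℤ) ≤ z.1 ∧ z.1 ≤ -(2*K+2 : ℤ) ∧ -(4*K : ℤ) ≤ z.2 ∧ z.2 ≤ 0) ∨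
  (-(4*K : ℤ) ≤ z.1 ∧ z.1 ≤ 4*K ∧ -(4*K : ℤ) ≤ z.2 ∧ z.2 ≤ -(2*K+2 : ℤ)) ∨
  (2*K+2 ≤ z.1 ∧ z.1 ≤ 4*K ∧ -(4*K : ℤ) ≤ z.2 ∧ z.2 ≤ 4*K) ∨
  (-(4*K : ℤ) ≤ z.1 ∧ z.1 ≤ 4*K ∧ 2 ≤ z.2 ∧ z.2 ≤ 4*K)

instance (z : ℤ × ℤ) : Decidable (InBig K z) := by unfold InBig; infer_instance

theorem closure_region_eq {a h : ℝ} (h0 : 0 < h) (ha : h < a) :
    closure (region a h) =
      crect (-a) a (-a) 0 ∪ (crect (-(2*a)) a (-h) 0 ∪ (crect (-(2*a)) (-(a+h)) (-(2*a)) 0 ∪
        (crect (-(2*a)) (2*a) (-(2*a)) (-(a+h)) ∪ (crect (a+h) (2*a) (-(2*a)) (2*a) ∪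
          crect (-(2*a)) (2*a) h (2*a))))) := by
  ext z
  rw [mem_closure_region h0 ha]
  simp only [mem_union, mem_crect]

variable {K}

theorem gridPt_mem_closure {δ : ℝ} (hδ : 0 < δ) (hK : 2 ≤ K) (z : ℤ × ℤ) :
    gridPt δ z ∈ closure (region (2 * δ * K) (2 * δ)) ↔ InBig K z := by
  have h0 : 0 < 2 * δ := by positivity
  have hK' : (2 : ℝ) ≤ K := by exact_mod_cast hK
  have ha : 2 * δ < 2 * δ * K := by nlinarith
  rw [closure_region_eq h0 ha]
  have e1 : -(2 * δ * (K : ℝ)) = δ * ((-(2*K : ℤ) : ℤ) : ℝ) := by push_cast; ring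
  have e2 : 2 * δ * (K : ℝ) = δ * ((2*K : ℤ) : ℝ) := by push_cast; ring
  have e3 : (0 : ℝ) = δ * ((0 : ℤ) : ℝ) := by push_cast; ring
  have e4 : -(2 * (2 * δ * (K : ℝ))) = δ * ((-(4*K : ℤ) : ℤ) : ℝ) := by push_cast; ring
  have e5 : 2 * (2 * δ * (K : ℝ)) = δ * ((4*K : ℤ) : ℝ) := by push_cast; ring
  have e6 : -(2 * δ * (K : ℝ) + 2 * δ) = δ * ((-(2*K+2 : ℤ) : ℤ) : ℝ) := by push_cast; ring
  have e7 : 2 * δ * (K : ℝ) + 2 * δ = δ * ((2*K+2 : ℤ) : ℝ) := by push_cast; ring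
  have e8 : -(2 * δ) = δ * ((-2 : ℤ) : ℝ) := by push_cast; ring
  have e9 : 2 * δ = δ * ((2 : ℤ) : ℝ) := by push_cast; ring
  simp only [mem_union]
  rw [e4, e5, e6, e7, e1, e2, e8]
  have e10 : gridPt δ z ∈ crect (δ * ((-(4*K : ℤ) : ℤ) : ℝ)) (δ * ((4*K : ℤ) : ℝ)) (2 * δ)
      (δ * ((4*K : ℤ) : ℝ)) ↔ gridPt δ z ∈ crect (δ * ((-(4*K : ℤ) : ℤ) : ℝ))
      (δ * ((4*K : ℤ) : ℝ)) (δ * ((2 : ℤ) : ℝ)) (δ * ((4*K : ℤ) : ℝ)) := by rw [← e9]
  have e11 : ∀ x₁ x₂ y₁ : ℤ, (gridPt δ z ∈ crect (δ * (x₁ : ℝ)) (δ * (x₂ : ℝ)) (δ * (y₁ : ℝ)) 0 ↔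
      x₁ ≤ z.1 ∧ z.1 ≤ x₂ ∧ y₁ ≤ z.2 ∧ z.2 ≤ 0) := by
    intro x₁ x₂ y₁
    rw [e3]
    exact gridPt_mem_crect hδ _ _ _ _
  rw [e10, e11, e11, e11, gridPt_mem_crect hδ, gridPt_mem_crect hδ, gridPt_mem_crect hδ]
  rfl

end Big

/-- The large Temperleyan graph. -/
noncomputable def bigGraph (δ : ℝ) (hδ : 0 < δ) (K : ℕ) (hK : 2 ≤ K) : TemperleyanGraph :=
  have h0 : 0 < 2 * δ := by positivity
  have hK' : (2 : ℝ) ≤ K := by exact_mod_cast hK
  have ha : 2 * δ < 2 * δ * K := by nlinarith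
  { mesh := δ
    mesh_pos := hδ
    n := 14
    four_le := by norm_num
    corner := bigCorner K
    corner_injective := by
      intro i j h
      change Fin 14 at i j
      fin_cases i <;> fin_cases j <;> first | rfl | (exfalso; simp [bigCorner] at h <;> omega)
    axis_parallel := by
      intro i
      rw [bigCorner_succ]
      change Fin 14 at i
      fin_cases i <;> simp [bigCorner, bigCornerNext]
    simple := by
      intro i j hij
      show segment ℝ (gridPt (2 * δ) (bigCorner K i)) (gridPt (2 * δ) (bigCorner K (i + 1 : ZMod 14))) ∩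
        segment ℝ (gridPt (2 * δ) (bigCorner K j)) (gridPt (2 * δ) (bigCorner K (j + 1 : ZMod 14))) ⊆
        {gridPt (2 * δ) (bigCorner K i), gridPt (2 * δ) (bigCorner K (i + 1 : ZMod 14))} ∩
        {gridPt (2 * δ) (bigCorner K j), gridPt (2 * δ) (bigCorner K (j + 1 : ZMod 14))}
      rw [bigCorner_succ, bigCorner_succ]
      change Fin 14 at i j
      rw [bigCorner_eq, bigCorner_eq, bigCornerNext_eq, bigCornerNext_eq,
        segment_eq_side h0 ha, segment_eq_side h0 ha]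
      exact simple_ne h0 ha i j hij
    region := region (2 * δ * K) (2 * δ)
    isOpen_region := isOpen_region _ _
    isConnected_region := isConnected_region h0 ha
    isBounded_region := isBounded_region _ _
    frontier_region := by
      rw [frontier_region h0 ha]
      show (⋃ i : ZMod 14, side (2 * δ * K) (2 * δ) i) = _
      refine iUnion_congr fun i => ?_
      show _ = segment ℝ (gridPt (2 * δ) (bigCorner K i)) (gridPt (2 * δ) (bigCorner K (i + 1 : ZMod 14)))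
      rw [bigCorner_succ]
      change Fin 14 at i
      rw [← segment_eq_side h0 ha, ← bigCorner_eq, ← bigCornerNext_eq]
    deleted := (-K, 0)
    deleted_mem := by
      rw [frontier_region h0 ha, mem_iUnion]
      refine ⟨12, ?_⟩
      rw [side12]
      refine ⟨?_, ?_, ?_⟩
      · rw [gridPt_re]; push_cast; nlinarith
      · rw [gridPt_re]; push_cast; nlinarith
      · rw [gridPt_im]; push_cast; ring
    vert := ((Finset.Icc (-(4*K : ℤ)) (4*K)) ×ˢ (Finset.Icc (-(4*K : ℤ)) (4*K))).filter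
      (fun z => InBig K z ∧ z ≠ (2 * (-K : ℤ), 2 * 0))
    mem_vert := by
      intro z
      rw [gridPt_mem_closure hδ hK, Ne, gridPt_eq_iff hδ, Finset.mem_filter, Finset.mem_product,
        Finset.mem_Icc, Finset.mem_Icc]
      constructor
      · rintro ⟨-, h1, h2⟩
        exact ⟨h1, h2⟩
      · rintro ⟨h1, h2⟩
        refine ⟨?_, h1, h2⟩
        unfold InBig at h1
        omega }

/-! ### The small graph -/

section Small

variable (K : ℕ)

def smallCorner : Fin 4 → ℤ × ℤ := ![(-K, -K), (K, -K), (K, 0), (-K, 0)]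

def smallCornerNext : Fin 4 → ℤ × ℤ := ![(K, -K), (K, 0), (-K, 0), (-K, -K)]

def scor (a : ℝ) : Fin 4 → ℂ := ![⟨-a, -a⟩, ⟨a, -a⟩, ⟨a, 0⟩, ⟨-a, 0⟩]

def snxt (a : ℝ) : Fin 4 → ℂ := ![⟨a, -a⟩, ⟨a, 0⟩, ⟨-a, 0⟩, ⟨-a, -a⟩]

def sside (a : ℝ) : Fin 4 → Set ℂ :=
  ![{z | -a ≤ z.re ∧ z.re ≤ a ∧ z.im = -a}, {z | z.re = a ∧ -a ≤ z.im ∧ z.im ≤ 0},
    {z | -a ≤ z.re ∧ z.re ≤ a ∧ z.im = 0}, {z | z.re = -a ∧ -a ≤ z.im ∧ z.im ≤ 0}]

theorem smallCorner_succ (i : ZMod 4) :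
    smallCorner K (i + 1 : ZMod 4) = smallCornerNext K i := by
  change Fin 4 at i
  fin_cases i <;> rfl

theorem smallCorner_eq (δ : ℝ) (i : Fin 4) :
    gridPt (2 * δ) (smallCorner K i) = scor (2 * δ * K) i := by
  fin_cases i <;>
  · apply Complex.ext <;> simp [gridPt, smallCorner, scor]

theorem smallCornerNext_eq (δ : ℝ) (i : Fin 4) :
    gridPt (2 * δ) (smallCornerNext K i) = snxt (2 * δ * K) i := by
  fin_cases i <;>
  · apply Complex.ext <;> simp [gridPt, smallCornerNext, snxt]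

theorem segment_eq_sside {a : ℝ} (ha : 0 < a) (i : Fin 4) :
    segment ℝ (scor a i) (snxt a i) = sside a i := by
  fin_cases i
  · exact hseg_eq (by linarith)
  · exact vseg_eq (by linarith)
  · exact hseg_eq' (by linarith)
  · exact vseg_eq' (by linarith)

theorem ssimple_lt {a : ℝ} (ha : 0 < a) (i j : Fin 4) (hij : i < j) :
    sside a i ∩ sside a j ⊆ {scor a i, snxt a i} ∩ {scor a j, snxt a j} := by
  rintro z ⟨h1, h2⟩
  fin_cases i <;> fin_cases j <;> try exact absurd hij (by decide)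
  all_goals
    simp only [sside, Fin.zero_eta, Fin.mk_one, Fin.reduceFinMk, Fin.isValue, Matrix.cons_val,
      Set.mem_ofPred_eq] at h1 h2
    refine ⟨mem_pair_of ?_, mem_pair_of ?_⟩ <;> simp [scor, snxt] <;> grind -ring

theorem ssimple_ne {a : ℝ} (ha : 0 < a) (i j : Fin 4) (hij : i ≠ j) :
    sside a i ∩ sside a j ⊆ {scor a i, snxt a i} ∩ {scor a j, snxt a j} := by
  rcases lt_or_gt_of_ne hij with h | h
  · exact ssimple_lt ha i j h
  · rw [inter_comm, inter_comm {scor _ i, _}]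
    exact ssimple_lt ha j i h

theorem frontier_orect_small {a : ℝ} (ha : 0 < a) :
    frontier (orect (-a) a (-a) 0) = ⋃ i, sside a i := by
  ext z
  rw [(isOpen_orect _ _ _ _).frontier_eq, Set.mem_sdiff, closure_orect (by linarith) (by linarith),
    mem_crect, mem_orect, mem_iUnion]
  constructor
  · intro hz
    have key : (-a ≤ z.re ∧ z.re ≤ a ∧ z.im = -a) ∨ (z.re = a ∧ -a ≤ z.im ∧ z.im ≤ 0) ∨
      (-a ≤ z.re ∧ z.re ≤ a ∧ z.im = 0) ∨ (z.re = -a ∧ -a ≤ z.im ∧ z.im ≤ 0) := by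
      grind -ring (splits := 20)
    rcases key with k | k | k | k
    · exact ⟨0, k⟩
    · exact ⟨1, k⟩
    · exact ⟨2, k⟩
    · exact ⟨3, k⟩
  · rintro ⟨i, hi⟩
    fin_cases i
    all_goals
      simp only [sside, Fin.zero_eta, Fin.mk_one, Fin.reduceFinMk, Fin.isValue, Matrix.cons_val,
        Set.mem_ofPred_eq] at hi
      grind -ring (splits := 20)

theorem smallClosure {a : ℝ} (ha : 0 < a) :
    closure (orect (-a) a (-a) 0) = crect (-a) a (-a) 0 :=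
  closure_orect (by linarith) (by linarith)

end Small

/-- The Temperleyan graph of the rectangle. -/
noncomputable def smallGraph (δ : ℝ) (hδ : 0 < δ) (K : ℕ) (hK : 2 ≤ K) : TemperleyanGraph :=
  have hK' : (2 : ℝ) ≤ K := by exact_mod_cast hK
  have ha : 0 < 2 * δ * K := by positivity
  { mesh := δ
    mesh_pos := hδ
    n := 4
    four_le := le_rfl
    corner := smallCorner K
    corner_injective := by
      intro i j h
      change Fin 4 at i j
      fin_cases i <;> fin_cases j <;> first | rfl | (exfalso; simp [smallCorner] at h <;> omega)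
    axis_parallel := by
      intro i
      rw [smallCorner_succ]
      change Fin 4 at i
      fin_cases i <;> simp [smallCorner, smallCornerNext]
    simple := by
      intro i j hij
      show segment ℝ (gridPt (2 * δ) (smallCorner K i)) (gridPt (2 * δ) (smallCorner K (i + 1 : ZMod 4))) ∩
        segment ℝ (gridPt (2 * δ) (smallCorner K j)) (gridPt (2 * δ) (smallCorner K (j + 1 : ZMod 4))) ⊆
        {gridPt (2 * δ) (smallCorner K i), gridPt (2 * δ) (smallCorner K (i + 1 : ZMod 4))} ∩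
        {gridPt (2 * δ) (smallCorner K j), gridPt (2 * δ) (smallCorner K (j + 1 : ZMod 4))}
      rw [smallCorner_succ, smallCorner_succ]
      change Fin 4 at i j
      rw [smallCorner_eq, smallCorner_eq, smallCornerNext_eq, smallCornerNext_eq,
        segment_eq_sside ha, segment_eq_sside ha]
      exact ssimple_ne ha i j hij
    region := orect (-(2 * δ * K)) (2 * δ * K) (-(2 * δ * K)) 0
    isOpen_region := isOpen_orect _ _ _ _
    isConnected_region := by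
      refine ⟨⟨⟨0, -(2 * δ * K) / 2⟩, ?_⟩, (convex_orect _ _ _ _).isPreconnected⟩
      rw [mem_orect]
      refine ⟨?_, ?_, ?_, ?_⟩ <;> simp only <;> linarith
    isBounded_region := isBounded_orect _ _ _ _
    frontier_region := by
      rw [frontier_orect_small ha]
      show (⋃ i : ZMod 4, sside (2 * δ * K) i) = _
      refine iUnion_congr fun i => ?_
      show _ = segment ℝ (gridPt (2 * δ) (smallCorner K i)) (gridPt (2 * δ) (smallCorner K (i + 1 : ZMod 4)))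
      rw [smallCorner_succ]
      change Fin 4 at i
      rw [← segment_eq_sside ha, ← smallCorner_eq, ← smallCornerNext_eq]
    deleted := (-K, 0)
    deleted_mem := by
      rw [frontier_orect_small ha, mem_iUnion]
      refine ⟨2, ?_⟩
      refine ⟨?_, ?_, ?_⟩
      · rw [gridPt_re]; push_cast; nlinarith
      · rw [gridPt_re]; push_cast; nlinarith
      · rw [gridPt_im]; push_cast; ring
    vert := ((Finset.Icc (-(2*K : ℤ)) (2*K)) ×ˢ (Finset.Icc (-(2*K : ℤ)) 0)).erase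
      (2 * (-K : ℤ), 2 * 0)
    mem_vert := by
      intro z
      have e1 : -(2 * δ * (K : ℝ)) = δ * ((-(2*K : ℤ) : ℤ) : ℝ) := by push_cast; ring
      have e2 : 2 * δ * (K : ℝ) = δ * ((2*K : ℤ) : ℝ) := by push_cast; ring
      rw [smallClosure ha, Ne, gridPt_eq_iff hδ, Finset.mem_erase, Finset.mem_product,
        Finset.mem_Icc, Finset.mem_Icc, e1, e2]
      have e3 : gridPt δ z ∈ crect (δ * ((-(2*K : ℤ) : ℤ) : ℝ)) (δ * ((2*K : ℤ) : ℝ))
          (δ * ((-(2*K : ℤ) : ℤ) : ℝ)) 0 ↔ (-(2*K : ℤ) ≤ z.1 ∧ z.1 ≤ 2*K ∧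
            -(2*K : ℤ) ≤ z.2 ∧ z.2 ≤ 0) := by
        have e4 : (0 : ℝ) = δ * ((0 : ℤ) : ℝ) := by push_cast; ring
        rw [e4]
        exact gridPt_mem_crect hδ _ _ _ _
      rw [e3]
      tauto }

end Vale.Agent.DoubleDimer
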