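import Vale.Agent.DoubleDimer.DefsA

/-!
Lemmas on the distance between parametrized loops.
-/

open Set Filter Topology

namespace Vale.Agent.DoubleDimer

theorem loopDist_le (γ γ' : C(Circle, ℂ)) (φ : Circle ≃ₜ Circle) :
    loopDist γ γ' ≤ dist γ (γ'.comp (φ : C(Circle, Circle))) :=
  ciInf_le ⟨0, by rintro _ ⟨ψ, rfl⟩; exact dist_nonneg⟩ φ

theorem loopDist_nonneg (γ γ' : C(Circle, ℂ)) : 0 ≤ loopDist γ γ' :=
  Real.iInf_nonneg fun _ => dist_nonneg

theorem dist_comp_homeo (γ γ' : C(Circle, ℂ)) (φ : Circle ≃ₜ Circle) :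
    dist (γ.comp (φ : C(Circle, Circle))) (γ'.comp (φ : C(Circle, Circle))) ≤ dist γ γ' := by
  rw [ContinuousMap.dist_le dist_nonneg]
  intro x
  exact ContinuousMap.dist_apply_le_dist (f := γ) (g := γ') (φ x)

theorem loopDist_comm_le (γ γ' : C(Circle, ℂ)) : loopDist γ γ' ≤ loopDist γ' γ := by
  refine le_ciInf fun φ => (loopDist_le γ γ' φ.symm).trans ?_
  have h := dist_comp_homeo γ' (γ.comp (φ : C(Circle, Circle))) φ.symm
  have h2 : (γ.comp (φ : C(Circle, Circle))).comp (φ.symm : C(Circle, Circle)) = γ := by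
    ext x; simp
  rw [h2, dist_comm] at h
  exact h

theorem loopDist_comm (γ γ' : C(Circle, ℂ)) : loopDist γ γ' = loopDist γ' γ :=
  le_antisymm (loopDist_comm_le γ γ') (loopDist_comm_le γ' γ)

theorem loopDist_self (γ : C(Circle, ℂ)) : loopDist γ γ = 0 := by
  refine le_antisymm ?_ (loopDist_nonneg _ _)
  refine (loopDist_le γ γ (Homeomorph.refl _)).trans (le_of_eq ?_)
  rw [show (ContinuousMap.comp γ ((Homeomorph.refl Circle : Circle ≃ₜ Circle) :
    C(Circle, Circle)) : C(Circle, ℂ)) = γ from by ext x; rfl]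
  exact dist_self (α := C(Circle, ℂ)) γ

theorem loopDist_triangle (γ₁ γ₂ γ₃ : C(Circle, ℂ)) :
    loopDist γ₁ γ₃ ≤ loopDist γ₁ γ₂ + loopDist γ₂ γ₃ := by
  refine le_of_forall_pos_le_add fun ε hε => ?_
  obtain ⟨φ, hφ⟩ := exists_lt_of_ciInf_lt
    (show loopDist γ₁ γ₂ < loopDist γ₁ γ₂ + ε / 2 by linarith)
  obtain ⟨ψ, hψ⟩ := exists_lt_of_ciInf_lt
    (show loopDist γ₂ γ₃ < loopDist γ₂ γ₃ + ε / 2 by linarith)
  have h1 := loopDist_le γ₁ γ₃ (φ.trans ψ)
  have h2 := dist_comp_homeo γ₂ (γ₃.comp (ψ : C(Circle, Circle))) φ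
  have h3 : (γ₃.comp (ψ : C(Circle, Circle))).comp (φ : C(Circle, Circle)) =
      γ₃.comp ((φ.trans ψ : Circle ≃ₜ Circle) : C(Circle, Circle)) := by
    ext x; simp
  rw [h3] at h2
  have h4 := dist_triangle γ₁ (γ₂.comp (φ : C(Circle, Circle)))
    (γ₃.comp ((φ.trans ψ : Circle ≃ₜ Circle) : C(Circle, Circle)))
  linarith

theorem PLoop.exists_close' (γ γ' : PLoop) {ε : ℝ} (hε : 0 < ε) :
    ∃ φ : Circle ≃ₜ Circle, ∀ t, dist (γ.param t) (γ'.param (φ t)) ≤ loopDist γ γ' + ε := by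
  obtain ⟨φ, hφ⟩ := exists_lt_of_ciInf_lt
    (show loopDist γ γ' < loopDist γ γ' + ε by linarith)
  refine ⟨φ, fun t => ?_⟩
  have h1 := ContinuousMap.dist_apply_le_dist (f := (show C(Circle, ℂ) from γ))
    (g := ContinuousMap.comp (show C(Circle, ℂ) from γ') (φ : C(Circle, Circle))) t
  exact h1.trans hφ.le

theorem PLoop.diam_le' (γ γ' : PLoop) :
    Metric.diam γ.trace ≤ Metric.diam γ'.trace + 2 * loopDist γ γ' := by
  refine le_of_forall_pos_le_add fun ε hε => ?_
  obtain ⟨φ, hφ⟩ := γ.exists_close' γ' (half_pos hε)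
  have hb : Bornology.IsBounded γ'.trace :=
    (isCompact_range (show C(Circle, ℂ) from γ').continuous).isBounded
  refine Metric.diam_le_of_forall_dist_le
    (by have := Metric.diam_nonneg (s := γ'.trace); have := loopDist_nonneg γ γ'
        linarith) ?_
  rintro _ ⟨s, rfl⟩ _ ⟨t, rfl⟩
  have h3 := Metric.dist_le_diam_of_mem hb (Set.mem_range_self (φ s)) (Set.mem_range_self (φ t))
  have h4 := dist_triangle4 (γ.param s) (γ'.param (φ s)) (γ'.param (φ t)) (γ.param t)
  have h5 := hφ t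
  rw [dist_comm] at h5
  linarith [hφ s]

theorem PLoop.diam_eq {γ γ' : PLoop} (h : loopDist γ γ' = 0) :
    Metric.diam γ.trace = Metric.diam γ'.trace := by
  have h1 := γ.diam_le' γ'
  have h2 := γ'.diam_le' γ
  rw [loopDist_comm γ' γ] at h2
  exact le_antisymm (by linarith) (by linarith)

namespace TemperleyanGraph

variable {G : TemperleyanGraph}

theorem PerfectMatching.ext' {m m' : G.PerfectMatching} (h : m.partner = m'.partner) : m = m' := by
  cases m; cases m'; simp only at h; subst h; rfl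

theorem finite_perfectMatching (G : TemperleyanGraph) : Finite G.PerfectMatching :=
  Finite.of_injective (fun m : G.PerfectMatching => m.partner) fun _ _ h =>
    PerfectMatching.ext' h

end TemperleyanGraph

end Vale.Agent.DoubleDimer
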