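import Vale.Agent.DoubleDimer.DefsB

/-!
Lemmas on loops.
-/

open Set Filter Topology

namespace Vale.Agent.DoubleDimer

theorem PLoop.exists_close (γ γ' : PLoop) {ε : ℝ} (hε : 0 < ε) :
    ∃ φ : Circle ≃ₜ Circle, ∀ t, dist (γ.param t) (γ'.param (φ t)) ≤ dist γ γ' + ε :=
  γ.exists_close' γ' hε

theorem PLoop.diam_le (γ γ' : PLoop) :
    Metric.diam γ.trace ≤ Metric.diam γ'.trace + 2 * dist γ γ' := γ.diam_le' γ'

/-- Two injective parametrizations of the same set are at distance `0`. -/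
theorem PLoop.mk_eq_of_trace_eq (γ γ' : PLoop) (hγ : Function.Injective γ.param)
    (hγ' : Function.Injective γ'.param) (h : γ.trace = γ'.trace) :
    SeparationQuotient.mk γ = SeparationQuotient.mk γ' := by
  have hc : Continuous γ.param := (show C(Circle, ℂ) from γ).continuous
  have hc' : Continuous γ'.param := (show C(Circle, ℂ) from γ').continuous
  let H : Circle ≃ₜ Set.range γ.param := Continuous.homeoOfEquivCompactToT2
    (f := Equiv.ofInjective _ hγ) (hc.subtype_mk _)
  let H' : Circle ≃ₜ Set.range γ'.param := Continuous.homeoOfEquivCompactToT2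
    (f := Equiv.ofInjective _ hγ') (hc'.subtype_mk _)
  let φ : Circle ≃ₜ Circle := (H.trans (Homeomorph.setCongr h)).trans H'.symm
  have hφ : ∀ t, γ'.param (φ t) = γ.param t := fun t => by
    have h1 : H' (φ t) = Homeomorph.setCongr h (H t) := H'.apply_symm_apply _
    exact congrArg Subtype.val h1
  rw [SeparationQuotient.mk_eq_mk, Metric.inseparable_iff]
  refine le_antisymm ((loopDist_le _ _ φ).trans (le_of_eq ?_)) dist_nonneg
  have h2 : (ContinuousMap.comp (show C(Circle, ℂ) from γ') (φ : C(Circle, Circle))) = γ := by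
    ext t; exact hφ t
  rw [h2]
  exact dist_self (α := C(Circle, ℂ)) γ

theorem LoopCollection.Close.mono {ε ε' : ℝ} (h : ε ≤ ε') {Γ Γ' : LoopCollection}
    (hc : Γ.Close ε Γ') : Γ.Close ε' Γ' := by
  obtain ⟨f, h1, h2, h3⟩ := hc
  exact ⟨f, fun i hi => h1 i (h.trans_lt hi), fun j hj => h2 j (h.trans_lt hj),
    fun i j hij => (h3 i j hij).trans h⟩

instance : BorelSpace LoopCollection := ⟨rfl⟩

namespace TemperleyanGraph

variable {G : TemperleyanGraph}

theorem IsCycleLoop.diam_pos {m₁ m₂ : G.PerfectMatching} {ℓ : Loop}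
    (h : IsCycleLoop m₁ m₂ ℓ) : 0 < ℓ.diameter := by
  obtain ⟨v, -, γ, rfl, hinj, -⟩ := h
  have hb : Bornology.IsBounded γ.trace :=
    (isCompact_range (show C(Circle, ℂ) from γ).continuous).isBounded
  have hne : γ.param 1 ≠ γ.param (-1) := fun h => by
    have h1 := congrArg (fun z : Circle => (z : ℂ)) (hinj h)
    norm_num at h1
  exact (dist_pos.mpr hne).trans_le
    (Metric.dist_le_diam_of_mem hb (Set.mem_range_self _) (Set.mem_range_self _))

theorem finite_isCycleLoop (m₁ m₂ : G.PerfectMatching) : {ℓ | IsCycleLoop m₁ m₂ ℓ}.Finite := by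
  have h : {ℓ | IsCycleLoop m₁ m₂ ℓ} ⊆ ⋃ v : G.Vertex, {ℓ : Loop | ∃ γ : PLoop,
      SeparationQuotient.mk γ = ℓ ∧ Function.Injective γ.param ∧
        γ.trace = cycleTrace m₁ m₂ v} := by
    rintro ℓ ⟨v, -, h⟩
    exact Set.mem_iUnion.mpr ⟨v, h⟩
  refine (Set.finite_iUnion fun v => Set.Subsingleton.finite ?_).subset h
  rintro _ ⟨γ, rfl, h1, h2⟩ _ ⟨γ', rfl, h1', h2'⟩
  exact PLoop.mk_eq_of_trace_eq γ γ' h1 h1' (h2.trans h2'.symm)

end TemperleyanGraph

end Vale.Agent.DoubleDimer
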