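import Mathlib

/-!
Rectangles and axis-parallel segments in the complex plane.
-/

open Set Filter Topology

namespace Vale.Agent.DoubleDimer

def orect (x₁ x₂ y₁ y₂ : ℝ) : Set ℂ := Ioo x₁ x₂ ×ℂ Ioo y₁ y₂

theorem mem_orect {x₁ x₂ y₁ y₂ : ℝ} {z : ℂ} :
    z ∈ orect x₁ x₂ y₁ y₂ ↔ x₁ < z.re ∧ z.re < x₂ ∧ y₁ < z.im ∧ z.im < y₂ := by
  simp [orect, Complex.mem_reProdIm, and_assoc]

theorem isOpen_orect (x₁ x₂ y₁ y₂ : ℝ) : IsOpen (orect x₁ x₂ y₁ y₂) :=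
  isOpen_Ioo.reProdIm isOpen_Ioo

theorem isBounded_orect (x₁ x₂ y₁ y₂ : ℝ) : Bornology.IsBounded (orect x₁ x₂ y₁ y₂) :=
  (Metric.isBounded_Ioo _ _).reProdIm (Metric.isBounded_Ioo _ _)

theorem convex_orect (x₁ x₂ y₁ y₂ : ℝ) : Convex ℝ (orect x₁ x₂ y₁ y₂) :=
  ((convex_Ioo x₁ x₂).is_linear_preimage Complex.reLm.isLinear).inter
    ((convex_Ioo y₁ y₂).is_linear_preimage Complex.imLm.isLinear)

def crect (x₁ x₂ y₁ y₂ : ℝ) : Set ℂ := Icc x₁ x₂ ×ℂ Icc y₁ y₂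

theorem mem_crect {x₁ x₂ y₁ y₂ : ℝ} {z : ℂ} :
    z ∈ crect x₁ x₂ y₁ y₂ ↔ x₁ ≤ z.re ∧ z.re ≤ x₂ ∧ y₁ ≤ z.im ∧ z.im ≤ y₂ := by
  simp [crect, Complex.mem_reProdIm, and_assoc]

theorem convex_crect (x₁ x₂ y₁ y₂ : ℝ) : Convex ℝ (crect x₁ x₂ y₁ y₂) :=
  ((convex_Icc x₁ x₂).is_linear_preimage Complex.reLm.isLinear).inter
    ((convex_Icc y₁ y₂).is_linear_preimage Complex.imLm.isLinear)

theorem closure_orect {x₁ x₂ y₁ y₂ : ℝ} (hx : x₁ < x₂) (hy : y₁ < y₂) :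
    closure (orect x₁ x₂ y₁ y₂) = crect x₁ x₂ y₁ y₂ := by
  rw [orect, Complex.closure_reProdIm, closure_Ioo hx.ne, closure_Ioo hy.ne, crect]

theorem mem_hseg {x₁ x₂ y : ℝ} (h : x₁ ≤ x₂) {z : ℂ} :
    z ∈ segment ℝ (⟨x₁, y⟩ : ℂ) ⟨x₂, y⟩ ↔ x₁ ≤ z.re ∧ z.re ≤ x₂ ∧ z.im = y := by
  constructor
  · rintro ⟨s, t, hs, ht, hst, rfl⟩
    have hs' : s = 1 - t := by linarith
    subst hs'
    simp only [Complex.add_re, Complex.real_smul, Complex.mul_re, Complex.ofReal_re,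
      Complex.ofReal_im, zero_mul, sub_zero, Complex.add_im, Complex.mul_im, add_zero]
    refine ⟨by nlinarith, by nlinarith, by ring⟩
  · rintro ⟨h1, h2, h3⟩
    rcases h.eq_or_lt with h | h
    · subst h
      have : z = ⟨x₁, y⟩ := Complex.ext (le_antisymm h2 h1) h3
      rw [this]
      exact left_mem_segment ℝ _ _
    · have hpos : 0 < x₂ - x₁ := by linarith
      refine ⟨(x₂ - z.re) / (x₂ - x₁), (z.re - x₁) / (x₂ - x₁), by
        apply div_nonneg <;> linarith, by apply div_nonneg <;> linarith, by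
        field_simp; ring, ?_⟩
      apply Complex.ext
      · simp only [Complex.add_re, Complex.real_smul, Complex.mul_re, Complex.ofReal_re,
          Complex.ofReal_im, zero_mul, sub_zero]
        field_simp
        ring
      · simp only [Complex.real_smul, zero_mul, Complex.add_im, Complex.mul_im, add_zero,
          Complex.ofReal_re, Complex.ofReal_im]
        rw [h3]
        field_simp
        ring

theorem mem_vseg {x y₁ y₂ : ℝ} (h : y₁ ≤ y₂) {z : ℂ} :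
    z ∈ segment ℝ (⟨x, y₁⟩ : ℂ) ⟨x, y₂⟩ ↔ z.re = x ∧ y₁ ≤ z.im ∧ z.im ≤ y₂ := by
  constructor
  · rintro ⟨s, t, hs, ht, hst, rfl⟩
    have hs' : s = 1 - t := by linarith
    subst hs'
    simp only [Complex.add_re, Complex.real_smul, Complex.mul_re, Complex.ofReal_re,
      Complex.ofReal_im, zero_mul, sub_zero, Complex.add_im, Complex.mul_im, add_zero]
    refine ⟨by ring, by nlinarith, by nlinarith⟩
  · rintro ⟨h1, h2, h3⟩
    rcases h.eq_or_lt with h | h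
    · subst h
      have : z = ⟨x, y₁⟩ := Complex.ext h1 (le_antisymm h3 h2)
      rw [this]
      exact left_mem_segment ℝ _ _
    · have hpos : 0 < y₂ - y₁ := by linarith
      refine ⟨(y₂ - z.im) / (y₂ - y₁), (z.im - y₁) / (y₂ - y₁), by
        apply div_nonneg <;> linarith, by apply div_nonneg <;> linarith, by
        field_simp; ring, ?_⟩
      apply Complex.ext
      · simp only [Complex.add_re, Complex.real_smul, Complex.mul_re, Complex.ofReal_re,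
          Complex.ofReal_im, zero_mul, sub_zero]
        rw [h1]
        field_simp
        ring
      · simp only [Complex.real_smul, zero_mul, Complex.add_im, Complex.mul_im, add_zero,
          Complex.ofReal_re, Complex.ofReal_im]
        field_simp
        ring

theorem hseg_eq {x₁ x₂ y : ℝ} (h : x₁ ≤ x₂) :
    segment ℝ (⟨x₁, y⟩ : ℂ) ⟨x₂, y⟩ = {z | x₁ ≤ z.re ∧ z.re ≤ x₂ ∧ z.im = y} :=
  Set.ext fun _ => mem_hseg h

theorem vseg_eq {x y₁ y₂ : ℝ} (h : y₁ ≤ y₂) :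
    segment ℝ (⟨x, y₁⟩ : ℂ) ⟨x, y₂⟩ = {z | z.re = x ∧ y₁ ≤ z.im ∧ z.im ≤ y₂} :=
  Set.ext fun _ => mem_vseg h

theorem hseg_eq' {x₁ x₂ y : ℝ} (h : x₂ ≤ x₁) :
    segment ℝ (⟨x₁, y⟩ : ℂ) ⟨x₂, y⟩ = {z | x₂ ≤ z.re ∧ z.re ≤ x₁ ∧ z.im = y} := by
  rw [segment_symm, hseg_eq h]

theorem vseg_eq' {x y₁ y₂ : ℝ} (h : y₂ ≤ y₁) :
    segment ℝ (⟨x, y₁⟩ : ℂ) ⟨x, y₂⟩ = {z | z.re = x ∧ y₂ ≤ z.im ∧ z.im ≤ y₁} := by
  rw [segment_symm, vseg_eq h]

end Vale.Agent.DoubleDimer
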