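import Vale.Agent.DoubleDimer.Rect

/-!
The region `P` (slit square annulus, gate and inner rectangle) and its boundary polygon.
-/

open Set Filter Topology

namespace Vale.Agent.DoubleDimer

/-- The region, with real parameters `0 < h < a`. -/
def region (a h : ℝ) : Set ℂ :=
  orect (-a) (a) (-a) (0) ∪ (
  orect (-(2*a)) (a) (-h) (0) ∪ (
  orect (-(2*a)) (-(a+h)) (-(2*a)) (0) ∪ (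
  orect (-(2*a)) (2*a) (-(2*a)) (-(a+h)) ∪ (
  orect (a+h) (2*a) (-(2*a)) (2*a) ∪ (
  orect (-(2*a)) (2*a) (h) (2*a))))))

theorem mem_region {a h : ℝ} {z : ℂ} : z ∈ region a h ↔
    (-a < z.re ∧ z.re < a ∧ -a < z.im ∧ z.im < 0) ∨
    (-(2*a) < z.re ∧ z.re < a ∧ -h < z.im ∧ z.im < 0) ∨
    (-(2*a) < z.re ∧ z.re < -(a+h) ∧ -(2*a) < z.im ∧ z.im < 0) ∨
    (-(2*a) < z.re ∧ z.re < 2*a ∧ -(2*a) < z.im ∧ z.im < -(a+h)) ∨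
    (a+h < z.re ∧ z.re < 2*a ∧ -(2*a) < z.im ∧ z.im < 2*a) ∨
    (-(2*a) < z.re ∧ z.re < 2*a ∧ h < z.im ∧ z.im < 2*a) := by
  simp only [region, mem_union, mem_orect]

theorem mem_closure_region {a h : ℝ} (h0 : 0 < h) (ha : h < a) {z : ℂ} : z ∈ closure (region a h) ↔
    (-a ≤ z.re ∧ z.re ≤ a ∧ -a ≤ z.im ∧ z.im ≤ 0) ∨
    (-(2*a) ≤ z.re ∧ z.re ≤ a ∧ -h ≤ z.im ∧ z.im ≤ 0) ∨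
    (-(2*a) ≤ z.re ∧ z.re ≤ -(a+h) ∧ -(2*a) ≤ z.im ∧ z.im ≤ 0) ∨
    (-(2*a) ≤ z.re ∧ z.re ≤ 2*a ∧ -(2*a) ≤ z.im ∧ z.im ≤ -(a+h)) ∨
    (a+h ≤ z.re ∧ z.re ≤ 2*a ∧ -(2*a) ≤ z.im ∧ z.im ≤ 2*a) ∨
    (-(2*a) ≤ z.re ∧ z.re ≤ 2*a ∧ h ≤ z.im ∧ z.im ≤ 2*a) := by
  unfold region
  simp only [closure_union]
  rw [closure_orect (by linarith) (by linarith), closure_orect (by linarith) (by linarith), closure_orect (by linarith) (by linarith), closure_orect (by linarith) (by linarith), closure_orect (by linarith) (by linarith), closure_orect (by linarith) (by linarith)]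
  simp only [mem_union, mem_crect]

theorem isOpen_region (a h : ℝ) : IsOpen (region a h) :=
  (isOpen_orect _ _ _ _).union <| (isOpen_orect _ _ _ _).union <| (isOpen_orect _ _ _ _).union <| (isOpen_orect _ _ _ _).union <| (isOpen_orect _ _ _ _).union <| isOpen_orect _ _ _ _

theorem isBounded_region (a h : ℝ) : Bornology.IsBounded (region a h) :=
  (isBounded_orect _ _ _ _).union <| (isBounded_orect _ _ _ _).union <| (isBounded_orect _ _ _ _).union <| (isBounded_orect _ _ _ _).union <| (isBounded_orect _ _ _ _).union <| isBounded_orect _ _ _ _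

theorem isPreconnected_orect_union {x₁ x₂ y₁ y₂ x y : ℝ} {s : Set ℂ} (hs : IsPreconnected s)
    (h : x₁ < x ∧ x < x₂ ∧ y₁ < y ∧ y < y₂) (h' : (⟨x, y⟩ : ℂ) ∈ s) :
    IsPreconnected (orect x₁ x₂ y₁ y₂ ∪ s) :=
  IsPreconnected.union _ (mem_orect.mpr h) h' (convex_orect _ _ _ _).isPreconnected hs

theorem isConnected_region {a h : ℝ} (h0 : 0 < h) (ha : h < a) : IsConnected (region a h) := by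
  refine ⟨⟨⟨0, -h/2⟩, ?_⟩, ?_⟩
  · rw [mem_region]
    left
    simp only
    refine ⟨?_, ?_, ?_, ?_⟩ <;> linarith
  · refine isPreconnected_orect_union (x := 0) (y := -h/2) ?_ ?_ ?_
    · refine isPreconnected_orect_union (x := -(3*a+h)/2) (y := -h/2) ?_ ?_ ?_
      · refine isPreconnected_orect_union (x := -(3*a+h)/2) (y := -(3*a+h)/2) ?_ ?_ ?_
        · refine isPreconnected_orect_union (x := (3*a+h)/2) (y := -(3*a+h)/2) ?_ ?_ ?_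
          · refine isPreconnected_orect_union (x := (3*a+h)/2) (y := (2*a+h)/2)
              (convex_orect _ _ _ _).isPreconnected ?_ ?_
            · refine ⟨?_, ?_, ?_, ?_⟩ <;> linarith
            · rw [mem_orect]
              refine ⟨?_, ?_, ?_, ?_⟩ <;> simp only <;> linarith
          · refine ⟨?_, ?_, ?_, ?_⟩ <;> linarith
          · left; rw [mem_orect]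
            refine ⟨?_, ?_, ?_, ?_⟩ <;> simp only <;> linarith
        · refine ⟨?_, ?_, ?_, ?_⟩ <;> linarith
        · left; rw [mem_orect]
          refine ⟨?_, ?_, ?_, ?_⟩ <;> simp only <;> linarith
      · refine ⟨?_, ?_, ?_, ?_⟩ <;> linarith
      · left; rw [mem_orect]
        refine ⟨?_, ?_, ?_, ?_⟩ <;> simp only <;> linarith
    · refine ⟨?_, ?_, ?_, ?_⟩ <;> linarith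
    · left; rw [mem_orect]
      refine ⟨?_, ?_, ?_, ?_⟩ <;> simp only <;> linarith

/-- corners of the boundary polygon -/
def cor (a h : ℝ) : Fin 14 → ℂ :=
  ![⟨-(2*a), -(2*a)⟩,
    ⟨2*a, -(2*a)⟩,
    ⟨2*a, 2*a⟩,
    ⟨-(2*a), 2*a⟩,
    ⟨-(2*a), h⟩,
    ⟨a+h, h⟩,
    ⟨a+h, -(a+h)⟩,
    ⟨-(a+h), -(a+h)⟩,
    ⟨-(a+h), -h⟩,
    ⟨-a, -h⟩,
    ⟨-a, -a⟩,
    ⟨a, -a⟩,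
    ⟨a, 0⟩,
    ⟨-(2*a), 0⟩]

/-- the corners following those of `cor` -/
def nxt (a h : ℝ) : Fin 14 → ℂ :=
  ![⟨2*a, -(2*a)⟩,
    ⟨2*a, 2*a⟩,
    ⟨-(2*a), 2*a⟩,
    ⟨-(2*a), h⟩,
    ⟨a+h, h⟩,
    ⟨a+h, -(a+h)⟩,
    ⟨-(a+h), -(a+h)⟩,
    ⟨-(a+h), -h⟩,
    ⟨-a, -h⟩,
    ⟨-a, -a⟩,
    ⟨a, -a⟩,
    ⟨a, 0⟩,
    ⟨-(2*a), 0⟩,
    ⟨-(2*a), -(2*a)⟩]

/-- the sides of the boundary polygon -/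
def side (a h : ℝ) : Fin 14 → Set ℂ :=
  ![{z | -(2*a) ≤ z.re ∧ z.re ≤ 2*a ∧ z.im = -(2*a)},
    {z | z.re = 2*a ∧ -(2*a) ≤ z.im ∧ z.im ≤ 2*a},
    {z | -(2*a) ≤ z.re ∧ z.re ≤ 2*a ∧ z.im = 2*a},
    {z | z.re = -(2*a) ∧ h ≤ z.im ∧ z.im ≤ 2*a},
    {z | -(2*a) ≤ z.re ∧ z.re ≤ a+h ∧ z.im = h},
    {z | z.re = a+h ∧ -(a+h) ≤ z.im ∧ z.im ≤ h},
    {z | -(a+h) ≤ z.re ∧ z.re ≤ a+h ∧ z.im = -(a+h)},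
    {z | z.re = -(a+h) ∧ -(a+h) ≤ z.im ∧ z.im ≤ -h},
    {z | -(a+h) ≤ z.re ∧ z.re ≤ -a ∧ z.im = -h},
    {z | z.re = -a ∧ -a ≤ z.im ∧ z.im ≤ -h},
    {z | -a ≤ z.re ∧ z.re ≤ a ∧ z.im = -a},
    {z | z.re = a ∧ -a ≤ z.im ∧ z.im ≤ 0},
    {z | -(2*a) ≤ z.re ∧ z.re ≤ a ∧ z.im = 0},
    {z | z.re = -(2*a) ∧ -(2*a) ≤ z.im ∧ z.im ≤ 0}]

theorem side0 (a h : ℝ) : side a h 0 = {z : ℂ | -(2*a) ≤ z.re ∧ z.re ≤ 2*a ∧ z.im = -(2*a)} := rfl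
theorem side1 (a h : ℝ) : side a h 1 = {z : ℂ | z.re = 2*a ∧ -(2*a) ≤ z.im ∧ z.im ≤ 2*a} := rfl
theorem side2 (a h : ℝ) : side a h 2 = {z : ℂ | -(2*a) ≤ z.re ∧ z.re ≤ 2*a ∧ z.im = 2*a} := rfl
theorem side3 (a h : ℝ) : side a h 3 = {z : ℂ | z.re = -(2*a) ∧ h ≤ z.im ∧ z.im ≤ 2*a} := rfl
theorem side4 (a h : ℝ) : side a h 4 = {z : ℂ | -(2*a) ≤ z.re ∧ z.re ≤ a+h ∧ z.im = h} := rfl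
theorem side5 (a h : ℝ) : side a h 5 = {z : ℂ | z.re = a+h ∧ -(a+h) ≤ z.im ∧ z.im ≤ h} := rfl
theorem side6 (a h : ℝ) : side a h 6 = {z : ℂ | -(a+h) ≤ z.re ∧ z.re ≤ a+h ∧ z.im = -(a+h)} := rfl
theorem side7 (a h : ℝ) : side a h 7 = {z : ℂ | z.re = -(a+h) ∧ -(a+h) ≤ z.im ∧ z.im ≤ -h} := rfl
theorem side8 (a h : ℝ) : side a h 8 = {z : ℂ | -(a+h) ≤ z.re ∧ z.re ≤ -a ∧ z.im = -h} := rfl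
theorem side9 (a h : ℝ) : side a h 9 = {z : ℂ | z.re = -a ∧ -a ≤ z.im ∧ z.im ≤ -h} := rfl
theorem side10 (a h : ℝ) : side a h 10 = {z : ℂ | -a ≤ z.re ∧ z.re ≤ a ∧ z.im = -a} := rfl
theorem side11 (a h : ℝ) : side a h 11 = {z : ℂ | z.re = a ∧ -a ≤ z.im ∧ z.im ≤ 0} := rfl
theorem side12 (a h : ℝ) : side a h 12 = {z : ℂ | -(2*a) ≤ z.re ∧ z.re ≤ a ∧ z.im = 0} := rfl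
theorem side13 (a h : ℝ) : side a h 13 = {z : ℂ | z.re = -(2*a) ∧ -(2*a) ≤ z.im ∧ z.im ≤ 0} := rfl

theorem segment_eq_side {a h : ℝ} (h0 : 0 < h) (ha : h < a) (i : Fin 14) :
    segment ℝ (cor a h i) (nxt a h i) = side a h i := by
  fin_cases i
  · exact hseg_eq (by linarith)
  · exact vseg_eq (by linarith)
  · exact hseg_eq' (by linarith)
  · exact vseg_eq' (by linarith)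
  · exact hseg_eq (by linarith)
  · exact vseg_eq' (by linarith)
  · exact hseg_eq' (by linarith)
  · exact vseg_eq (by linarith)
  · exact hseg_eq (by linarith)
  · exact vseg_eq' (by linarith)
  · exact hseg_eq (by linarith)
  · exact vseg_eq (by linarith)
  · exact hseg_eq' (by linarith)
  · exact vseg_eq' (by linarith)

theorem frontier_aux1_0 {a h : ℝ} (h0 : 0 < h) (ha : h < a) {z : ℂ}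
    (hc : -a ≤ z.re ∧ z.re ≤ a ∧ -a ≤ z.im ∧ z.im ≤ 0)
    (ho : ¬ (
    (-a < z.re ∧ z.re < a ∧ -a < z.im ∧ z.im < 0) ∨
    (-(2*a) < z.re ∧ z.re < a ∧ -h < z.im ∧ z.im < 0) ∨
    (-(2*a) < z.re ∧ z.re < -(a+h) ∧ -(2*a) < z.im ∧ z.im < 0) ∨
    (-(2*a) < z.re ∧ z.re < 2*a ∧ -(2*a) < z.im ∧ z.im < -(a+h)) ∨
    (a+h < z.re ∧ z.re < 2*a ∧ -(2*a) < z.im ∧ z.im < 2*a) ∨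
    (-(2*a) < z.re ∧ z.re < 2*a ∧ h < z.im ∧ z.im < 2*a))) :
    (-(2*a) ≤ z.re ∧ z.re ≤ 2*a ∧ z.im = -(2*a)) ∨ (z.re = 2*a ∧ -(2*a) ≤ z.im ∧ z.im ≤ 2*a) ∨ (-(2*a) ≤ z.re ∧ z.re ≤ 2*a ∧ z.im = 2*a) ∨ (z.re = -(2*a) ∧ h ≤ z.im ∧ z.im ≤ 2*a) ∨ (-(2*a) ≤ z.re ∧ z.re ≤ a+h ∧ z.im = h) ∨ (z.re = a+h ∧ -(a+h) ≤ z.im ∧ z.im ≤ h) ∨ (-(a+h) ≤ z.re ∧ z.re ≤ a+h ∧ z.im = -(a+h)) ∨ (z.re = -(a+h) ∧ -(a+h) ≤ z.im ∧ z.im ≤ -h) ∨ (-(a+h) ≤ z.re ∧ z.re ≤ -a ∧ z.im = -h) ∨ (z.re = -a ∧ -a ≤ z.im ∧ z.im ≤ -h) ∨ (-a ≤ z.re ∧ z.re ≤ a ∧ z.im = -a) ∨ (z.re = a ∧ -a ≤ z.im ∧ z.im ≤ 0) ∨ (-(2*a) ≤ z.re ∧ z.re ≤ a ∧ z.im = 0) ∨ (z.re = -(2*a) ∧ -(2*a) ≤ z.im ∧ z.im ≤ 0) := by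
  grind -ring (splits := 40)

theorem frontier_aux1_1 {a h : ℝ} (h0 : 0 < h) (ha : h < a) {z : ℂ}
    (hc : -(2*a) ≤ z.re ∧ z.re ≤ a ∧ -h ≤ z.im ∧ z.im ≤ 0)
    (ho : ¬ (
    (-a < z.re ∧ z.re < a ∧ -a < z.im ∧ z.im < 0) ∨
    (-(2*a) < z.re ∧ z.re < a ∧ -h < z.im ∧ z.im < 0) ∨
    (-(2*a) < z.re ∧ z.re < -(a+h) ∧ -(2*a) < z.im ∧ z.im < 0) ∨
    (-(2*a) < z.re ∧ z.re < 2*a ∧ -(2*a) < z.im ∧ z.im < -(a+h)) ∨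
    (a+h < z.re ∧ z.re < 2*a ∧ -(2*a) < z.im ∧ z.im < 2*a) ∨
    (-(2*a) < z.re ∧ z.re < 2*a ∧ h < z.im ∧ z.im < 2*a))) :
    (-(2*a) ≤ z.re ∧ z.re ≤ 2*a ∧ z.im = -(2*a)) ∨ (z.re = 2*a ∧ -(2*a) ≤ z.im ∧ z.im ≤ 2*a) ∨ (-(2*a) ≤ z.re ∧ z.re ≤ 2*a ∧ z.im = 2*a) ∨ (z.re = -(2*a) ∧ h ≤ z.im ∧ z.im ≤ 2*a) ∨ (-(2*a) ≤ z.re ∧ z.re ≤ a+h ∧ z.im = h) ∨ (z.re = a+h ∧ -(a+h) ≤ z.im ∧ z.im ≤ h) ∨ (-(a+h) ≤ z.re ∧ z.re ≤ a+h ∧ z.im = -(a+h)) ∨ (z.re = -(a+h) ∧ -(a+h) ≤ z.im ∧ z.im ≤ -h) ∨ (-(a+h) ≤ z.re ∧ z.re ≤ -a ∧ z.im = -h) ∨ (z.re = -a ∧ -a ≤ z.im ∧ z.im ≤ -h) ∨ (-a ≤ z.re ∧ z.re ≤ a ∧ z.im = -a) ∨ (z.re = a ∧ -a ≤ z.im ∧ z.im ≤ 0) ∨ (-(2*a) ≤ z.re ∧ z.re ≤ a ∧ z.im = 0) ∨ (z.re = -(2*a) ∧ -(2*a) ≤ z.im ∧ z.im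 ≤ 0) := by
  grind -ring (splits := 40)

theorem frontier_aux1_2 {a h : ℝ} (h0 : 0 < h) (ha : h < a) {z : ℂ}
    (hc : -(2*a) ≤ z.re ∧ z.re ≤ -(a+h) ∧ -(2*a) ≤ z.im ∧ z.im ≤ 0)
    (ho : ¬ (
    (-a < z.re ∧ z.re < a ∧ -a < z.im ∧ z.im < 0) ∨
    (-(2*a) < z.re ∧ z.re < a ∧ -h < z.im ∧ z.im < 0) ∨
    (-(2*a) < z.re ∧ z.re < -(a+h) ∧ -(2*a) < z.im ∧ z.im < 0) ∨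
    (-(2*a) < z.re ∧ z.re < 2*a ∧ -(2*a) < z.im ∧ z.im < -(a+h)) ∨
    (a+h < z.re ∧ z.re < 2*a ∧ -(2*a) < z.im ∧ z.im < 2*a) ∨
    (-(2*a) < z.re ∧ z.re < 2*a ∧ h < z.im ∧ z.im < 2*a))) :
    (-(2*a) ≤ z.re ∧ z.re ≤ 2*a ∧ z.im = -(2*a)) ∨ (z.re = 2*a ∧ -(2*a) ≤ z.im ∧ z.im ≤ 2*a) ∨ (-(2*a) ≤ z.re ∧ z.re ≤ 2*a ∧ z.im = 2*a) ∨ (z.re = -(2*a) ∧ h ≤ z.im ∧ z.im ≤ 2*a) ∨ (-(2*a) ≤ z.re ∧ z.re ≤ a+h ∧ z.im = h) ∨ (z.re = a+h ∧ -(a+h) ≤ z.im ∧ z.im ≤ h) ∨ (-(a+h) ≤ z.re ∧ z.re ≤ a+h ∧ z.im = -(a+h)) ∨ (z.re = -(a+h) ∧ -(a+h) ≤ z.im ∧ z.im ≤ -h) ∨ (-(a+h) ≤ z.re ∧ z.re ≤ -a ∧ z.im = -h) ∨ (z.re = -a ∧ -a ≤ z.im ∧ z.im ≤ -h) ∨ (-a ≤ z.re ∧ z.re ≤ a ∧ z.im = -a) ∨ (z.re = a ∧ -a ≤ z.im ∧ z.im ≤ 0) ∨ (-(2*a) ≤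 z.re ∧ z.re ≤ a ∧ z.im = 0) ∨ (z.re = -(2*a) ∧ -(2*a) ≤ z.im ∧ z.im ≤ 0) := by
  grind -ring (splits := 40)

theorem frontier_aux1_3 {a h : ℝ} (h0 : 0 < h) (ha : h < a) {z : ℂ}
    (hc : -(2*a) ≤ z.re ∧ z.re ≤ 2*a ∧ -(2*a) ≤ z.im ∧ z.im ≤ -(a+h))
    (ho : ¬ (
    (-a < z.re ∧ z.re < a ∧ -a < z.im ∧ z.im < 0) ∨
    (-(2*a) < z.re ∧ z.re < a ∧ -h < z.im ∧ z.im < 0) ∨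
    (-(2*a) < z.re ∧ z.re < -(a+h) ∧ -(2*a) < z.im ∧ z.im < 0) ∨
    (-(2*a) < z.re ∧ z.re < 2*a ∧ -(2*a) < z.im ∧ z.im < -(a+h)) ∨
    (a+h < z.re ∧ z.re < 2*a ∧ -(2*a) < z.im ∧ z.im < 2*a) ∨
    (-(2*a) < z.re ∧ z.re < 2*a ∧ h < z.im ∧ z.im < 2*a))) :
    (-(2*a) ≤ z.re ∧ z.re ≤ 2*a ∧ z.im = -(2*a)) ∨ (z.re = 2*a ∧ -(2*a) ≤ z.im ∧ z.im ≤ 2*a) ∨ (-(2*a) ≤ z.re ∧ z.re ≤ 2*a ∧ z.im = 2*a) ∨ (z.re = -(2*a) ∧ h ≤ z.im ∧ z.im ≤ 2*a) ∨ (-(2*a) ≤ z.re ∧ z.re ≤ a+h ∧ z.im = h) ∨ (z.re = a+h ∧ -(a+h) ≤ z.im ∧ z.im ≤ h) ∨ (-(a+h) ≤ z.re ∧ z.re ≤ a+h ∧ z.im = -(a+h)) ∨ (z.re = -(a+h) ∧ -(a+h) ≤ z.im ∧ z.im ≤ -h) ∨ (-(a+h) ≤ z.re ∧ z.re ≤ -a ∧ z.im = -h) ∨ (z.re = -a ∧ -a ≤ z.im ∧ z.im ≤ -h) ∨ (-a ≤ z.re ∧ z.re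 ≤ a ∧ z.im = -a) ∨ (z.re = a ∧ -a ≤ z.im ∧ z.im ≤ 0) ∨ (-(2*a) ≤ z.re ∧ z.re ≤ a ∧ z.im = 0) ∨ (z.re = -(2*a) ∧ -(2*a) ≤ z.im ∧ z.im ≤ 0) := by
  grind -ring (splits := 40)

theorem frontier_aux1_4 {a h : ℝ} (h0 : 0 < h) (ha : h < a) {z : ℂ}
    (hc : a+h ≤ z.re ∧ z.re ≤ 2*a ∧ -(2*a) ≤ z.im ∧ z.im ≤ 2*a)
    (ho : ¬ (
    (-a < z.re ∧ z.re < a ∧ -a < z.im ∧ z.im < 0) ∨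
    (-(2*a) < z.re ∧ z.re < a ∧ -h < z.im ∧ z.im < 0) ∨
    (-(2*a) < z.re ∧ z.re < -(a+h) ∧ -(2*a) < z.im ∧ z.im < 0) ∨
    (-(2*a) < z.re ∧ z.re < 2*a ∧ -(2*a) < z.im ∧ z.im < -(a+h)) ∨
    (a+h < z.re ∧ z.re < 2*a ∧ -(2*a) < z.im ∧ z.im < 2*a) ∨
    (-(2*a) < z.re ∧ z.re < 2*a ∧ h < z.im ∧ z.im < 2*a))) :
    (-(2*a) ≤ z.re ∧ z.re ≤ 2*a ∧ z.im = -(2*a)) ∨ (z.re = 2*a ∧ -(2*a) ≤ z.im ∧ z.im ≤ 2*a) ∨ (-(2*a) ≤ z.re ∧ z.re ≤ 2*a ∧ z.im = 2*a) ∨ (z.re = -(2*a) ∧ h ≤ z.im ∧ z.im ≤ 2*a) ∨ (-(2*a) ≤ z.re ∧ z.re ≤ a+h ∧ z.im = h) ∨ (z.re = a+h ∧ -(a+h) ≤ z.im ∧ z.im ≤ h) ∨ (-(a+h) ≤ z.re ∧ z.re ≤ a+h ∧ z.im = -(a+h)) ∨ (z.re = -(a+h) ∧ -(a+h) ≤ z.im ∧ z.im ≤ -h) ∨ (-(a+h) ≤ z.re ∧ z.re ≤ -a ∧ z.im = -h) ∨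 (z.re = -a ∧ -a ≤ z.im ∧ z.im ≤ -h) ∨ (-a ≤ z.re ∧ z.re ≤ a ∧ z.im = -a) ∨ (z.re = a ∧ -a ≤ z.im ∧ z.im ≤ 0) ∨ (-(2*a) ≤ z.re ∧ z.re ≤ a ∧ z.im = 0) ∨ (z.re = -(2*a) ∧ -(2*a) ≤ z.im ∧ z.im ≤ 0) := by
  grind -ring (splits := 40)

theorem frontier_aux1_5 {a h : ℝ} (h0 : 0 < h) (ha : h < a) {z : ℂ}
    (hc : -(2*a) ≤ z.re ∧ z.re ≤ 2*a ∧ h ≤ z.im ∧ z.im ≤ 2*a)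
    (ho : ¬ (
    (-a < z.re ∧ z.re < a ∧ -a < z.im ∧ z.im < 0) ∨
    (-(2*a) < z.re ∧ z.re < a ∧ -h < z.im ∧ z.im < 0) ∨
    (-(2*a) < z.re ∧ z.re < -(a+h) ∧ -(2*a) < z.im ∧ z.im < 0) ∨
    (-(2*a) < z.re ∧ z.re < 2*a ∧ -(2*a) < z.im ∧ z.im < -(a+h)) ∨
    (a+h < z.re ∧ z.re < 2*a ∧ -(2*a) < z.im ∧ z.im < 2*a) ∨
    (-(2*a) < z.re ∧ z.re < 2*a ∧ h < z.im ∧ z.im < 2*a))) :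
    (-(2*a) ≤ z.re ∧ z.re ≤ 2*a ∧ z.im = -(2*a)) ∨ (z.re = 2*a ∧ -(2*a) ≤ z.im ∧ z.im ≤ 2*a) ∨ (-(2*a) ≤ z.re ∧ z.re ≤ 2*a ∧ z.im = 2*a) ∨ (z.re = -(2*a) ∧ h ≤ z.im ∧ z.im ≤ 2*a) ∨ (-(2*a) ≤ z.re ∧ z.re ≤ a+h ∧ z.im = h) ∨ (z.re = a+h ∧ -(a+h) ≤ z.im ∧ z.im ≤ h) ∨ (-(a+h) ≤ z.re ∧ z.re ≤ a+h ∧ z.im = -(a+h)) ∨ (z.re = -(a+h) ∧ -(a+h) ≤ z.im ∧ z.im ≤ -h) ∨ (-(a+h) ≤ z.re ∧ z.re ≤ -a ∧ z.im = -h) ∨ (z.re = -a ∧ -a ≤ z.im ∧ z.im ≤ -h) ∨ (-a ≤ z.re ∧ z.re ≤ a ∧ z.im = -a) ∨ (z.re = a ∧ -a ≤ z.im ∧ z.im ≤ 0) ∨ (-(2*a) ≤ z.re ∧ z.re ≤ a ∧ z.im = 0) ∨ (z.re = -(2*a) ∧ -(2*a) ≤ z.im ∧ z.im ≤ 0) := by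
  grind -ring (splits := 40)

theorem frontier_aux1 {a h : ℝ} (h0 : 0 < h) (ha : h < a) {z : ℂ}
    (hc :
    (-a ≤ z.re ∧ z.re ≤ a ∧ -a ≤ z.im ∧ z.im ≤ 0) ∨
    (-(2*a) ≤ z.re ∧ z.re ≤ a ∧ -h ≤ z.im ∧ z.im ≤ 0) ∨
    (-(2*a) ≤ z.re ∧ z.re ≤ -(a+h) ∧ -(2*a) ≤ z.im ∧ z.im ≤ 0) ∨
    (-(2*a) ≤ z.re ∧ z.re ≤ 2*a ∧ -(2*a) ≤ z.im ∧ z.im ≤ -(a+h)) ∨
    (a+h ≤ z.re ∧ z.re ≤ 2*a ∧ -(2*a) ≤ z.im ∧ z.im ≤ 2*a) ∨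
    (-(2*a) ≤ z.re ∧ z.re ≤ 2*a ∧ h ≤ z.im ∧ z.im ≤ 2*a))
    (ho : ¬ (
    (-a < z.re ∧ z.re < a ∧ -a < z.im ∧ z.im < 0) ∨
    (-(2*a) < z.re ∧ z.re < a ∧ -h < z.im ∧ z.im < 0) ∨
    (-(2*a) < z.re ∧ z.re < -(a+h) ∧ -(2*a) < z.im ∧ z.im < 0) ∨
    (-(2*a) < z.re ∧ z.re < 2*a ∧ -(2*a) < z.im ∧ z.im < -(a+h)) ∨
    (a+h < z.re ∧ z.re < 2*a ∧ -(2*a) < z.im ∧ z.im < 2*a) ∨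
    (-(2*a) < z.re ∧ z.re < 2*a ∧ h < z.im ∧ z.im < 2*a))) :
    (-(2*a) ≤ z.re ∧ z.re ≤ 2*a ∧ z.im = -(2*a)) ∨ (z.re = 2*a ∧ -(2*a) ≤ z.im ∧ z.im ≤ 2*a) ∨ (-(2*a) ≤ z.re ∧ z.re ≤ 2*a ∧ z.im = 2*a) ∨ (z.re = -(2*a) ∧ h ≤ z.im ∧ z.im ≤ 2*a) ∨ (-(2*a) ≤ z.re ∧ z.re ≤ a+h ∧ z.im = h) ∨ (z.re = a+h ∧ -(a+h) ≤ z.im ∧ z.im ≤ h) ∨ (-(a+h) ≤ z.re ∧ z.re ≤ a+h ∧ z.im = -(a+h)) ∨ (z.re = -(a+h) ∧ -(a+h) ≤ z.im ∧ z.im ≤ -h) ∨ (-(a+h) ≤ z.re ∧ z.re ≤ -a ∧ z.im = -h) ∨ (z.re = -a ∧ -a ≤ z.im ∧ z.im ≤ -h) ∨ (-a ≤ z.re ∧ z.re ≤ a ∧ z.im = -a) ∨ (z.re = a ∧ -a ≤ z.im ∧ z.im ≤ 0) ∨ (-(2*a) ≤ z.re ∧ z.re ≤ a ∧ z.im = 0) ∨ (z.re = -(2*a) ∧ -(2*a) ≤ z.im ∧ z.im ≤ 0) := by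
  rcases hc with hc | hc | hc | hc | hc | hc
  · exact frontier_aux1_0 h0 ha hc ho
  · exact frontier_aux1_1 h0 ha hc ho
  · exact frontier_aux1_2 h0 ha hc ho
  · exact frontier_aux1_3 h0 ha hc ho
  · exact frontier_aux1_4 h0 ha hc ho
  · exact frontier_aux1_5 h0 ha hc ho

theorem frontier_aux2_0 {a h : ℝ} (h0 : 0 < h) (ha : h < a) {z : ℂ}
    (hi : -(2*a) ≤ z.re ∧ z.re ≤ 2*a ∧ z.im = -(2*a)) :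
    (
    (-a ≤ z.re ∧ z.re ≤ a ∧ -a ≤ z.im ∧ z.im ≤ 0) ∨
    (-(2*a) ≤ z.re ∧ z.re ≤ a ∧ -h ≤ z.im ∧ z.im ≤ 0) ∨
    (-(2*a) ≤ z.re ∧ z.re ≤ -(a+h) ∧ -(2*a) ≤ z.im ∧ z.im ≤ 0) ∨
    (-(2*a) ≤ z.re ∧ z.re ≤ 2*a ∧ -(2*a) ≤ z.im ∧ z.im ≤ -(a+h)) ∨
    (a+h ≤ z.re ∧ z.re ≤ 2*a ∧ -(2*a) ≤ z.im ∧ z.im ≤ 2*a) ∨
    (-(2*a) ≤ z.re ∧ z.re ≤ 2*a ∧ h ≤ z.im ∧ z.im ≤ 2*a)) ∧ ¬ (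
    (-a < z.re ∧ z.re < a ∧ -a < z.im ∧ z.im < 0) ∨
    (-(2*a) < z.re ∧ z.re < a ∧ -h < z.im ∧ z.im < 0) ∨
    (-(2*a) < z.re ∧ z.re < -(a+h) ∧ -(2*a) < z.im ∧ z.im < 0) ∨
    (-(2*a) < z.re ∧ z.re < 2*a ∧ -(2*a) < z.im ∧ z.im < -(a+h)) ∨
    (a+h < z.re ∧ z.re < 2*a ∧ -(2*a) < z.im ∧ z.im < 2*a) ∨
    (-(2*a) < z.re ∧ z.re < 2*a ∧ h < z.im ∧ z.im < 2*a)) := by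
  grind -ring (splits := 40)

theorem frontier_aux2_1 {a h : ℝ} (h0 : 0 < h) (ha : h < a) {z : ℂ}
    (hi : z.re = 2*a ∧ -(2*a) ≤ z.im ∧ z.im ≤ 2*a) :
    (
    (-a ≤ z.re ∧ z.re ≤ a ∧ -a ≤ z.im ∧ z.im ≤ 0) ∨
    (-(2*a) ≤ z.re ∧ z.re ≤ a ∧ -h ≤ z.im ∧ z.im ≤ 0) ∨
    (-(2*a) ≤ z.re ∧ z.re ≤ -(a+h) ∧ -(2*a) ≤ z.im ∧ z.im ≤ 0) ∨
    (-(2*a) ≤ z.re ∧ z.re ≤ 2*a ∧ -(2*a) ≤ z.im ∧ z.im ≤ -(a+h)) ∨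
    (a+h ≤ z.re ∧ z.re ≤ 2*a ∧ -(2*a) ≤ z.im ∧ z.im ≤ 2*a) ∨
    (-(2*a) ≤ z.re ∧ z.re ≤ 2*a ∧ h ≤ z.im ∧ z.im ≤ 2*a)) ∧ ¬ (
    (-a < z.re ∧ z.re < a ∧ -a < z.im ∧ z.im < 0) ∨
    (-(2*a) < z.re ∧ z.re < a ∧ -h < z.im ∧ z.im < 0) ∨
    (-(2*a) < z.re ∧ z.re < -(a+h) ∧ -(2*a) < z.im ∧ z.im < 0) ∨
    (-(2*a) < z.re ∧ z.re < 2*a ∧ -(2*a) < z.im ∧ z.im < -(a+h)) ∨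
    (a+h < z.re ∧ z.re < 2*a ∧ -(2*a) < z.im ∧ z.im < 2*a) ∨
    (-(2*a) < z.re ∧ z.re < 2*a ∧ h < z.im ∧ z.im < 2*a)) := by
  grind -ring (splits := 40)

theorem frontier_aux2_2 {a h : ℝ} (h0 : 0 < h) (ha : h < a) {z : ℂ}
    (hi : -(2*a) ≤ z.re ∧ z.re ≤ 2*a ∧ z.im = 2*a) :
    (
    (-a ≤ z.re ∧ z.re ≤ a ∧ -a ≤ z.im ∧ z.im ≤ 0) ∨
    (-(2*a) ≤ z.re ∧ z.re ≤ a ∧ -h ≤ z.im ∧ z.im ≤ 0) ∨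
    (-(2*a) ≤ z.re ∧ z.re ≤ -(a+h) ∧ -(2*a) ≤ z.im ∧ z.im ≤ 0) ∨
    (-(2*a) ≤ z.re ∧ z.re ≤ 2*a ∧ -(2*a) ≤ z.im ∧ z.im ≤ -(a+h)) ∨
    (a+h ≤ z.re ∧ z.re ≤ 2*a ∧ -(2*a) ≤ z.im ∧ z.im ≤ 2*a) ∨
    (-(2*a) ≤ z.re ∧ z.re ≤ 2*a ∧ h ≤ z.im ∧ z.im ≤ 2*a)) ∧ ¬ (
    (-a < z.re ∧ z.re < a ∧ -a < z.im ∧ z.im < 0) ∨
    (-(2*a) < z.re ∧ z.re < a ∧ -h < z.im ∧ z.im < 0) ∨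
    (-(2*a) < z.re ∧ z.re < -(a+h) ∧ -(2*a) < z.im ∧ z.im < 0) ∨
    (-(2*a) < z.re ∧ z.re < 2*a ∧ -(2*a) < z.im ∧ z.im < -(a+h)) ∨
    (a+h < z.re ∧ z.re < 2*a ∧ -(2*a) < z.im ∧ z.im < 2*a) ∨
    (-(2*a) < z.re ∧ z.re < 2*a ∧ h < z.im ∧ z.im < 2*a)) := by
  grind -ring (splits := 40)

theorem frontier_aux2_3 {a h : ℝ} (h0 : 0 < h) (ha : h < a) {z : ℂ}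
    (hi : z.re = -(2*a) ∧ h ≤ z.im ∧ z.im ≤ 2*a) :
    (
    (-a ≤ z.re ∧ z.re ≤ a ∧ -a ≤ z.im ∧ z.im ≤ 0) ∨
    (-(2*a) ≤ z.re ∧ z.re ≤ a ∧ -h ≤ z.im ∧ z.im ≤ 0) ∨
    (-(2*a) ≤ z.re ∧ z.re ≤ -(a+h) ∧ -(2*a) ≤ z.im ∧ z.im ≤ 0) ∨
    (-(2*a) ≤ z.re ∧ z.re ≤ 2*a ∧ -(2*a) ≤ z.im ∧ z.im ≤ -(a+h)) ∨
    (a+h ≤ z.re ∧ z.re ≤ 2*a ∧ -(2*a) ≤ z.im ∧ z.im ≤ 2*a) ∨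
    (-(2*a) ≤ z.re ∧ z.re ≤ 2*a ∧ h ≤ z.im ∧ z.im ≤ 2*a)) ∧ ¬ (
    (-a < z.re ∧ z.re < a ∧ -a < z.im ∧ z.im < 0) ∨
    (-(2*a) < z.re ∧ z.re < a ∧ -h < z.im ∧ z.im < 0) ∨
    (-(2*a) < z.re ∧ z.re < -(a+h) ∧ -(2*a) < z.im ∧ z.im < 0) ∨
    (-(2*a) < z.re ∧ z.re < 2*a ∧ -(2*a) < z.im ∧ z.im < -(a+h)) ∨
    (a+h < z.re ∧ z.re < 2*a ∧ -(2*a) < z.im ∧ z.im < 2*a) ∨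
    (-(2*a) < z.re ∧ z.re < 2*a ∧ h < z.im ∧ z.im < 2*a)) := by
  grind -ring (splits := 40)

theorem frontier_aux2_4 {a h : ℝ} (h0 : 0 < h) (ha : h < a) {z : ℂ}
    (hi : -(2*a) ≤ z.re ∧ z.re ≤ a+h ∧ z.im = h) :
    (
    (-a ≤ z.re ∧ z.re ≤ a ∧ -a ≤ z.im ∧ z.im ≤ 0) ∨
    (-(2*a) ≤ z.re ∧ z.re ≤ a ∧ -h ≤ z.im ∧ z.im ≤ 0) ∨
    (-(2*a) ≤ z.re ∧ z.re ≤ -(a+h) ∧ -(2*a) ≤ z.im ∧ z.im ≤ 0) ∨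
    (-(2*a) ≤ z.re ∧ z.re ≤ 2*a ∧ -(2*a) ≤ z.im ∧ z.im ≤ -(a+h)) ∨
    (a+h ≤ z.re ∧ z.re ≤ 2*a ∧ -(2*a) ≤ z.im ∧ z.im ≤ 2*a) ∨
    (-(2*a) ≤ z.re ∧ z.re ≤ 2*a ∧ h ≤ z.im ∧ z.im ≤ 2*a)) ∧ ¬ (
    (-a < z.re ∧ z.re < a ∧ -a < z.im ∧ z.im < 0) ∨
    (-(2*a) < z.re ∧ z.re < a ∧ -h < z.im ∧ z.im < 0) ∨
    (-(2*a) < z.re ∧ z.re < -(a+h) ∧ -(2*a) < z.im ∧ z.im < 0) ∨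
    (-(2*a) < z.re ∧ z.re < 2*a ∧ -(2*a) < z.im ∧ z.im < -(a+h)) ∨
    (a+h < z.re ∧ z.re < 2*a ∧ -(2*a) < z.im ∧ z.im < 2*a) ∨
    (-(2*a) < z.re ∧ z.re < 2*a ∧ h < z.im ∧ z.im < 2*a)) := by
  grind -ring (splits := 40)

theorem frontier_aux2_5 {a h : ℝ} (h0 : 0 < h) (ha : h < a) {z : ℂ}
    (hi : z.re = a+h ∧ -(a+h) ≤ z.im ∧ z.im ≤ h) :
    (
    (-a ≤ z.re ∧ z.re ≤ a ∧ -a ≤ z.im ∧ z.im ≤ 0) ∨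
    (-(2*a) ≤ z.re ∧ z.re ≤ a ∧ -h ≤ z.im ∧ z.im ≤ 0) ∨
    (-(2*a) ≤ z.re ∧ z.re ≤ -(a+h) ∧ -(2*a) ≤ z.im ∧ z.im ≤ 0) ∨
    (-(2*a) ≤ z.re ∧ z.re ≤ 2*a ∧ -(2*a) ≤ z.im ∧ z.im ≤ -(a+h)) ∨
    (a+h ≤ z.re ∧ z.re ≤ 2*a ∧ -(2*a) ≤ z.im ∧ z.im ≤ 2*a) ∨
    (-(2*a) ≤ z.re ∧ z.re ≤ 2*a ∧ h ≤ z.im ∧ z.im ≤ 2*a)) ∧ ¬ (
    (-a < z.re ∧ z.re < a ∧ -a < z.im ∧ z.im < 0) ∨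
    (-(2*a) < z.re ∧ z.re < a ∧ -h < z.im ∧ z.im < 0) ∨
    (-(2*a) < z.re ∧ z.re < -(a+h) ∧ -(2*a) < z.im ∧ z.im < 0) ∨
    (-(2*a) < z.re ∧ z.re < 2*a ∧ -(2*a) < z.im ∧ z.im < -(a+h)) ∨
    (a+h < z.re ∧ z.re < 2*a ∧ -(2*a) < z.im ∧ z.im < 2*a) ∨
    (-(2*a) < z.re ∧ z.re < 2*a ∧ h < z.im ∧ z.im < 2*a)) := by
  grind -ring (splits := 40)

theorem frontier_aux2_6 {a h : ℝ} (h0 : 0 < h) (ha : h < a) {z : ℂ}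
    (hi : -(a+h) ≤ z.re ∧ z.re ≤ a+h ∧ z.im = -(a+h)) :
    (
    (-a ≤ z.re ∧ z.re ≤ a ∧ -a ≤ z.im ∧ z.im ≤ 0) ∨
    (-(2*a) ≤ z.re ∧ z.re ≤ a ∧ -h ≤ z.im ∧ z.im ≤ 0) ∨
    (-(2*a) ≤ z.re ∧ z.re ≤ -(a+h) ∧ -(2*a) ≤ z.im ∧ z.im ≤ 0) ∨
    (-(2*a) ≤ z.re ∧ z.re ≤ 2*a ∧ -(2*a) ≤ z.im ∧ z.im ≤ -(a+h)) ∨
    (a+h ≤ z.re ∧ z.re ≤ 2*a ∧ -(2*a) ≤ z.im ∧ z.im ≤ 2*a) ∨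
    (-(2*a) ≤ z.re ∧ z.re ≤ 2*a ∧ h ≤ z.im ∧ z.im ≤ 2*a)) ∧ ¬ (
    (-a < z.re ∧ z.re < a ∧ -a < z.im ∧ z.im < 0) ∨
    (-(2*a) < z.re ∧ z.re < a ∧ -h < z.im ∧ z.im < 0) ∨
    (-(2*a) < z.re ∧ z.re < -(a+h) ∧ -(2*a) < z.im ∧ z.im < 0) ∨
    (-(2*a) < z.re ∧ z.re < 2*a ∧ -(2*a) < z.im ∧ z.im < -(a+h)) ∨
    (a+h < z.re ∧ z.re < 2*a ∧ -(2*a) < z.im ∧ z.im < 2*a) ∨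
    (-(2*a) < z.re ∧ z.re < 2*a ∧ h < z.im ∧ z.im < 2*a)) := by
  grind -ring (splits := 40)

theorem frontier_aux2_7 {a h : ℝ} (h0 : 0 < h) (ha : h < a) {z : ℂ}
    (hi : z.re = -(a+h) ∧ -(a+h) ≤ z.im ∧ z.im ≤ -h) :
    (
    (-a ≤ z.re ∧ z.re ≤ a ∧ -a ≤ z.im ∧ z.im ≤ 0) ∨
    (-(2*a) ≤ z.re ∧ z.re ≤ a ∧ -h ≤ z.im ∧ z.im ≤ 0) ∨
    (-(2*a) ≤ z.re ∧ z.re ≤ -(a+h) ∧ -(2*a) ≤ z.im ∧ z.im ≤ 0) ∨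
    (-(2*a) ≤ z.re ∧ z.re ≤ 2*a ∧ -(2*a) ≤ z.im ∧ z.im ≤ -(a+h)) ∨
    (a+h ≤ z.re ∧ z.re ≤ 2*a ∧ -(2*a) ≤ z.im ∧ z.im ≤ 2*a) ∨
    (-(2*a) ≤ z.re ∧ z.re ≤ 2*a ∧ h ≤ z.im ∧ z.im ≤ 2*a)) ∧ ¬ (
    (-a < z.re ∧ z.re < a ∧ -a < z.im ∧ z.im < 0) ∨
    (-(2*a) < z.re ∧ z.re < a ∧ -h < z.im ∧ z.im < 0) ∨
    (-(2*a) < z.re ∧ z.re < -(a+h) ∧ -(2*a) < z.im ∧ z.im < 0) ∨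
    (-(2*a) < z.re ∧ z.re < 2*a ∧ -(2*a) < z.im ∧ z.im < -(a+h)) ∨
    (a+h < z.re ∧ z.re < 2*a ∧ -(2*a) < z.im ∧ z.im < 2*a) ∨
    (-(2*a) < z.re ∧ z.re < 2*a ∧ h < z.im ∧ z.im < 2*a)) := by
  grind -ring (splits := 40)

theorem frontier_aux2_8 {a h : ℝ} (h0 : 0 < h) (ha : h < a) {z : ℂ}
    (hi : -(a+h) ≤ z.re ∧ z.re ≤ -a ∧ z.im = -h) :
    (
    (-a ≤ z.re ∧ z.re ≤ a ∧ -a ≤ z.im ∧ z.im ≤ 0) ∨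
    (-(2*a) ≤ z.re ∧ z.re ≤ a ∧ -h ≤ z.im ∧ z.im ≤ 0) ∨
    (-(2*a) ≤ z.re ∧ z.re ≤ -(a+h) ∧ -(2*a) ≤ z.im ∧ z.im ≤ 0) ∨
    (-(2*a) ≤ z.re ∧ z.re ≤ 2*a ∧ -(2*a) ≤ z.im ∧ z.im ≤ -(a+h)) ∨
    (a+h ≤ z.re ∧ z.re ≤ 2*a ∧ -(2*a) ≤ z.im ∧ z.im ≤ 2*a) ∨
    (-(2*a) ≤ z.re ∧ z.re ≤ 2*a ∧ h ≤ z.im ∧ z.im ≤ 2*a)) ∧ ¬ (
    (-a < z.re ∧ z.re < a ∧ -a < z.im ∧ z.im < 0) ∨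
    (-(2*a) < z.re ∧ z.re < a ∧ -h < z.im ∧ z.im < 0) ∨
    (-(2*a) < z.re ∧ z.re < -(a+h) ∧ -(2*a) < z.im ∧ z.im < 0) ∨
    (-(2*a) < z.re ∧ z.re < 2*a ∧ -(2*a) < z.im ∧ z.im < -(a+h)) ∨
    (a+h < z.re ∧ z.re < 2*a ∧ -(2*a) < z.im ∧ z.im < 2*a) ∨
    (-(2*a) < z.re ∧ z.re < 2*a ∧ h < z.im ∧ z.im < 2*a)) := by
  grind -ring (splits := 40)

theorem frontier_aux2_9 {a h : ℝ} (h0 : 0 < h) (ha : h < a) {z : ℂ}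
    (hi : z.re = -a ∧ -a ≤ z.im ∧ z.im ≤ -h) :
    (
    (-a ≤ z.re ∧ z.re ≤ a ∧ -a ≤ z.im ∧ z.im ≤ 0) ∨
    (-(2*a) ≤ z.re ∧ z.re ≤ a ∧ -h ≤ z.im ∧ z.im ≤ 0) ∨
    (-(2*a) ≤ z.re ∧ z.re ≤ -(a+h) ∧ -(2*a) ≤ z.im ∧ z.im ≤ 0) ∨
    (-(2*a) ≤ z.re ∧ z.re ≤ 2*a ∧ -(2*a) ≤ z.im ∧ z.im ≤ -(a+h)) ∨
    (a+h ≤ z.re ∧ z.re ≤ 2*a ∧ -(2*a) ≤ z.im ∧ z.im ≤ 2*a) ∨
    (-(2*a) ≤ z.re ∧ z.re ≤ 2*a ∧ h ≤ z.im ∧ z.im ≤ 2*a)) ∧ ¬ (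
    (-a < z.re ∧ z.re < a ∧ -a < z.im ∧ z.im < 0) ∨
    (-(2*a) < z.re ∧ z.re < a ∧ -h < z.im ∧ z.im < 0) ∨
    (-(2*a) < z.re ∧ z.re < -(a+h) ∧ -(2*a) < z.im ∧ z.im < 0) ∨
    (-(2*a) < z.re ∧ z.re < 2*a ∧ -(2*a) < z.im ∧ z.im < -(a+h)) ∨
    (a+h < z.re ∧ z.re < 2*a ∧ -(2*a) < z.im ∧ z.im < 2*a) ∨
    (-(2*a) < z.re ∧ z.re < 2*a ∧ h < z.im ∧ z.im < 2*a)) := by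
  grind -ring (splits := 40)

theorem frontier_aux2_10 {a h : ℝ} (h0 : 0 < h) (ha : h < a) {z : ℂ}
    (hi : -a ≤ z.re ∧ z.re ≤ a ∧ z.im = -a) :
    (
    (-a ≤ z.re ∧ z.re ≤ a ∧ -a ≤ z.im ∧ z.im ≤ 0) ∨
    (-(2*a) ≤ z.re ∧ z.re ≤ a ∧ -h ≤ z.im ∧ z.im ≤ 0) ∨
    (-(2*a) ≤ z.re ∧ z.re ≤ -(a+h) ∧ -(2*a) ≤ z.im ∧ z.im ≤ 0) ∨
    (-(2*a) ≤ z.re ∧ z.re ≤ 2*a ∧ -(2*a) ≤ z.im ∧ z.im ≤ -(a+h)) ∨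
    (a+h ≤ z.re ∧ z.re ≤ 2*a ∧ -(2*a) ≤ z.im ∧ z.im ≤ 2*a) ∨
    (-(2*a) ≤ z.re ∧ z.re ≤ 2*a ∧ h ≤ z.im ∧ z.im ≤ 2*a)) ∧ ¬ (
    (-a < z.re ∧ z.re < a ∧ -a < z.im ∧ z.im < 0) ∨
    (-(2*a) < z.re ∧ z.re < a ∧ -h < z.im ∧ z.im < 0) ∨
    (-(2*a) < z.re ∧ z.re < -(a+h) ∧ -(2*a) < z.im ∧ z.im < 0) ∨
    (-(2*a) < z.re ∧ z.re < 2*a ∧ -(2*a) < z.im ∧ z.im < -(a+h)) ∨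
    (a+h < z.re ∧ z.re < 2*a ∧ -(2*a) < z.im ∧ z.im < 2*a) ∨
    (-(2*a) < z.re ∧ z.re < 2*a ∧ h < z.im ∧ z.im < 2*a)) := by
  grind -ring (splits := 40)

theorem frontier_aux2_11 {a h : ℝ} (h0 : 0 < h) (ha : h < a) {z : ℂ}
    (hi : z.re = a ∧ -a ≤ z.im ∧ z.im ≤ 0) :
    (
    (-a ≤ z.re ∧ z.re ≤ a ∧ -a ≤ z.im ∧ z.im ≤ 0) ∨
    (-(2*a) ≤ z.re ∧ z.re ≤ a ∧ -h ≤ z.im ∧ z.im ≤ 0) ∨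
    (-(2*a) ≤ z.re ∧ z.re ≤ -(a+h) ∧ -(2*a) ≤ z.im ∧ z.im ≤ 0) ∨
    (-(2*a) ≤ z.re ∧ z.re ≤ 2*a ∧ -(2*a) ≤ z.im ∧ z.im ≤ -(a+h)) ∨
    (a+h ≤ z.re ∧ z.re ≤ 2*a ∧ -(2*a) ≤ z.im ∧ z.im ≤ 2*a) ∨
    (-(2*a) ≤ z.re ∧ z.re ≤ 2*a ∧ h ≤ z.im ∧ z.im ≤ 2*a)) ∧ ¬ (
    (-a < z.re ∧ z.re < a ∧ -a < z.im ∧ z.im < 0) ∨
    (-(2*a) < z.re ∧ z.re < a ∧ -h < z.im ∧ z.im < 0) ∨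
    (-(2*a) < z.re ∧ z.re < -(a+h) ∧ -(2*a) < z.im ∧ z.im < 0) ∨
    (-(2*a) < z.re ∧ z.re < 2*a ∧ -(2*a) < z.im ∧ z.im < -(a+h)) ∨
    (a+h < z.re ∧ z.re < 2*a ∧ -(2*a) < z.im ∧ z.im < 2*a) ∨
    (-(2*a) < z.re ∧ z.re < 2*a ∧ h < z.im ∧ z.im < 2*a)) := by
  grind -ring (splits := 40)

theorem frontier_aux2_12 {a h : ℝ} (h0 : 0 < h) (ha : h < a) {z : ℂ}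
    (hi : -(2*a) ≤ z.re ∧ z.re ≤ a ∧ z.im = 0) :
    (
    (-a ≤ z.re ∧ z.re ≤ a ∧ -a ≤ z.im ∧ z.im ≤ 0) ∨
    (-(2*a) ≤ z.re ∧ z.re ≤ a ∧ -h ≤ z.im ∧ z.im ≤ 0) ∨
    (-(2*a) ≤ z.re ∧ z.re ≤ -(a+h) ∧ -(2*a) ≤ z.im ∧ z.im ≤ 0) ∨
    (-(2*a) ≤ z.re ∧ z.re ≤ 2*a ∧ -(2*a) ≤ z.im ∧ z.im ≤ -(a+h)) ∨
    (a+h ≤ z.re ∧ z.re ≤ 2*a ∧ -(2*a) ≤ z.im ∧ z.im ≤ 2*a) ∨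
    (-(2*a) ≤ z.re ∧ z.re ≤ 2*a ∧ h ≤ z.im ∧ z.im ≤ 2*a)) ∧ ¬ (
    (-a < z.re ∧ z.re < a ∧ -a < z.im ∧ z.im < 0) ∨
    (-(2*a) < z.re ∧ z.re < a ∧ -h < z.im ∧ z.im < 0) ∨
    (-(2*a) < z.re ∧ z.re < -(a+h) ∧ -(2*a) < z.im ∧ z.im < 0) ∨
    (-(2*a) < z.re ∧ z.re < 2*a ∧ -(2*a) < z.im ∧ z.im < -(a+h)) ∨
    (a+h < z.re ∧ z.re < 2*a ∧ -(2*a) < z.im ∧ z.im < 2*a) ∨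
    (-(2*a) < z.re ∧ z.re < 2*a ∧ h < z.im ∧ z.im < 2*a)) := by
  grind -ring (splits := 40)

theorem frontier_aux2_13 {a h : ℝ} (h0 : 0 < h) (ha : h < a) {z : ℂ}
    (hi : z.re = -(2*a) ∧ -(2*a) ≤ z.im ∧ z.im ≤ 0) :
    (
    (-a ≤ z.re ∧ z.re ≤ a ∧ -a ≤ z.im ∧ z.im ≤ 0) ∨
    (-(2*a) ≤ z.re ∧ z.re ≤ a ∧ -h ≤ z.im ∧ z.im ≤ 0) ∨
    (-(2*a) ≤ z.re ∧ z.re ≤ -(a+h) ∧ -(2*a) ≤ z.im ∧ z.im ≤ 0) ∨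
    (-(2*a) ≤ z.re ∧ z.re ≤ 2*a ∧ -(2*a) ≤ z.im ∧ z.im ≤ -(a+h)) ∨
    (a+h ≤ z.re ∧ z.re ≤ 2*a ∧ -(2*a) ≤ z.im ∧ z.im ≤ 2*a) ∨
    (-(2*a) ≤ z.re ∧ z.re ≤ 2*a ∧ h ≤ z.im ∧ z.im ≤ 2*a)) ∧ ¬ (
    (-a < z.re ∧ z.re < a ∧ -a < z.im ∧ z.im < 0) ∨
    (-(2*a) < z.re ∧ z.re < a ∧ -h < z.im ∧ z.im < 0) ∨
    (-(2*a) < z.re ∧ z.re < -(a+h) ∧ -(2*a) < z.im ∧ z.im < 0) ∨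
    (-(2*a) < z.re ∧ z.re < 2*a ∧ -(2*a) < z.im ∧ z.im < -(a+h)) ∨
    (a+h < z.re ∧ z.re < 2*a ∧ -(2*a) < z.im ∧ z.im < 2*a) ∨
    (-(2*a) < z.re ∧ z.re < 2*a ∧ h < z.im ∧ z.im < 2*a)) := by
  grind -ring (splits := 40)

theorem frontier_region {a h : ℝ} (h0 : 0 < h) (ha : h < a) :
    frontier (region a h) = ⋃ i, side a h i := by
  ext z
  rw [(isOpen_region a h).frontier_eq, Set.mem_sdiff, mem_closure_region h0 ha, mem_region, mem_iUnion]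
  constructor
  · intro hz
    have key : (-(2*a) ≤ z.re ∧ z.re ≤ 2*a ∧ z.im = -(2*a)) ∨ (z.re = 2*a ∧ -(2*a) ≤ z.im ∧ z.im ≤ 2*a) ∨ (-(2*a) ≤ z.re ∧ z.re ≤ 2*a ∧ z.im = 2*a) ∨ (z.re = -(2*a) ∧ h ≤ z.im ∧ z.im ≤ 2*a) ∨ (-(2*a) ≤ z.re ∧ z.re ≤ a+h ∧ z.im = h) ∨ (z.re = a+h ∧ -(a+h) ≤ z.im ∧ z.im ≤ h) ∨ (-(a+h) ≤ z.re ∧ z.re ≤ a+h ∧ z.im = -(a+h)) ∨ (z.re = -(a+h) ∧ -(a+h) ≤ z.im ∧ z.im ≤ -h) ∨ (-(a+h) ≤ z.re ∧ z.re ≤ -a ∧ z.im = -h) ∨ (z.re = -a ∧ -a ≤ z.im ∧ z.im ≤ -h) ∨ (-a ≤ z.re ∧ z.re ≤ a ∧ z.im = -a) ∨ (z.re = a ∧ -a ≤ z.im ∧ z.im ≤ 0) ∨ (-(2*a) ≤ z.re ∧ z.re ≤ a ∧ z.im = 0) ∨ (z.re = -(2*a) ∧ -(2*a) ≤ z.im ∧ z.im ≤ 0) := frontier_aux1 h0 ha hz.1 hz.2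
    rcases key with k | k | k | k | k | k | k | k | k | k | k | k | k | k
    · exact ⟨0, k⟩
    · exact ⟨1, k⟩
    · exact ⟨2, k⟩
    · exact ⟨3, k⟩
    · exact ⟨4, k⟩
    · exact ⟨5, k⟩
    · exact ⟨6, k⟩
    · exact ⟨7, k⟩
    · exact ⟨8, k⟩
    · exact ⟨9, k⟩
    · exact ⟨10, k⟩
    · exact ⟨11, k⟩
    · exact ⟨12, k⟩
    · exact ⟨13, k⟩
  · rintro ⟨i, hi⟩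
    fin_cases i
    · exact frontier_aux2_0 h0 ha hi
    · exact frontier_aux2_1 h0 ha hi
    · exact frontier_aux2_2 h0 ha hi
    · exact frontier_aux2_3 h0 ha hi
    · exact frontier_aux2_4 h0 ha hi
    · exact frontier_aux2_5 h0 ha hi
    · exact frontier_aux2_6 h0 ha hi
    · exact frontier_aux2_7 h0 ha hi
    · exact frontier_aux2_8 h0 ha hi
    · exact frontier_aux2_9 h0 ha hi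
    · exact frontier_aux2_10 h0 ha hi
    · exact frontier_aux2_11 h0 ha hi
    · exact frontier_aux2_12 h0 ha hi
    · exact frontier_aux2_13 h0 ha hi

end Vale.Agent.DoubleDimer
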