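import Vale.Agent.DoubleDimer.Region

/-!
The boundary polygon is simple.
-/

open Set Filter Topology

namespace Vale.Agent.DoubleDimer

set_option linter.unusedVariables false

theorem simple_0_1 {a h : ℝ} (h0 : 0 < h) (ha : h < a) {z : ℂ}
    (h1 : -(2*a) ≤ z.re ∧ z.re ≤ 2*a ∧ z.im = -(2*a)) (h2 : z.re = 2*a ∧ -(2*a) ≤ z.im ∧ z.im ≤ 2*a) :
    ((z.re = -(2*a) ∧ z.im = -(2*a)) ∨ (z.re = 2*a ∧ z.im = -(2*a))) ∧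
    ((z.re = 2*a ∧ z.im = -(2*a)) ∨ (z.re = 2*a ∧ z.im = 2*a)) := by
  grind -ring (splits := 40)

theorem simple_0_2 {a h : ℝ} (h0 : 0 < h) (ha : h < a) {z : ℂ}
    (h1 : -(2*a) ≤ z.re ∧ z.re ≤ 2*a ∧ z.im = -(2*a)) (h2 : -(2*a) ≤ z.re ∧ z.re ≤ 2*a ∧ z.im = 2*a) :
    ((z.re = -(2*a) ∧ z.im = -(2*a)) ∨ (z.re = 2*a ∧ z.im = -(2*a))) ∧
    ((z.re = 2*a ∧ z.im = 2*a) ∨ (z.re = -(2*a) ∧ z.im = 2*a)) := by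
  grind -ring (splits := 40)

theorem simple_0_3 {a h : ℝ} (h0 : 0 < h) (ha : h < a) {z : ℂ}
    (h1 : -(2*a) ≤ z.re ∧ z.re ≤ 2*a ∧ z.im = -(2*a)) (h2 : z.re = -(2*a) ∧ h ≤ z.im ∧ z.im ≤ 2*a) :
    ((z.re = -(2*a) ∧ z.im = -(2*a)) ∨ (z.re = 2*a ∧ z.im = -(2*a))) ∧
    ((z.re = -(2*a) ∧ z.im = 2*a) ∨ (z.re = -(2*a) ∧ z.im = h)) := by
  grind -ring (splits := 40)

theorem simple_0_4 {a h : ℝ} (h0 : 0 < h) (ha : h < a) {z : ℂ}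
    (h1 : -(2*a) ≤ z.re ∧ z.re ≤ 2*a ∧ z.im = -(2*a)) (h2 : -(2*a) ≤ z.re ∧ z.re ≤ a+h ∧ z.im = h) :
    ((z.re = -(2*a) ∧ z.im = -(2*a)) ∨ (z.re = 2*a ∧ z.im = -(2*a))) ∧
    ((z.re = -(2*a) ∧ z.im = h) ∨ (z.re = a+h ∧ z.im = h)) := by
  grind -ring (splits := 40)

theorem simple_0_5 {a h : ℝ} (h0 : 0 < h) (ha : h < a) {z : ℂ}
    (h1 : -(2*a) ≤ z.re ∧ z.re ≤ 2*a ∧ z.im = -(2*a)) (h2 : z.re = a+h ∧ -(a+h) ≤ z.im ∧ z.im ≤ h) :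
    ((z.re = -(2*a) ∧ z.im = -(2*a)) ∨ (z.re = 2*a ∧ z.im = -(2*a))) ∧
    ((z.re = a+h ∧ z.im = h) ∨ (z.re = a+h ∧ z.im = -(a+h))) := by
  grind -ring (splits := 40)

theorem simple_0_6 {a h : ℝ} (h0 : 0 < h) (ha : h < a) {z : ℂ}
    (h1 : -(2*a) ≤ z.re ∧ z.re ≤ 2*a ∧ z.im = -(2*a)) (h2 : -(a+h) ≤ z.re ∧ z.re ≤ a+h ∧ z.im = -(a+h)) :
    ((z.re = -(2*a) ∧ z.im = -(2*a)) ∨ (z.re = 2*a ∧ z.im = -(2*a))) ∧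
    ((z.re = a+h ∧ z.im = -(a+h)) ∨ (z.re = -(a+h) ∧ z.im = -(a+h))) := by
  grind -ring (splits := 40)

theorem simple_0_7 {a h : ℝ} (h0 : 0 < h) (ha : h < a) {z : ℂ}
    (h1 : -(2*a) ≤ z.re ∧ z.re ≤ 2*a ∧ z.im = -(2*a)) (h2 : z.re = -(a+h) ∧ -(a+h) ≤ z.im ∧ z.im ≤ -h) :
    ((z.re = -(2*a) ∧ z.im = -(2*a)) ∨ (z.re = 2*a ∧ z.im = -(2*a))) ∧
    ((z.re = -(a+h) ∧ z.im = -(a+h)) ∨ (z.re = -(a+h) ∧ z.im = -h)) := by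
  grind -ring (splits := 40)

theorem simple_0_8 {a h : ℝ} (h0 : 0 < h) (ha : h < a) {z : ℂ}
    (h1 : -(2*a) ≤ z.re ∧ z.re ≤ 2*a ∧ z.im = -(2*a)) (h2 : -(a+h) ≤ z.re ∧ z.re ≤ -a ∧ z.im = -h) :
    ((z.re = -(2*a) ∧ z.im = -(2*a)) ∨ (z.re = 2*a ∧ z.im = -(2*a))) ∧
    ((z.re = -(a+h) ∧ z.im = -h) ∨ (z.re = -a ∧ z.im = -h)) := by
  grind -ring (splits := 40)

theorem simple_0_9 {a h : ℝ} (h0 : 0 < h) (ha : h < a) {z : ℂ}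
    (h1 : -(2*a) ≤ z.re ∧ z.re ≤ 2*a ∧ z.im = -(2*a)) (h2 : z.re = -a ∧ -a ≤ z.im ∧ z.im ≤ -h) :
    ((z.re = -(2*a) ∧ z.im = -(2*a)) ∨ (z.re = 2*a ∧ z.im = -(2*a))) ∧
    ((z.re = -a ∧ z.im = -h) ∨ (z.re = -a ∧ z.im = -a)) := by
  grind -ring (splits := 40)

theorem simple_0_10 {a h : ℝ} (h0 : 0 < h) (ha : h < a) {z : ℂ}
    (h1 : -(2*a) ≤ z.re ∧ z.re ≤ 2*a ∧ z.im = -(2*a)) (h2 : -a ≤ z.re ∧ z.re ≤ a ∧ z.im = -a) :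
    ((z.re = -(2*a) ∧ z.im = -(2*a)) ∨ (z.re = 2*a ∧ z.im = -(2*a))) ∧
    ((z.re = -a ∧ z.im = -a) ∨ (z.re = a ∧ z.im = -a)) := by
  grind -ring (splits := 40)

theorem simple_0_11 {a h : ℝ} (h0 : 0 < h) (ha : h < a) {z : ℂ}
    (h1 : -(2*a) ≤ z.re ∧ z.re ≤ 2*a ∧ z.im = -(2*a)) (h2 : z.re = a ∧ -a ≤ z.im ∧ z.im ≤ 0) :
    ((z.re = -(2*a) ∧ z.im = -(2*a)) ∨ (z.re = 2*a ∧ z.im = -(2*a))) ∧
    ((z.re = a ∧ z.im = -a) ∨ (z.re = a ∧ z.im = 0)) := by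
  grind -ring (splits := 40)

theorem simple_0_12 {a h : ℝ} (h0 : 0 < h) (ha : h < a) {z : ℂ}
    (h1 : -(2*a) ≤ z.re ∧ z.re ≤ 2*a ∧ z.im = -(2*a)) (h2 : -(2*a) ≤ z.re ∧ z.re ≤ a ∧ z.im = 0) :
    ((z.re = -(2*a) ∧ z.im = -(2*a)) ∨ (z.re = 2*a ∧ z.im = -(2*a))) ∧
    ((z.re = a ∧ z.im = 0) ∨ (z.re = -(2*a) ∧ z.im = 0)) := by
  grind -ring (splits := 40)

theorem simple_0_13 {a h : ℝ} (h0 : 0 < h) (ha : h < a) {z : ℂ}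
    (h1 : -(2*a) ≤ z.re ∧ z.re ≤ 2*a ∧ z.im = -(2*a)) (h2 : z.re = -(2*a) ∧ -(2*a) ≤ z.im ∧ z.im ≤ 0) :
    ((z.re = -(2*a) ∧ z.im = -(2*a)) ∨ (z.re = 2*a ∧ z.im = -(2*a))) ∧
    ((z.re = -(2*a) ∧ z.im = 0) ∨ (z.re = -(2*a) ∧ z.im = -(2*a))) := by
  grind -ring (splits := 40)

theorem simple_1_2 {a h : ℝ} (h0 : 0 < h) (ha : h < a) {z : ℂ}
    (h1 : z.re = 2*a ∧ -(2*a) ≤ z.im ∧ z.im ≤ 2*a) (h2 : -(2*a) ≤ z.re ∧ z.re ≤ 2*a ∧ z.im = 2*a) :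
    ((z.re = 2*a ∧ z.im = -(2*a)) ∨ (z.re = 2*a ∧ z.im = 2*a)) ∧
    ((z.re = 2*a ∧ z.im = 2*a) ∨ (z.re = -(2*a) ∧ z.im = 2*a)) := by
  grind -ring (splits := 40)

theorem simple_1_3 {a h : ℝ} (h0 : 0 < h) (ha : h < a) {z : ℂ}
    (h1 : z.re = 2*a ∧ -(2*a) ≤ z.im ∧ z.im ≤ 2*a) (h2 : z.re = -(2*a) ∧ h ≤ z.im ∧ z.im ≤ 2*a) :
    ((z.re = 2*a ∧ z.im = -(2*a)) ∨ (z.re = 2*a ∧ z.im = 2*a)) ∧
    ((z.re = -(2*a) ∧ z.im = 2*a) ∨ (z.re = -(2*a) ∧ z.im = h)) := by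
  grind -ring (splits := 40)

theorem simple_1_4 {a h : ℝ} (h0 : 0 < h) (ha : h < a) {z : ℂ}
    (h1 : z.re = 2*a ∧ -(2*a) ≤ z.im ∧ z.im ≤ 2*a) (h2 : -(2*a) ≤ z.re ∧ z.re ≤ a+h ∧ z.im = h) :
    ((z.re = 2*a ∧ z.im = -(2*a)) ∨ (z.re = 2*a ∧ z.im = 2*a)) ∧
    ((z.re = -(2*a) ∧ z.im = h) ∨ (z.re = a+h ∧ z.im = h)) := by
  grind -ring (splits := 40)

theorem simple_1_5 {a h : ℝ} (h0 : 0 < h) (ha : h < a) {z : ℂ}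
    (h1 : z.re = 2*a ∧ -(2*a) ≤ z.im ∧ z.im ≤ 2*a) (h2 : z.re = a+h ∧ -(a+h) ≤ z.im ∧ z.im ≤ h) :
    ((z.re = 2*a ∧ z.im = -(2*a)) ∨ (z.re = 2*a ∧ z.im = 2*a)) ∧
    ((z.re = a+h ∧ z.im = h) ∨ (z.re = a+h ∧ z.im = -(a+h))) := by
  grind -ring (splits := 40)

theorem simple_1_6 {a h : ℝ} (h0 : 0 < h) (ha : h < a) {z : ℂ}
    (h1 : z.re = 2*a ∧ -(2*a) ≤ z.im ∧ z.im ≤ 2*a) (h2 : -(a+h) ≤ z.re ∧ z.re ≤ a+h ∧ z.im = -(a+h)) :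
    ((z.re = 2*a ∧ z.im = -(2*a)) ∨ (z.re = 2*a ∧ z.im = 2*a)) ∧
    ((z.re = a+h ∧ z.im = -(a+h)) ∨ (z.re = -(a+h) ∧ z.im = -(a+h))) := by
  grind -ring (splits := 40)

theorem simple_1_7 {a h : ℝ} (h0 : 0 < h) (ha : h < a) {z : ℂ}
    (h1 : z.re = 2*a ∧ -(2*a) ≤ z.im ∧ z.im ≤ 2*a) (h2 : z.re = -(a+h) ∧ -(a+h) ≤ z.im ∧ z.im ≤ -h) :
    ((z.re = 2*a ∧ z.im = -(2*a)) ∨ (z.re = 2*a ∧ z.im = 2*a)) ∧
    ((z.re = -(a+h) ∧ z.im = -(a+h)) ∨ (z.re = -(a+h) ∧ z.im = -h)) := by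
  grind -ring (splits := 40)

theorem simple_1_8 {a h : ℝ} (h0 : 0 < h) (ha : h < a) {z : ℂ}
    (h1 : z.re = 2*a ∧ -(2*a) ≤ z.im ∧ z.im ≤ 2*a) (h2 : -(a+h) ≤ z.re ∧ z.re ≤ -a ∧ z.im = -h) :
    ((z.re = 2*a ∧ z.im = -(2*a)) ∨ (z.re = 2*a ∧ z.im = 2*a)) ∧
    ((z.re = -(a+h) ∧ z.im = -h) ∨ (z.re = -a ∧ z.im = -h)) := by
  grind -ring (splits := 40)

theorem simple_1_9 {a h : ℝ} (h0 : 0 < h) (ha : h < a) {z : ℂ}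
    (h1 : z.re = 2*a ∧ -(2*a) ≤ z.im ∧ z.im ≤ 2*a) (h2 : z.re = -a ∧ -a ≤ z.im ∧ z.im ≤ -h) :
    ((z.re = 2*a ∧ z.im = -(2*a)) ∨ (z.re = 2*a ∧ z.im = 2*a)) ∧
    ((z.re = -a ∧ z.im = -h) ∨ (z.re = -a ∧ z.im = -a)) := by
  grind -ring (splits := 40)

theorem simple_1_10 {a h : ℝ} (h0 : 0 < h) (ha : h < a) {z : ℂ}
    (h1 : z.re = 2*a ∧ -(2*a) ≤ z.im ∧ z.im ≤ 2*a) (h2 : -a ≤ z.re ∧ z.re ≤ a ∧ z.im = -a) :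
    ((z.re = 2*a ∧ z.im = -(2*a)) ∨ (z.re = 2*a ∧ z.im = 2*a)) ∧
    ((z.re = -a ∧ z.im = -a) ∨ (z.re = a ∧ z.im = -a)) := by
  grind -ring (splits := 40)

theorem simple_1_11 {a h : ℝ} (h0 : 0 < h) (ha : h < a) {z : ℂ}
    (h1 : z.re = 2*a ∧ -(2*a) ≤ z.im ∧ z.im ≤ 2*a) (h2 : z.re = a ∧ -a ≤ z.im ∧ z.im ≤ 0) :
    ((z.re = 2*a ∧ z.im = -(2*a)) ∨ (z.re = 2*a ∧ z.im = 2*a)) ∧
    ((z.re = a ∧ z.im = -a) ∨ (z.re = a ∧ z.im = 0)) := by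
  grind -ring (splits := 40)

theorem simple_1_12 {a h : ℝ} (h0 : 0 < h) (ha : h < a) {z : ℂ}
    (h1 : z.re = 2*a ∧ -(2*a) ≤ z.im ∧ z.im ≤ 2*a) (h2 : -(2*a) ≤ z.re ∧ z.re ≤ a ∧ z.im = 0) :
    ((z.re = 2*a ∧ z.im = -(2*a)) ∨ (z.re = 2*a ∧ z.im = 2*a)) ∧
    ((z.re = a ∧ z.im = 0) ∨ (z.re = -(2*a) ∧ z.im = 0)) := by
  grind -ring (splits := 40)

theorem simple_1_13 {a h : ℝ} (h0 : 0 < h) (ha : h < a) {z : ℂ}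
    (h1 : z.re = 2*a ∧ -(2*a) ≤ z.im ∧ z.im ≤ 2*a) (h2 : z.re = -(2*a) ∧ -(2*a) ≤ z.im ∧ z.im ≤ 0) :
    ((z.re = 2*a ∧ z.im = -(2*a)) ∨ (z.re = 2*a ∧ z.im = 2*a)) ∧
    ((z.re = -(2*a) ∧ z.im = 0) ∨ (z.re = -(2*a) ∧ z.im = -(2*a))) := by
  grind -ring (splits := 40)

theorem simple_2_3 {a h : ℝ} (h0 : 0 < h) (ha : h < a) {z : ℂ}
    (h1 : -(2*a) ≤ z.re ∧ z.re ≤ 2*a ∧ z.im = 2*a) (h2 : z.re = -(2*a) ∧ h ≤ z.im ∧ z.im ≤ 2*a) :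
    ((z.re = 2*a ∧ z.im = 2*a) ∨ (z.re = -(2*a) ∧ z.im = 2*a)) ∧
    ((z.re = -(2*a) ∧ z.im = 2*a) ∨ (z.re = -(2*a) ∧ z.im = h)) := by
  grind -ring (splits := 40)

theorem simple_2_4 {a h : ℝ} (h0 : 0 < h) (ha : h < a) {z : ℂ}
    (h1 : -(2*a) ≤ z.re ∧ z.re ≤ 2*a ∧ z.im = 2*a) (h2 : -(2*a) ≤ z.re ∧ z.re ≤ a+h ∧ z.im = h) :
    ((z.re = 2*a ∧ z.im = 2*a) ∨ (z.re = -(2*a) ∧ z.im = 2*a)) ∧
    ((z.re = -(2*a) ∧ z.im = h) ∨ (z.re = a+h ∧ z.im = h)) := by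
  grind -ring (splits := 40)

theorem simple_2_5 {a h : ℝ} (h0 : 0 < h) (ha : h < a) {z : ℂ}
    (h1 : -(2*a) ≤ z.re ∧ z.re ≤ 2*a ∧ z.im = 2*a) (h2 : z.re = a+h ∧ -(a+h) ≤ z.im ∧ z.im ≤ h) :
    ((z.re = 2*a ∧ z.im = 2*a) ∨ (z.re = -(2*a) ∧ z.im = 2*a)) ∧
    ((z.re = a+h ∧ z.im = h) ∨ (z.re = a+h ∧ z.im = -(a+h))) := by
  grind -ring (splits := 40)

theorem simple_2_6 {a h : ℝ} (h0 : 0 < h) (ha : h < a) {z : ℂ}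
    (h1 : -(2*a) ≤ z.re ∧ z.re ≤ 2*a ∧ z.im = 2*a) (h2 : -(a+h) ≤ z.re ∧ z.re ≤ a+h ∧ z.im = -(a+h)) :
    ((z.re = 2*a ∧ z.im = 2*a) ∨ (z.re = -(2*a) ∧ z.im = 2*a)) ∧
    ((z.re = a+h ∧ z.im = -(a+h)) ∨ (z.re = -(a+h) ∧ z.im = -(a+h))) := by
  grind -ring (splits := 40)

theorem simple_2_7 {a h : ℝ} (h0 : 0 < h) (ha : h < a) {z : ℂ}
    (h1 : -(2*a) ≤ z.re ∧ z.re ≤ 2*a ∧ z.im = 2*a) (h2 : z.re = -(a+h) ∧ -(a+h) ≤ z.im ∧ z.im ≤ -h) :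
    ((z.re = 2*a ∧ z.im = 2*a) ∨ (z.re = -(2*a) ∧ z.im = 2*a)) ∧
    ((z.re = -(a+h) ∧ z.im = -(a+h)) ∨ (z.re = -(a+h) ∧ z.im = -h)) := by
  grind -ring (splits := 40)

theorem simple_2_8 {a h : ℝ} (h0 : 0 < h) (ha : h < a) {z : ℂ}
    (h1 : -(2*a) ≤ z.re ∧ z.re ≤ 2*a ∧ z.im = 2*a) (h2 : -(a+h) ≤ z.re ∧ z.re ≤ -a ∧ z.im = -h) :
    ((z.re = 2*a ∧ z.im = 2*a) ∨ (z.re = -(2*a) ∧ z.im = 2*a)) ∧
    ((z.re = -(a+h) ∧ z.im = -h) ∨ (z.re = -a ∧ z.im = -h)) := by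
  grind -ring (splits := 40)

theorem simple_2_9 {a h : ℝ} (h0 : 0 < h) (ha : h < a) {z : ℂ}
    (h1 : -(2*a) ≤ z.re ∧ z.re ≤ 2*a ∧ z.im = 2*a) (h2 : z.re = -a ∧ -a ≤ z.im ∧ z.im ≤ -h) :
    ((z.re = 2*a ∧ z.im = 2*a) ∨ (z.re = -(2*a) ∧ z.im = 2*a)) ∧
    ((z.re = -a ∧ z.im = -h) ∨ (z.re = -a ∧ z.im = -a)) := by
  grind -ring (splits := 40)

theorem simple_2_10 {a h : ℝ} (h0 : 0 < h) (ha : h < a) {z : ℂ}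
    (h1 : -(2*a) ≤ z.re ∧ z.re ≤ 2*a ∧ z.im = 2*a) (h2 : -a ≤ z.re ∧ z.re ≤ a ∧ z.im = -a) :
    ((z.re = 2*a ∧ z.im = 2*a) ∨ (z.re = -(2*a) ∧ z.im = 2*a)) ∧
    ((z.re = -a ∧ z.im = -a) ∨ (z.re = a ∧ z.im = -a)) := by
  grind -ring (splits := 40)

theorem simple_2_11 {a h : ℝ} (h0 : 0 < h) (ha : h < a) {z : ℂ}
    (h1 : -(2*a) ≤ z.re ∧ z.re ≤ 2*a ∧ z.im = 2*a) (h2 : z.re = a ∧ -a ≤ z.im ∧ z.im ≤ 0) :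
    ((z.re = 2*a ∧ z.im = 2*a) ∨ (z.re = -(2*a) ∧ z.im = 2*a)) ∧
    ((z.re = a ∧ z.im = -a) ∨ (z.re = a ∧ z.im = 0)) := by
  grind -ring (splits := 40)

theorem simple_2_12 {a h : ℝ} (h0 : 0 < h) (ha : h < a) {z : ℂ}
    (h1 : -(2*a) ≤ z.re ∧ z.re ≤ 2*a ∧ z.im = 2*a) (h2 : -(2*a) ≤ z.re ∧ z.re ≤ a ∧ z.im = 0) :
    ((z.re = 2*a ∧ z.im = 2*a) ∨ (z.re = -(2*a) ∧ z.im = 2*a)) ∧
    ((z.re = a ∧ z.im = 0) ∨ (z.re = -(2*a) ∧ z.im = 0)) := by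
  grind -ring (splits := 40)

theorem simple_2_13 {a h : ℝ} (h0 : 0 < h) (ha : h < a) {z : ℂ}
    (h1 : -(2*a) ≤ z.re ∧ z.re ≤ 2*a ∧ z.im = 2*a) (h2 : z.re = -(2*a) ∧ -(2*a) ≤ z.im ∧ z.im ≤ 0) :
    ((z.re = 2*a ∧ z.im = 2*a) ∨ (z.re = -(2*a) ∧ z.im = 2*a)) ∧
    ((z.re = -(2*a) ∧ z.im = 0) ∨ (z.re = -(2*a) ∧ z.im = -(2*a))) := by
  grind -ring (splits := 40)

theorem simple_3_4 {a h : ℝ} (h0 : 0 < h) (ha : h < a) {z : ℂ}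
    (h1 : z.re = -(2*a) ∧ h ≤ z.im ∧ z.im ≤ 2*a) (h2 : -(2*a) ≤ z.re ∧ z.re ≤ a+h ∧ z.im = h) :
    ((z.re = -(2*a) ∧ z.im = 2*a) ∨ (z.re = -(2*a) ∧ z.im = h)) ∧
    ((z.re = -(2*a) ∧ z.im = h) ∨ (z.re = a+h ∧ z.im = h)) := by
  grind -ring (splits := 40)

theorem simple_3_5 {a h : ℝ} (h0 : 0 < h) (ha : h < a) {z : ℂ}
    (h1 : z.re = -(2*a) ∧ h ≤ z.im ∧ z.im ≤ 2*a) (h2 : z.re = a+h ∧ -(a+h) ≤ z.im ∧ z.im ≤ h) :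
    ((z.re = -(2*a) ∧ z.im = 2*a) ∨ (z.re = -(2*a) ∧ z.im = h)) ∧
    ((z.re = a+h ∧ z.im = h) ∨ (z.re = a+h ∧ z.im = -(a+h))) := by
  grind -ring (splits := 40)

theorem simple_3_6 {a h : ℝ} (h0 : 0 < h) (ha : h < a) {z : ℂ}
    (h1 : z.re = -(2*a) ∧ h ≤ z.im ∧ z.im ≤ 2*a) (h2 : -(a+h) ≤ z.re ∧ z.re ≤ a+h ∧ z.im = -(a+h)) :
    ((z.re = -(2*a) ∧ z.im = 2*a) ∨ (z.re = -(2*a) ∧ z.im = h)) ∧
    ((z.re = a+h ∧ z.im = -(a+h)) ∨ (z.re = -(a+h) ∧ z.im = -(a+h))) := by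
  grind -ring (splits := 40)

theorem simple_3_7 {a h : ℝ} (h0 : 0 < h) (ha : h < a) {z : ℂ}
    (h1 : z.re = -(2*a) ∧ h ≤ z.im ∧ z.im ≤ 2*a) (h2 : z.re = -(a+h) ∧ -(a+h) ≤ z.im ∧ z.im ≤ -h) :
    ((z.re = -(2*a) ∧ z.im = 2*a) ∨ (z.re = -(2*a) ∧ z.im = h)) ∧
    ((z.re = -(a+h) ∧ z.im = -(a+h)) ∨ (z.re = -(a+h) ∧ z.im = -h)) := by
  grind -ring (splits := 40)

theorem simple_3_8 {a h : ℝ} (h0 : 0 < h) (ha : h < a) {z : ℂ}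
    (h1 : z.re = -(2*a) ∧ h ≤ z.im ∧ z.im ≤ 2*a) (h2 : -(a+h) ≤ z.re ∧ z.re ≤ -a ∧ z.im = -h) :
    ((z.re = -(2*a) ∧ z.im = 2*a) ∨ (z.re = -(2*a) ∧ z.im = h)) ∧
    ((z.re = -(a+h) ∧ z.im = -h) ∨ (z.re = -a ∧ z.im = -h)) := by
  grind -ring (splits := 40)

theorem simple_3_9 {a h : ℝ} (h0 : 0 < h) (ha : h < a) {z : ℂ}
    (h1 : z.re = -(2*a) ∧ h ≤ z.im ∧ z.im ≤ 2*a) (h2 : z.re = -a ∧ -a ≤ z.im ∧ z.im ≤ -h) :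
    ((z.re = -(2*a) ∧ z.im = 2*a) ∨ (z.re = -(2*a) ∧ z.im = h)) ∧
    ((z.re = -a ∧ z.im = -h) ∨ (z.re = -a ∧ z.im = -a)) := by
  grind -ring (splits := 40)

theorem simple_3_10 {a h : ℝ} (h0 : 0 < h) (ha : h < a) {z : ℂ}
    (h1 : z.re = -(2*a) ∧ h ≤ z.im ∧ z.im ≤ 2*a) (h2 : -a ≤ z.re ∧ z.re ≤ a ∧ z.im = -a) :
    ((z.re = -(2*a) ∧ z.im = 2*a) ∨ (z.re = -(2*a) ∧ z.im = h)) ∧
    ((z.re = -a ∧ z.im = -a) ∨ (z.re = a ∧ z.im = -a)) := by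
  grind -ring (splits := 40)

theorem simple_3_11 {a h : ℝ} (h0 : 0 < h) (ha : h < a) {z : ℂ}
    (h1 : z.re = -(2*a) ∧ h ≤ z.im ∧ z.im ≤ 2*a) (h2 : z.re = a ∧ -a ≤ z.im ∧ z.im ≤ 0) :
    ((z.re = -(2*a) ∧ z.im = 2*a) ∨ (z.re = -(2*a) ∧ z.im = h)) ∧
    ((z.re = a ∧ z.im = -a) ∨ (z.re = a ∧ z.im = 0)) := by
  grind -ring (splits := 40)

theorem simple_3_12 {a h : ℝ} (h0 : 0 < h) (ha : h < a) {z : ℂ}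
    (h1 : z.re = -(2*a) ∧ h ≤ z.im ∧ z.im ≤ 2*a) (h2 : -(2*a) ≤ z.re ∧ z.re ≤ a ∧ z.im = 0) :
    ((z.re = -(2*a) ∧ z.im = 2*a) ∨ (z.re = -(2*a) ∧ z.im = h)) ∧
    ((z.re = a ∧ z.im = 0) ∨ (z.re = -(2*a) ∧ z.im = 0)) := by
  grind -ring (splits := 40)

theorem simple_3_13 {a h : ℝ} (h0 : 0 < h) (ha : h < a) {z : ℂ}
    (h1 : z.re = -(2*a) ∧ h ≤ z.im ∧ z.im ≤ 2*a) (h2 : z.re = -(2*a) ∧ -(2*a) ≤ z.im ∧ z.im ≤ 0) :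
    ((z.re = -(2*a) ∧ z.im = 2*a) ∨ (z.re = -(2*a) ∧ z.im = h)) ∧
    ((z.re = -(2*a) ∧ z.im = 0) ∨ (z.re = -(2*a) ∧ z.im = -(2*a))) := by
  grind -ring (splits := 40)

theorem simple_4_5 {a h : ℝ} (h0 : 0 < h) (ha : h < a) {z : ℂ}
    (h1 : -(2*a) ≤ z.re ∧ z.re ≤ a+h ∧ z.im = h) (h2 : z.re = a+h ∧ -(a+h) ≤ z.im ∧ z.im ≤ h) :
    ((z.re = -(2*a) ∧ z.im = h) ∨ (z.re = a+h ∧ z.im = h)) ∧
    ((z.re = a+h ∧ z.im = h) ∨ (z.re = a+h ∧ z.im = -(a+h))) := by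
  grind -ring (splits := 40)

theorem simple_4_6 {a h : ℝ} (h0 : 0 < h) (ha : h < a) {z : ℂ}
    (h1 : -(2*a) ≤ z.re ∧ z.re ≤ a+h ∧ z.im = h) (h2 : -(a+h) ≤ z.re ∧ z.re ≤ a+h ∧ z.im = -(a+h)) :
    ((z.re = -(2*a) ∧ z.im = h) ∨ (z.re = a+h ∧ z.im = h)) ∧
    ((z.re = a+h ∧ z.im = -(a+h)) ∨ (z.re = -(a+h) ∧ z.im = -(a+h))) := by
  grind -ring (splits := 40)

theorem simple_4_7 {a h : ℝ} (h0 : 0 < h) (ha : h < a) {z : ℂ}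
    (h1 : -(2*a) ≤ z.re ∧ z.re ≤ a+h ∧ z.im = h) (h2 : z.re = -(a+h) ∧ -(a+h) ≤ z.im ∧ z.im ≤ -h) :
    ((z.re = -(2*a) ∧ z.im = h) ∨ (z.re = a+h ∧ z.im = h)) ∧
    ((z.re = -(a+h) ∧ z.im = -(a+h)) ∨ (z.re = -(a+h) ∧ z.im = -h)) := by
  grind -ring (splits := 40)

theorem simple_4_8 {a h : ℝ} (h0 : 0 < h) (ha : h < a) {z : ℂ}
    (h1 : -(2*a) ≤ z.re ∧ z.re ≤ a+h ∧ z.im = h) (h2 : -(a+h) ≤ z.re ∧ z.re ≤ -a ∧ z.im = -h) :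
    ((z.re = -(2*a) ∧ z.im = h) ∨ (z.re = a+h ∧ z.im = h)) ∧
    ((z.re = -(a+h) ∧ z.im = -h) ∨ (z.re = -a ∧ z.im = -h)) := by
  grind -ring (splits := 40)

theorem simple_4_9 {a h : ℝ} (h0 : 0 < h) (ha : h < a) {z : ℂ}
    (h1 : -(2*a) ≤ z.re ∧ z.re ≤ a+h ∧ z.im = h) (h2 : z.re = -a ∧ -a ≤ z.im ∧ z.im ≤ -h) :
    ((z.re = -(2*a) ∧ z.im = h) ∨ (z.re = a+h ∧ z.im = h)) ∧
    ((z.re = -a ∧ z.im = -h) ∨ (z.re = -a ∧ z.im = -a)) := by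
  grind -ring (splits := 40)

theorem simple_4_10 {a h : ℝ} (h0 : 0 < h) (ha : h < a) {z : ℂ}
    (h1 : -(2*a) ≤ z.re ∧ z.re ≤ a+h ∧ z.im = h) (h2 : -a ≤ z.re ∧ z.re ≤ a ∧ z.im = -a) :
    ((z.re = -(2*a) ∧ z.im = h) ∨ (z.re = a+h ∧ z.im = h)) ∧
    ((z.re = -a ∧ z.im = -a) ∨ (z.re = a ∧ z.im = -a)) := by
  grind -ring (splits := 40)

theorem simple_4_11 {a h : ℝ} (h0 : 0 < h) (ha : h < a) {z : ℂ}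
    (h1 : -(2*a) ≤ z.re ∧ z.re ≤ a+h ∧ z.im = h) (h2 : z.re = a ∧ -a ≤ z.im ∧ z.im ≤ 0) :
    ((z.re = -(2*a) ∧ z.im = h) ∨ (z.re = a+h ∧ z.im = h)) ∧
    ((z.re = a ∧ z.im = -a) ∨ (z.re = a ∧ z.im = 0)) := by
  grind -ring (splits := 40)

theorem simple_4_12 {a h : ℝ} (h0 : 0 < h) (ha : h < a) {z : ℂ}
    (h1 : -(2*a) ≤ z.re ∧ z.re ≤ a+h ∧ z.im = h) (h2 : -(2*a) ≤ z.re ∧ z.re ≤ a ∧ z.im = 0) :
    ((z.re = -(2*a) ∧ z.im = h) ∨ (z.re = a+h ∧ z.im = h)) ∧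
    ((z.re = a ∧ z.im = 0) ∨ (z.re = -(2*a) ∧ z.im = 0)) := by
  grind -ring (splits := 40)

theorem simple_4_13 {a h : ℝ} (h0 : 0 < h) (ha : h < a) {z : ℂ}
    (h1 : -(2*a) ≤ z.re ∧ z.re ≤ a+h ∧ z.im = h) (h2 : z.re = -(2*a) ∧ -(2*a) ≤ z.im ∧ z.im ≤ 0) :
    ((z.re = -(2*a) ∧ z.im = h) ∨ (z.re = a+h ∧ z.im = h)) ∧
    ((z.re = -(2*a) ∧ z.im = 0) ∨ (z.re = -(2*a) ∧ z.im = -(2*a))) := by
  grind -ring (splits := 40)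

theorem simple_5_6 {a h : ℝ} (h0 : 0 < h) (ha : h < a) {z : ℂ}
    (h1 : z.re = a+h ∧ -(a+h) ≤ z.im ∧ z.im ≤ h) (h2 : -(a+h) ≤ z.re ∧ z.re ≤ a+h ∧ z.im = -(a+h)) :
    ((z.re = a+h ∧ z.im = h) ∨ (z.re = a+h ∧ z.im = -(a+h))) ∧
    ((z.re = a+h ∧ z.im = -(a+h)) ∨ (z.re = -(a+h) ∧ z.im = -(a+h))) := by
  grind -ring (splits := 40)

theorem simple_5_7 {a h : ℝ} (h0 : 0 < h) (ha : h < a) {z : ℂ}
    (h1 : z.re = a+h ∧ -(a+h) ≤ z.im ∧ z.im ≤ h) (h2 : z.re = -(a+h) ∧ -(a+h) ≤ z.im ∧ z.im ≤ -h) :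
    ((z.re = a+h ∧ z.im = h) ∨ (z.re = a+h ∧ z.im = -(a+h))) ∧
    ((z.re = -(a+h) ∧ z.im = -(a+h)) ∨ (z.re = -(a+h) ∧ z.im = -h)) := by
  grind -ring (splits := 40)

theorem simple_5_8 {a h : ℝ} (h0 : 0 < h) (ha : h < a) {z : ℂ}
    (h1 : z.re = a+h ∧ -(a+h) ≤ z.im ∧ z.im ≤ h) (h2 : -(a+h) ≤ z.re ∧ z.re ≤ -a ∧ z.im = -h) :
    ((z.re = a+h ∧ z.im = h) ∨ (z.re = a+h ∧ z.im = -(a+h))) ∧
    ((z.re = -(a+h) ∧ z.im = -h) ∨ (z.re = -a ∧ z.im = -h)) := by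
  grind -ring (splits := 40)

theorem simple_5_9 {a h : ℝ} (h0 : 0 < h) (ha : h < a) {z : ℂ}
    (h1 : z.re = a+h ∧ -(a+h) ≤ z.im ∧ z.im ≤ h) (h2 : z.re = -a ∧ -a ≤ z.im ∧ z.im ≤ -h) :
    ((z.re = a+h ∧ z.im = h) ∨ (z.re = a+h ∧ z.im = -(a+h))) ∧
    ((z.re = -a ∧ z.im = -h) ∨ (z.re = -a ∧ z.im = -a)) := by
  grind -ring (splits := 40)

theorem simple_5_10 {a h : ℝ} (h0 : 0 < h) (ha : h < a) {z : ℂ}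
    (h1 : z.re = a+h ∧ -(a+h) ≤ z.im ∧ z.im ≤ h) (h2 : -a ≤ z.re ∧ z.re ≤ a ∧ z.im = -a) :
    ((z.re = a+h ∧ z.im = h) ∨ (z.re = a+h ∧ z.im = -(a+h))) ∧
    ((z.re = -a ∧ z.im = -a) ∨ (z.re = a ∧ z.im = -a)) := by
  grind -ring (splits := 40)

theorem simple_5_11 {a h : ℝ} (h0 : 0 < h) (ha : h < a) {z : ℂ}
    (h1 : z.re = a+h ∧ -(a+h) ≤ z.im ∧ z.im ≤ h) (h2 : z.re = a ∧ -a ≤ z.im ∧ z.im ≤ 0) :
    ((z.re = a+h ∧ z.im = h) ∨ (z.re = a+h ∧ z.im = -(a+h))) ∧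
    ((z.re = a ∧ z.im = -a) ∨ (z.re = a ∧ z.im = 0)) := by
  grind -ring (splits := 40)

theorem simple_5_12 {a h : ℝ} (h0 : 0 < h) (ha : h < a) {z : ℂ}
    (h1 : z.re = a+h ∧ -(a+h) ≤ z.im ∧ z.im ≤ h) (h2 : -(2*a) ≤ z.re ∧ z.re ≤ a ∧ z.im = 0) :
    ((z.re = a+h ∧ z.im = h) ∨ (z.re = a+h ∧ z.im = -(a+h))) ∧
    ((z.re = a ∧ z.im = 0) ∨ (z.re = -(2*a) ∧ z.im = 0)) := by
  grind -ring (splits := 40)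

theorem simple_5_13 {a h : ℝ} (h0 : 0 < h) (ha : h < a) {z : ℂ}
    (h1 : z.re = a+h ∧ -(a+h) ≤ z.im ∧ z.im ≤ h) (h2 : z.re = -(2*a) ∧ -(2*a) ≤ z.im ∧ z.im ≤ 0) :
    ((z.re = a+h ∧ z.im = h) ∨ (z.re = a+h ∧ z.im = -(a+h))) ∧
    ((z.re = -(2*a) ∧ z.im = 0) ∨ (z.re = -(2*a) ∧ z.im = -(2*a))) := by
  grind -ring (splits := 40)

theorem simple_6_7 {a h : ℝ} (h0 : 0 < h) (ha : h < a) {z : ℂ}
    (h1 : -(a+h) ≤ z.re ∧ z.re ≤ a+h ∧ z.im = -(a+h)) (h2 : z.re = -(a+h) ∧ -(a+h) ≤ z.im ∧ z.im ≤ -h) :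
    ((z.re = a+h ∧ z.im = -(a+h)) ∨ (z.re = -(a+h) ∧ z.im = -(a+h))) ∧
    ((z.re = -(a+h) ∧ z.im = -(a+h)) ∨ (z.re = -(a+h) ∧ z.im = -h)) := by
  grind -ring (splits := 40)

theorem simple_6_8 {a h : ℝ} (h0 : 0 < h) (ha : h < a) {z : ℂ}
    (h1 : -(a+h) ≤ z.re ∧ z.re ≤ a+h ∧ z.im = -(a+h)) (h2 : -(a+h) ≤ z.re ∧ z.re ≤ -a ∧ z.im = -h) :
    ((z.re = a+h ∧ z.im = -(a+h)) ∨ (z.re = -(a+h) ∧ z.im = -(a+h))) ∧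
    ((z.re = -(a+h) ∧ z.im = -h) ∨ (z.re = -a ∧ z.im = -h)) := by
  grind -ring (splits := 40)

theorem simple_6_9 {a h : ℝ} (h0 : 0 < h) (ha : h < a) {z : ℂ}
    (h1 : -(a+h) ≤ z.re ∧ z.re ≤ a+h ∧ z.im = -(a+h)) (h2 : z.re = -a ∧ -a ≤ z.im ∧ z.im ≤ -h) :
    ((z.re = a+h ∧ z.im = -(a+h)) ∨ (z.re = -(a+h) ∧ z.im = -(a+h))) ∧
    ((z.re = -a ∧ z.im = -h) ∨ (z.re = -a ∧ z.im = -a)) := by
  grind -ring (splits := 40)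

theorem simple_6_10 {a h : ℝ} (h0 : 0 < h) (ha : h < a) {z : ℂ}
    (h1 : -(a+h) ≤ z.re ∧ z.re ≤ a+h ∧ z.im = -(a+h)) (h2 : -a ≤ z.re ∧ z.re ≤ a ∧ z.im = -a) :
    ((z.re = a+h ∧ z.im = -(a+h)) ∨ (z.re = -(a+h) ∧ z.im = -(a+h))) ∧
    ((z.re = -a ∧ z.im = -a) ∨ (z.re = a ∧ z.im = -a)) := by
  grind -ring (splits := 40)

theorem simple_6_11 {a h : ℝ} (h0 : 0 < h) (ha : h < a) {z : ℂ}
    (h1 : -(a+h) ≤ z.re ∧ z.re ≤ a+h ∧ z.im = -(a+h)) (h2 : z.re = a ∧ -a ≤ z.im ∧ z.im ≤ 0) :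
    ((z.re = a+h ∧ z.im = -(a+h)) ∨ (z.re = -(a+h) ∧ z.im = -(a+h))) ∧
    ((z.re = a ∧ z.im = -a) ∨ (z.re = a ∧ z.im = 0)) := by
  grind -ring (splits := 40)

theorem simple_6_12 {a h : ℝ} (h0 : 0 < h) (ha : h < a) {z : ℂ}
    (h1 : -(a+h) ≤ z.re ∧ z.re ≤ a+h ∧ z.im = -(a+h)) (h2 : -(2*a) ≤ z.re ∧ z.re ≤ a ∧ z.im = 0) :
    ((z.re = a+h ∧ z.im = -(a+h)) ∨ (z.re = -(a+h) ∧ z.im = -(a+h))) ∧
    ((z.re = a ∧ z.im = 0) ∨ (z.re = -(2*a) ∧ z.im = 0)) := by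
  grind -ring (splits := 40)

theorem simple_6_13 {a h : ℝ} (h0 : 0 < h) (ha : h < a) {z : ℂ}
    (h1 : -(a+h) ≤ z.re ∧ z.re ≤ a+h ∧ z.im = -(a+h)) (h2 : z.re = -(2*a) ∧ -(2*a) ≤ z.im ∧ z.im ≤ 0) :
    ((z.re = a+h ∧ z.im = -(a+h)) ∨ (z.re = -(a+h) ∧ z.im = -(a+h))) ∧
    ((z.re = -(2*a) ∧ z.im = 0) ∨ (z.re = -(2*a) ∧ z.im = -(2*a))) := by
  grind -ring (splits := 40)

theorem simple_7_8 {a h : ℝ} (h0 : 0 < h) (ha : h < a) {z : ℂ}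
    (h1 : z.re = -(a+h) ∧ -(a+h) ≤ z.im ∧ z.im ≤ -h) (h2 : -(a+h) ≤ z.re ∧ z.re ≤ -a ∧ z.im = -h) :
    ((z.re = -(a+h) ∧ z.im = -(a+h)) ∨ (z.re = -(a+h) ∧ z.im = -h)) ∧
    ((z.re = -(a+h) ∧ z.im = -h) ∨ (z.re = -a ∧ z.im = -h)) := by
  grind -ring (splits := 40)

theorem simple_7_9 {a h : ℝ} (h0 : 0 < h) (ha : h < a) {z : ℂ}
    (h1 : z.re = -(a+h) ∧ -(a+h) ≤ z.im ∧ z.im ≤ -h) (h2 : z.re = -a ∧ -a ≤ z.im ∧ z.im ≤ -h) :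
    ((z.re = -(a+h) ∧ z.im = -(a+h)) ∨ (z.re = -(a+h) ∧ z.im = -h)) ∧
    ((z.re = -a ∧ z.im = -h) ∨ (z.re = -a ∧ z.im = -a)) := by
  grind -ring (splits := 40)

theorem simple_7_10 {a h : ℝ} (h0 : 0 < h) (ha : h < a) {z : ℂ}
    (h1 : z.re = -(a+h) ∧ -(a+h) ≤ z.im ∧ z.im ≤ -h) (h2 : -a ≤ z.re ∧ z.re ≤ a ∧ z.im = -a) :
    ((z.re = -(a+h) ∧ z.im = -(a+h)) ∨ (z.re = -(a+h) ∧ z.im = -h)) ∧
    ((z.re = -a ∧ z.im = -a) ∨ (z.re = a ∧ z.im = -a)) := by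
  grind -ring (splits := 40)

theorem simple_7_11 {a h : ℝ} (h0 : 0 < h) (ha : h < a) {z : ℂ}
    (h1 : z.re = -(a+h) ∧ -(a+h) ≤ z.im ∧ z.im ≤ -h) (h2 : z.re = a ∧ -a ≤ z.im ∧ z.im ≤ 0) :
    ((z.re = -(a+h) ∧ z.im = -(a+h)) ∨ (z.re = -(a+h) ∧ z.im = -h)) ∧
    ((z.re = a ∧ z.im = -a) ∨ (z.re = a ∧ z.im = 0)) := by
  grind -ring (splits := 40)

theorem simple_7_12 {a h : ℝ} (h0 : 0 < h) (ha : h < a) {z : ℂ}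
    (h1 : z.re = -(a+h) ∧ -(a+h) ≤ z.im ∧ z.im ≤ -h) (h2 : -(2*a) ≤ z.re ∧ z.re ≤ a ∧ z.im = 0) :
    ((z.re = -(a+h) ∧ z.im = -(a+h)) ∨ (z.re = -(a+h) ∧ z.im = -h)) ∧
    ((z.re = a ∧ z.im = 0) ∨ (z.re = -(2*a) ∧ z.im = 0)) := by
  grind -ring (splits := 40)

theorem simple_7_13 {a h : ℝ} (h0 : 0 < h) (ha : h < a) {z : ℂ}
    (h1 : z.re = -(a+h) ∧ -(a+h) ≤ z.im ∧ z.im ≤ -h) (h2 : z.re = -(2*a) ∧ -(2*a) ≤ z.im ∧ z.im ≤ 0) :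
    ((z.re = -(a+h) ∧ z.im = -(a+h)) ∨ (z.re = -(a+h) ∧ z.im = -h)) ∧
    ((z.re = -(2*a) ∧ z.im = 0) ∨ (z.re = -(2*a) ∧ z.im = -(2*a))) := by
  grind -ring (splits := 40)

theorem simple_8_9 {a h : ℝ} (h0 : 0 < h) (ha : h < a) {z : ℂ}
    (h1 : -(a+h) ≤ z.re ∧ z.re ≤ -a ∧ z.im = -h) (h2 : z.re = -a ∧ -a ≤ z.im ∧ z.im ≤ -h) :
    ((z.re = -(a+h) ∧ z.im = -h) ∨ (z.re = -a ∧ z.im = -h)) ∧
    ((z.re = -a ∧ z.im = -h) ∨ (z.re = -a ∧ z.im = -a)) := by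
  grind -ring (splits := 40)

theorem simple_8_10 {a h : ℝ} (h0 : 0 < h) (ha : h < a) {z : ℂ}
    (h1 : -(a+h) ≤ z.re ∧ z.re ≤ -a ∧ z.im = -h) (h2 : -a ≤ z.re ∧ z.re ≤ a ∧ z.im = -a) :
    ((z.re = -(a+h) ∧ z.im = -h) ∨ (z.re = -a ∧ z.im = -h)) ∧
    ((z.re = -a ∧ z.im = -a) ∨ (z.re = a ∧ z.im = -a)) := by
  grind -ring (splits := 40)

theorem simple_8_11 {a h : ℝ} (h0 : 0 < h) (ha : h < a) {z : ℂ}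
    (h1 : -(a+h) ≤ z.re ∧ z.re ≤ -a ∧ z.im = -h) (h2 : z.re = a ∧ -a ≤ z.im ∧ z.im ≤ 0) :
    ((z.re = -(a+h) ∧ z.im = -h) ∨ (z.re = -a ∧ z.im = -h)) ∧
    ((z.re = a ∧ z.im = -a) ∨ (z.re = a ∧ z.im = 0)) := by
  grind -ring (splits := 40)

theorem simple_8_12 {a h : ℝ} (h0 : 0 < h) (ha : h < a) {z : ℂ}
    (h1 : -(a+h) ≤ z.re ∧ z.re ≤ -a ∧ z.im = -h) (h2 : -(2*a) ≤ z.re ∧ z.re ≤ a ∧ z.im = 0) :
    ((z.re = -(a+h) ∧ z.im = -h) ∨ (z.re = -a ∧ z.im = -h)) ∧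
    ((z.re = a ∧ z.im = 0) ∨ (z.re = -(2*a) ∧ z.im = 0)) := by
  grind -ring (splits := 40)

theorem simple_8_13 {a h : ℝ} (h0 : 0 < h) (ha : h < a) {z : ℂ}
    (h1 : -(a+h) ≤ z.re ∧ z.re ≤ -a ∧ z.im = -h) (h2 : z.re = -(2*a) ∧ -(2*a) ≤ z.im ∧ z.im ≤ 0) :
    ((z.re = -(a+h) ∧ z.im = -h) ∨ (z.re = -a ∧ z.im = -h)) ∧
    ((z.re = -(2*a) ∧ z.im = 0) ∨ (z.re = -(2*a) ∧ z.im = -(2*a))) := by
  grind -ring (splits := 40)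

theorem simple_9_10 {a h : ℝ} (h0 : 0 < h) (ha : h < a) {z : ℂ}
    (h1 : z.re = -a ∧ -a ≤ z.im ∧ z.im ≤ -h) (h2 : -a ≤ z.re ∧ z.re ≤ a ∧ z.im = -a) :
    ((z.re = -a ∧ z.im = -h) ∨ (z.re = -a ∧ z.im = -a)) ∧
    ((z.re = -a ∧ z.im = -a) ∨ (z.re = a ∧ z.im = -a)) := by
  grind -ring (splits := 40)

theorem simple_9_11 {a h : ℝ} (h0 : 0 < h) (ha : h < a) {z : ℂ}
    (h1 : z.re = -a ∧ -a ≤ z.im ∧ z.im ≤ -h) (h2 : z.re = a ∧ -a ≤ z.im ∧ z.im ≤ 0) :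
    ((z.re = -a ∧ z.im = -h) ∨ (z.re = -a ∧ z.im = -a)) ∧
    ((z.re = a ∧ z.im = -a) ∨ (z.re = a ∧ z.im = 0)) := by
  grind -ring (splits := 40)

theorem simple_9_12 {a h : ℝ} (h0 : 0 < h) (ha : h < a) {z : ℂ}
    (h1 : z.re = -a ∧ -a ≤ z.im ∧ z.im ≤ -h) (h2 : -(2*a) ≤ z.re ∧ z.re ≤ a ∧ z.im = 0) :
    ((z.re = -a ∧ z.im = -h) ∨ (z.re = -a ∧ z.im = -a)) ∧
    ((z.re = a ∧ z.im = 0) ∨ (z.re = -(2*a) ∧ z.im = 0)) := by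
  grind -ring (splits := 40)

theorem simple_9_13 {a h : ℝ} (h0 : 0 < h) (ha : h < a) {z : ℂ}
    (h1 : z.re = -a ∧ -a ≤ z.im ∧ z.im ≤ -h) (h2 : z.re = -(2*a) ∧ -(2*a) ≤ z.im ∧ z.im ≤ 0) :
    ((z.re = -a ∧ z.im = -h) ∨ (z.re = -a ∧ z.im = -a)) ∧
    ((z.re = -(2*a) ∧ z.im = 0) ∨ (z.re = -(2*a) ∧ z.im = -(2*a))) := by
  grind -ring (splits := 40)

theorem simple_10_11 {a h : ℝ} (h0 : 0 < h) (ha : h < a) {z : ℂ}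
    (h1 : -a ≤ z.re ∧ z.re ≤ a ∧ z.im = -a) (h2 : z.re = a ∧ -a ≤ z.im ∧ z.im ≤ 0) :
    ((z.re = -a ∧ z.im = -a) ∨ (z.re = a ∧ z.im = -a)) ∧
    ((z.re = a ∧ z.im = -a) ∨ (z.re = a ∧ z.im = 0)) := by
  grind -ring (splits := 40)

theorem simple_10_12 {a h : ℝ} (h0 : 0 < h) (ha : h < a) {z : ℂ}
    (h1 : -a ≤ z.re ∧ z.re ≤ a ∧ z.im = -a) (h2 : -(2*a) ≤ z.re ∧ z.re ≤ a ∧ z.im = 0) :
    ((z.re = -a ∧ z.im = -a) ∨ (z.re = a ∧ z.im = -a)) ∧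
    ((z.re = a ∧ z.im = 0) ∨ (z.re = -(2*a) ∧ z.im = 0)) := by
  grind -ring (splits := 40)

theorem simple_10_13 {a h : ℝ} (h0 : 0 < h) (ha : h < a) {z : ℂ}
    (h1 : -a ≤ z.re ∧ z.re ≤ a ∧ z.im = -a) (h2 : z.re = -(2*a) ∧ -(2*a) ≤ z.im ∧ z.im ≤ 0) :
    ((z.re = -a ∧ z.im = -a) ∨ (z.re = a ∧ z.im = -a)) ∧
    ((z.re = -(2*a) ∧ z.im = 0) ∨ (z.re = -(2*a) ∧ z.im = -(2*a))) := by
  grind -ring (splits := 40)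

theorem simple_11_12 {a h : ℝ} (h0 : 0 < h) (ha : h < a) {z : ℂ}
    (h1 : z.re = a ∧ -a ≤ z.im ∧ z.im ≤ 0) (h2 : -(2*a) ≤ z.re ∧ z.re ≤ a ∧ z.im = 0) :
    ((z.re = a ∧ z.im = -a) ∨ (z.re = a ∧ z.im = 0)) ∧
    ((z.re = a ∧ z.im = 0) ∨ (z.re = -(2*a) ∧ z.im = 0)) := by
  grind -ring (splits := 40)

theorem simple_11_13 {a h : ℝ} (h0 : 0 < h) (ha : h < a) {z : ℂ}
    (h1 : z.re = a ∧ -a ≤ z.im ∧ z.im ≤ 0) (h2 : z.re = -(2*a) ∧ -(2*a) ≤ z.im ∧ z.im ≤ 0) :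
    ((z.re = a ∧ z.im = -a) ∨ (z.re = a ∧ z.im = 0)) ∧
    ((z.re = -(2*a) ∧ z.im = 0) ∨ (z.re = -(2*a) ∧ z.im = -(2*a))) := by
  grind -ring (splits := 40)

theorem simple_12_13 {a h : ℝ} (h0 : 0 < h) (ha : h < a) {z : ℂ}
    (h1 : -(2*a) ≤ z.re ∧ z.re ≤ a ∧ z.im = 0) (h2 : z.re = -(2*a) ∧ -(2*a) ≤ z.im ∧ z.im ≤ 0) :
    ((z.re = a ∧ z.im = 0) ∨ (z.re = -(2*a) ∧ z.im = 0)) ∧
    ((z.re = -(2*a) ∧ z.im = 0) ∨ (z.re = -(2*a) ∧ z.im = -(2*a))) := by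
  grind -ring (splits := 40)

theorem mem_pair_of {z p q : ℂ} (h : (z.re = p.re ∧ z.im = p.im) ∨ (z.re = q.re ∧ z.im = q.im)) :
    z ∈ ({p, q} : Set ℂ) := by
  rcases h with ⟨h1, h2⟩ | ⟨h1, h2⟩
  · left; exact Complex.ext h1 h2
  · right; exact Complex.ext h1 h2

theorem simple_lt {a h : ℝ} (h0 : 0 < h) (ha : h < a) (i j : Fin 14) (hij : i < j) :
    side a h i ∩ side a h j ⊆ {cor a h i, nxt a h i} ∩ {cor a h j, nxt a h j} := by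
  rintro z ⟨h1, h2⟩
  fin_cases i <;> fin_cases j
  · exact absurd hij (by decide)
  · exact ⟨mem_pair_of (simple_0_1 h0 ha h1 h2).1, mem_pair_of (simple_0_1 h0 ha h1 h2).2⟩
  · exact ⟨mem_pair_of (simple_0_2 h0 ha h1 h2).1, mem_pair_of (simple_0_2 h0 ha h1 h2).2⟩
  · exact ⟨mem_pair_of (simple_0_3 h0 ha h1 h2).1, mem_pair_of (simple_0_3 h0 ha h1 h2).2⟩
  · exact ⟨mem_pair_of (simple_0_4 h0 ha h1 h2).1, mem_pair_of (simple_0_4 h0 ha h1 h2).2⟩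
  · exact ⟨mem_pair_of (simple_0_5 h0 ha h1 h2).1, mem_pair_of (simple_0_5 h0 ha h1 h2).2⟩
  · exact ⟨mem_pair_of (simple_0_6 h0 ha h1 h2).1, mem_pair_of (simple_0_6 h0 ha h1 h2).2⟩
  · exact ⟨mem_pair_of (simple_0_7 h0 ha h1 h2).1, mem_pair_of (simple_0_7 h0 ha h1 h2).2⟩
  · exact ⟨mem_pair_of (simple_0_8 h0 ha h1 h2).1, mem_pair_of (simple_0_8 h0 ha h1 h2).2⟩
  · exact ⟨mem_pair_of (simple_0_9 h0 ha h1 h2).1, mem_pair_of (simple_0_9 h0 ha h1 h2).2⟩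
  · exact ⟨mem_pair_of (simple_0_10 h0 ha h1 h2).1, mem_pair_of (simple_0_10 h0 ha h1 h2).2⟩
  · exact ⟨mem_pair_of (simple_0_11 h0 ha h1 h2).1, mem_pair_of (simple_0_11 h0 ha h1 h2).2⟩
  · exact ⟨mem_pair_of (simple_0_12 h0 ha h1 h2).1, mem_pair_of (simple_0_12 h0 ha h1 h2).2⟩
  · exact ⟨mem_pair_of (simple_0_13 h0 ha h1 h2).1, mem_pair_of (simple_0_13 h0 ha h1 h2).2⟩
  · exact absurd hij (by decide)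
  · exact absurd hij (by decide)
  · exact ⟨mem_pair_of (simple_1_2 h0 ha h1 h2).1, mem_pair_of (simple_1_2 h0 ha h1 h2).2⟩
  · exact ⟨mem_pair_of (simple_1_3 h0 ha h1 h2).1, mem_pair_of (simple_1_3 h0 ha h1 h2).2⟩
  · exact ⟨mem_pair_of (simple_1_4 h0 ha h1 h2).1, mem_pair_of (simple_1_4 h0 ha h1 h2).2⟩
  · exact ⟨mem_pair_of (simple_1_5 h0 ha h1 h2).1, mem_pair_of (simple_1_5 h0 ha h1 h2).2⟩
  · exact ⟨mem_pair_of (simple_1_6 h0 ha h1 h2).1, mem_pair_of (simple_1_6 h0 ha h1 h2).2⟩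
  · exact ⟨mem_pair_of (simple_1_7 h0 ha h1 h2).1, mem_pair_of (simple_1_7 h0 ha h1 h2).2⟩
  · exact ⟨mem_pair_of (simple_1_8 h0 ha h1 h2).1, mem_pair_of (simple_1_8 h0 ha h1 h2).2⟩
  · exact ⟨mem_pair_of (simple_1_9 h0 ha h1 h2).1, mem_pair_of (simple_1_9 h0 ha h1 h2).2⟩
  · exact ⟨mem_pair_of (simple_1_10 h0 ha h1 h2).1, mem_pair_of (simple_1_10 h0 ha h1 h2).2⟩
  · exact ⟨mem_pair_of (simple_1_11 h0 ha h1 h2).1, mem_pair_of (simple_1_11 h0 ha h1 h2).2⟩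
  · exact ⟨mem_pair_of (simple_1_12 h0 ha h1 h2).1, mem_pair_of (simple_1_12 h0 ha h1 h2).2⟩
  · exact ⟨mem_pair_of (simple_1_13 h0 ha h1 h2).1, mem_pair_of (simple_1_13 h0 ha h1 h2).2⟩
  · exact absurd hij (by decide)
  · exact absurd hij (by decide)
  · exact absurd hij (by decide)
  · exact ⟨mem_pair_of (simple_2_3 h0 ha h1 h2).1, mem_pair_of (simple_2_3 h0 ha h1 h2).2⟩
  · exact ⟨mem_pair_of (simple_2_4 h0 ha h1 h2).1, mem_pair_of (simple_2_4 h0 ha h1 h2).2⟩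
  · exact ⟨mem_pair_of (simple_2_5 h0 ha h1 h2).1, mem_pair_of (simple_2_5 h0 ha h1 h2).2⟩
  · exact ⟨mem_pair_of (simple_2_6 h0 ha h1 h2).1, mem_pair_of (simple_2_6 h0 ha h1 h2).2⟩
  · exact ⟨mem_pair_of (simple_2_7 h0 ha h1 h2).1, mem_pair_of (simple_2_7 h0 ha h1 h2).2⟩
  · exact ⟨mem_pair_of (simple_2_8 h0 ha h1 h2).1, mem_pair_of (simple_2_8 h0 ha h1 h2).2⟩
  · exact ⟨mem_pair_of (simple_2_9 h0 ha h1 h2).1, mem_pair_of (simple_2_9 h0 ha h1 h2).2⟩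
  · exact ⟨mem_pair_of (simple_2_10 h0 ha h1 h2).1, mem_pair_of (simple_2_10 h0 ha h1 h2).2⟩
  · exact ⟨mem_pair_of (simple_2_11 h0 ha h1 h2).1, mem_pair_of (simple_2_11 h0 ha h1 h2).2⟩
  · exact ⟨mem_pair_of (simple_2_12 h0 ha h1 h2).1, mem_pair_of (simple_2_12 h0 ha h1 h2).2⟩
  · exact ⟨mem_pair_of (simple_2_13 h0 ha h1 h2).1, mem_pair_of (simple_2_13 h0 ha h1 h2).2⟩
  · exact absurd hij (by decide)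
  · exact absurd hij (by decide)
  · exact absurd hij (by decide)
  · exact absurd hij (by decide)
  · exact ⟨mem_pair_of (simple_3_4 h0 ha h1 h2).1, mem_pair_of (simple_3_4 h0 ha h1 h2).2⟩
  · exact ⟨mem_pair_of (simple_3_5 h0 ha h1 h2).1, mem_pair_of (simple_3_5 h0 ha h1 h2).2⟩
  · exact ⟨mem_pair_of (simple_3_6 h0 ha h1 h2).1, mem_pair_of (simple_3_6 h0 ha h1 h2).2⟩
  · exact ⟨mem_pair_of (simple_3_7 h0 ha h1 h2).1, mem_pair_of (simple_3_7 h0 ha h1 h2).2⟩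
  · exact ⟨mem_pair_of (simple_3_8 h0 ha h1 h2).1, mem_pair_of (simple_3_8 h0 ha h1 h2).2⟩
  · exact ⟨mem_pair_of (simple_3_9 h0 ha h1 h2).1, mem_pair_of (simple_3_9 h0 ha h1 h2).2⟩
  · exact ⟨mem_pair_of (simple_3_10 h0 ha h1 h2).1, mem_pair_of (simple_3_10 h0 ha h1 h2).2⟩
  · exact ⟨mem_pair_of (simple_3_11 h0 ha h1 h2).1, mem_pair_of (simple_3_11 h0 ha h1 h2).2⟩
  · exact ⟨mem_pair_of (simple_3_12 h0 ha h1 h2).1, mem_pair_of (simple_3_12 h0 ha h1 h2).2⟩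
  · exact ⟨mem_pair_of (simple_3_13 h0 ha h1 h2).1, mem_pair_of (simple_3_13 h0 ha h1 h2).2⟩
  · exact absurd hij (by decide)
  · exact absurd hij (by decide)
  · exact absurd hij (by decide)
  · exact absurd hij (by decide)
  · exact absurd hij (by decide)
  · exact ⟨mem_pair_of (simple_4_5 h0 ha h1 h2).1, mem_pair_of (simple_4_5 h0 ha h1 h2).2⟩
  · exact ⟨mem_pair_of (simple_4_6 h0 ha h1 h2).1, mem_pair_of (simple_4_6 h0 ha h1 h2).2⟩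
  · exact ⟨mem_pair_of (simple_4_7 h0 ha h1 h2).1, mem_pair_of (simple_4_7 h0 ha h1 h2).2⟩
  · exact ⟨mem_pair_of (simple_4_8 h0 ha h1 h2).1, mem_pair_of (simple_4_8 h0 ha h1 h2).2⟩
  · exact ⟨mem_pair_of (simple_4_9 h0 ha h1 h2).1, mem_pair_of (simple_4_9 h0 ha h1 h2).2⟩
  · exact ⟨mem_pair_of (simple_4_10 h0 ha h1 h2).1, mem_pair_of (simple_4_10 h0 ha h1 h2).2⟩
  · exact ⟨mem_pair_of (simple_4_11 h0 ha h1 h2).1, mem_pair_of (simple_4_11 h0 ha h1 h2).2⟩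
  · exact ⟨mem_pair_of (simple_4_12 h0 ha h1 h2).1, mem_pair_of (simple_4_12 h0 ha h1 h2).2⟩
  · exact ⟨mem_pair_of (simple_4_13 h0 ha h1 h2).1, mem_pair_of (simple_4_13 h0 ha h1 h2).2⟩
  · exact absurd hij (by decide)
  · exact absurd hij (by decide)
  · exact absurd hij (by decide)
  · exact absurd hij (by decide)
  · exact absurd hij (by decide)
  · exact absurd hij (by decide)
  · exact ⟨mem_pair_of (simple_5_6 h0 ha h1 h2).1, mem_pair_of (simple_5_6 h0 ha h1 h2).2⟩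
  · exact ⟨mem_pair_of (simple_5_7 h0 ha h1 h2).1, mem_pair_of (simple_5_7 h0 ha h1 h2).2⟩
  · exact ⟨mem_pair_of (simple_5_8 h0 ha h1 h2).1, mem_pair_of (simple_5_8 h0 ha h1 h2).2⟩
  · exact ⟨mem_pair_of (simple_5_9 h0 ha h1 h2).1, mem_pair_of (simple_5_9 h0 ha h1 h2).2⟩
  · exact ⟨mem_pair_of (simple_5_10 h0 ha h1 h2).1, mem_pair_of (simple_5_10 h0 ha h1 h2).2⟩
  · exact ⟨mem_pair_of (simple_5_11 h0 ha h1 h2).1, mem_pair_of (simple_5_11 h0 ha h1 h2).2⟩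
  · exact ⟨mem_pair_of (simple_5_12 h0 ha h1 h2).1, mem_pair_of (simple_5_12 h0 ha h1 h2).2⟩
  · exact ⟨mem_pair_of (simple_5_13 h0 ha h1 h2).1, mem_pair_of (simple_5_13 h0 ha h1 h2).2⟩
  · exact absurd hij (by decide)
  · exact absurd hij (by decide)
  · exact absurd hij (by decide)
  · exact absurd hij (by decide)
  · exact absurd hij (by decide)
  · exact absurd hij (by decide)
  · exact absurd hij (by decide)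
  · exact ⟨mem_pair_of (simple_6_7 h0 ha h1 h2).1, mem_pair_of (simple_6_7 h0 ha h1 h2).2⟩
  · exact ⟨mem_pair_of (simple_6_8 h0 ha h1 h2).1, mem_pair_of (simple_6_8 h0 ha h1 h2).2⟩
  · exact ⟨mem_pair_of (simple_6_9 h0 ha h1 h2).1, mem_pair_of (simple_6_9 h0 ha h1 h2).2⟩
  · exact ⟨mem_pair_of (simple_6_10 h0 ha h1 h2).1, mem_pair_of (simple_6_10 h0 ha h1 h2).2⟩
  · exact ⟨mem_pair_of (simple_6_11 h0 ha h1 h2).1, mem_pair_of (simple_6_11 h0 ha h1 h2).2⟩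
  · exact ⟨mem_pair_of (simple_6_12 h0 ha h1 h2).1, mem_pair_of (simple_6_12 h0 ha h1 h2).2⟩
  · exact ⟨mem_pair_of (simple_6_13 h0 ha h1 h2).1, mem_pair_of (simple_6_13 h0 ha h1 h2).2⟩
  · exact absurd hij (by decide)
  · exact absurd hij (by decide)
  · exact absurd hij (by decide)
  · exact absurd hij (by decide)
  · exact absurd hij (by decide)
  · exact absurd hij (by decide)
  · exact absurd hij (by decide)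
  · exact absurd hij (by decide)
  · exact ⟨mem_pair_of (simple_7_8 h0 ha h1 h2).1, mem_pair_of (simple_7_8 h0 ha h1 h2).2⟩
  · exact ⟨mem_pair_of (simple_7_9 h0 ha h1 h2).1, mem_pair_of (simple_7_9 h0 ha h1 h2).2⟩
  · exact ⟨mem_pair_of (simple_7_10 h0 ha h1 h2).1, mem_pair_of (simple_7_10 h0 ha h1 h2).2⟩
  · exact ⟨mem_pair_of (simple_7_11 h0 ha h1 h2).1, mem_pair_of (simple_7_11 h0 ha h1 h2).2⟩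
  · exact ⟨mem_pair_of (simple_7_12 h0 ha h1 h2).1, mem_pair_of (simple_7_12 h0 ha h1 h2).2⟩
  · exact ⟨mem_pair_of (simple_7_13 h0 ha h1 h2).1, mem_pair_of (simple_7_13 h0 ha h1 h2).2⟩
  · exact absurd hij (by decide)
  · exact absurd hij (by decide)
  · exact absurd hij (by decide)
  · exact absurd hij (by decide)
  · exact absurd hij (by decide)
  · exact absurd hij (by decide)
  · exact absurd hij (by decide)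
  · exact absurd hij (by decide)
  · exact absurd hij (by decide)
  · exact ⟨mem_pair_of (simple_8_9 h0 ha h1 h2).1, mem_pair_of (simple_8_9 h0 ha h1 h2).2⟩
  · exact ⟨mem_pair_of (simple_8_10 h0 ha h1 h2).1, mem_pair_of (simple_8_10 h0 ha h1 h2).2⟩
  · exact ⟨mem_pair_of (simple_8_11 h0 ha h1 h2).1, mem_pair_of (simple_8_11 h0 ha h1 h2).2⟩
  · exact ⟨mem_pair_of (simple_8_12 h0 ha h1 h2).1, mem_pair_of (simple_8_12 h0 ha h1 h2).2⟩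
  · exact ⟨mem_pair_of (simple_8_13 h0 ha h1 h2).1, mem_pair_of (simple_8_13 h0 ha h1 h2).2⟩
  · exact absurd hij (by decide)
  · exact absurd hij (by decide)
  · exact absurd hij (by decide)
  · exact absurd hij (by decide)
  · exact absurd hij (by decide)
  · exact absurd hij (by decide)
  · exact absurd hij (by decide)
  · exact absurd hij (by decide)
  · exact absurd hij (by decide)
  · exact absurd hij (by decide)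
  · exact ⟨mem_pair_of (simple_9_10 h0 ha h1 h2).1, mem_pair_of (simple_9_10 h0 ha h1 h2).2⟩
  · exact ⟨mem_pair_of (simple_9_11 h0 ha h1 h2).1, mem_pair_of (simple_9_11 h0 ha h1 h2).2⟩
  · exact ⟨mem_pair_of (simple_9_12 h0 ha h1 h2).1, mem_pair_of (simple_9_12 h0 ha h1 h2).2⟩
  · exact ⟨mem_pair_of (simple_9_13 h0 ha h1 h2).1, mem_pair_of (simple_9_13 h0 ha h1 h2).2⟩
  · exact absurd hij (by decide)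
  · exact absurd hij (by decide)
  · exact absurd hij (by decide)
  · exact absurd hij (by decide)
  · exact absurd hij (by decide)
  · exact absurd hij (by decide)
  · exact absurd hij (by decide)
  · exact absurd hij (by decide)
  · exact absurd hij (by decide)
  · exact absurd hij (by decide)
  · exact absurd hij (by decide)
  · exact ⟨mem_pair_of (simple_10_11 h0 ha h1 h2).1, mem_pair_of (simple_10_11 h0 ha h1 h2).2⟩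
  · exact ⟨mem_pair_of (simple_10_12 h0 ha h1 h2).1, mem_pair_of (simple_10_12 h0 ha h1 h2).2⟩
  · exact ⟨mem_pair_of (simple_10_13 h0 ha h1 h2).1, mem_pair_of (simple_10_13 h0 ha h1 h2).2⟩
  · exact absurd hij (by decide)
  · exact absurd hij (by decide)
  · exact absurd hij (by decide)
  · exact absurd hij (by decide)
  · exact absurd hij (by decide)
  · exact absurd hij (by decide)
  · exact absurd hij (by decide)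
  · exact absurd hij (by decide)
  · exact absurd hij (by decide)
  · exact absurd hij (by decide)
  · exact absurd hij (by decide)
  · exact absurd hij (by decide)
  · exact ⟨mem_pair_of (simple_11_12 h0 ha h1 h2).1, mem_pair_of (simple_11_12 h0 ha h1 h2).2⟩
  · exact ⟨mem_pair_of (simple_11_13 h0 ha h1 h2).1, mem_pair_of (simple_11_13 h0 ha h1 h2).2⟩
  · exact absurd hij (by decide)
  · exact absurd hij (by decide)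
  · exact absurd hij (by decide)
  · exact absurd hij (by decide)
  · exact absurd hij (by decide)
  · exact absurd hij (by decide)
  · exact absurd hij (by decide)
  · exact absurd hij (by decide)
  · exact absurd hij (by decide)
  · exact absurd hij (by decide)
  · exact absurd hij (by decide)
  · exact absurd hij (by decide)
  · exact absurd hij (by decide)
  · exact ⟨mem_pair_of (simple_12_13 h0 ha h1 h2).1, mem_pair_of (simple_12_13 h0 ha h1 h2).2⟩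
  · exact absurd hij (by decide)
  · exact absurd hij (by decide)
  · exact absurd hij (by decide)
  · exact absurd hij (by decide)
  · exact absurd hij (by decide)
  · exact absurd hij (by decide)
  · exact absurd hij (by decide)
  · exact absurd hij (by decide)
  · exact absurd hij (by decide)
  · exact absurd hij (by decide)
  · exact absurd hij (by decide)
  · exact absurd hij (by decide)
  · exact absurd hij (by decide)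
  · exact absurd hij (by decide)

theorem simple_ne {a h : ℝ} (h0 : 0 < h) (ha : h < a) (i j : Fin 14) (hij : i ≠ j) :
    side a h i ∩ side a h j ⊆ {cor a h i, nxt a h i} ∩ {cor a h j, nxt a h j} := by
  rcases lt_or_gt_of_ne hij with h | h
  · exact simple_lt h0 ha i j h
  · rw [inter_comm, inter_comm {cor _ _ i, _}]
    exact simple_lt h0 ha j i h

end Vale.Agent.DoubleDimer
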